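import Vale.Agent.P344.MathlibUsed
attribute [-instance] ProperSMul.toContinuousSMul IsTopologicalTorsor.toContinuousSMul IdemSemiring.toCanonicallyOrderedAdd IdemSemiring.toMulLeftMono IdemSemiring.toMulRightMono AddQuantale.instAddLeftMono AddQuantale.instAddRightMono Quantale.instMulLeftMono Quantale.instMulRightMono FiniteDimensional.rclike_to_real IsScalarTower.complexToReal FiniteDimensional.complexToReal

section

namespace Vale.Agent.P344.Sym

/-- a strictly coarser equivalence relation has fewer classes -/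
lemma card_quotient_lt {X : Type*} [Finite X] {s t : Setoid X} (h : s ≤ t) {x y : X}
    (hs : ¬ s.r x y) (ht : t.r x y) : Nat.card (Quotient t) < Nat.card (Quotient s) := by
  classical
  have : Fintype (Quotient s) := Fintype.ofFinite _
  have : Fintype (Quotient t) := Fintype.ofFinite _
  rw [Nat.card_eq_fintype_card, Nat.card_eq_fintype_card]
  let f : Quotient s → Quotient t := Quotient.map' id (fun a b hab => h hab)
  apply Fintype.card_lt_of_surjective_not_injective f
  · intro q
    obtain ⟨a, rfl⟩ := Quotient.exists_rep q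
    exact ⟨Quotient.mk s a, rfl⟩
  · intro hf
    apply hs
    have : f (Quotient.mk s x) = f (Quotient.mk s y) := Quotient.sound (s := t) ht
    exact Quotient.exact (s := s) (hf this)

/-- spanning forests, in terms of equivalence relations -/
theorem forest {X E : Type*} [Finite X] [DecidableEq E] (s : Setoid X) (a b : E → X)
    (F : Finset E) :
    ∃ T ⊆ F, ∃ t : Setoid X, s ≤ t ∧ (∀ e ∈ F, t.r (a e) (b e)) ∧
      T.card + Nat.card (Quotient t) ≤ Nat.card (Quotient s) ∧
      ∀ t' : Setoid X, s ≤ t' → (∀ e ∈ T, t'.r (a e) (b e)) → t ≤ t' := by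
  classical
  induction F using Finset.induction_on with
  | empty =>
    exact ⟨∅, subset_rfl, s, le_rfl, fun e he => absurd he (Finset.notMem_empty e), by simp only [Finset.card_empty, zero_add, Std.le_refl],
      fun t' h _ => h⟩
  | insert e F he ih =>
    obtain ⟨T, hTF, t, hst, hF, hcard, hmin⟩ := ih
    by_cases hab : t.r (a e) (b e)
    · refine ⟨T, hTF.trans (Finset.subset_insert _ _), t, hst, ?_, hcard, hmin⟩
      intro e' he'
      rcases Finset.mem_insert.mp he' with h | h
      · subst h; exact hab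
      · exact hF e' h
    · set g : Setoid X := Relation.EqvGen.setoid (fun x y => x = a e ∧ y = b e) with hg
      have hgab : g.r (a e) (b e) := Relation.EqvGen.rel _ _ ⟨rfl, rfl⟩
      refine ⟨insert e T, Finset.insert_subset_insert _ hTF, t ⊔ g, hst.trans le_sup_left, ?_, ?_,
        ?_⟩
      · intro e' he'
        rcases Finset.mem_insert.mp he' with h | h
        · subst h
          exact (le_sup_right : g ≤ t ⊔ g) hgab
        · exact (le_sup_left : t ≤ t ⊔ g) (hF e' h)
      · have heT : e ∉ T := fun h => he (hTF h)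
        rw [Finset.card_insert_of_notMem heT]
        have := card_quotient_lt (s := t) (t := t ⊔ g) le_sup_left hab
          ((le_sup_right : g ≤ t ⊔ g) hgab)
        omega
      · intro t' hst' hT'
        apply sup_le
        · exact hmin t' hst' (fun e' he' => hT' e' (Finset.mem_insert_of_mem he'))
        · rw [hg]
          intro x y hxy
          have hxy' : Relation.EqvGen (fun x y => x = a e ∧ y = b e) x y := hxy
          induction hxy' with
          | rel x y h =>
            rw [h.1, h.2]; exact hT' e (Finset.mem_insert_self _ _)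
          | refl x => exact t'.refl x
          | symm x y _ ih => exact t'.symm (ih ‹_›)
          | trans x y z h1 h2 ih1 ih2 => exact t'.trans (ih1 h1) (ih2 h2)

/-- the counting argument -/
theorem edge_count {X E L : Type*} [Finite X] [DecidableEq E] [DecidableEq L] (s : Setoid X)
    (a b : E → X) (lab : E → L) (F : Finset E)
    (h1 : ∀ (T : Finset E) (t : Setoid X),
      (∀ t' : Setoid X, s ≤ t' → (∀ e ∈ T, t'.r (a e) (b e)) → t ≤ t') →
      (∀ e ∈ F, t.r (a e) (b e)) →
      ∀ e ∈ F, ∀ e' ∈ F, e ∉ T → e' ∉ T → e ≠ e' → t.r (a e) (a e') → lab e = lab e' → False)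
    (h2 : ∀ (T : Finset E) (t : Setoid X), s ≤ t →
      (∀ t' : Setoid X, s ≤ t' → (∀ e ∈ T, t'.r (a e) (b e)) → t ≤ t') →
      (∀ e ∈ F, t.r (a e) (b e)) → (∀ e ∈ T, t.r (a e) (b e)) →
      ∀ e₁ ∈ F, ∀ e₂ ∈ F, ∀ e₃ ∈ F, t.r (a e₁) (a e₂) → t.r (a e₁) (a e₃) →
      lab e₁ ≠ lab e₂ → lab e₁ ≠ lab e₃ → lab e₂ ≠ lab e₃ →
      (∀ f ∈ T, t.r (a e₁) (a f) → lab f ≠ lab e₁ ∧ lab f ≠ lab e₂ ∧ lab f ≠ lab e₃) → False) :
    F.card ≤ 2 * Nat.card (Quotient s) := by
  classical
  obtain ⟨T, hTF, t, hst, hF, hcard, hmin⟩ := forest s a b F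
  have : Fintype (Quotient t) := Fintype.ofFinite _
  set z : E → Quotient t := fun e => Quotient.mk t (a e) with hz
  have hzr : ∀ e e', z e = z e' ↔ t.r (a e) (a e') := by
    intro e e'
    constructor
    · intro h; exact Quotient.exact (s := t) h
    · intro h; exact Quotient.sound (s := t) h
  set X1 := (F \ T).filter (fun e => ∃ f ∈ T, z f = z e ∧ lab f = lab e) with hX1
  set X2 := (F \ T).filter (fun e => ¬ ∃ f ∈ T, z f = z e ∧ lab f = lab e) with hX2
  have hsum : X1.card + X2.card = (F \ T).card :=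
    Finset.card_filter_add_card_filter_not _
  have hFT : (F \ T).card + T.card = F.card := Finset.card_sdiff_add_card_eq_card hTF
  have c1 : X1.card ≤ T.card := by
    have hex : ∀ e ∈ X1, ∃ f ∈ T, z f = z e ∧ lab f = lab e := fun e he =>
      (Finset.mem_filter.mp he).2
    choose! φ hφ using hex
    apply Finset.card_le_card_of_injOn φ (fun e he => (hφ e he).1)
    intro e he e' he' hee
    by_contra hne
    have hm := Finset.mem_sdiff.mp (Finset.mem_filter.mp he).1
    have hm' := Finset.mem_sdiff.mp (Finset.mem_filter.mp he').1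
    have p := (hφ e he).2
    have p' := (hφ e' he').2
    rw [← hee] at p'
    exact h1 T t hmin hF e hm.1 e' hm'.1 hm.2 hm'.2 hne ((hzr e e').mp (p.1.symm.trans p'.1))
      (p.2.symm.trans p'.2)
  have c2 : X2.card ≤ 2 * Nat.card (Quotient t) := by
    have h3 : X2.card ≤ 2 * (X2.image z).card := by
      apply Finset.card_le_mul_card_image
      intro q _
      by_contra hcon
      push Not at hcon
      obtain ⟨e₁, he₁, e₂, he₂, e₃, he₃, h12, h13, h23⟩ := Finset.two_lt_card.mp hcon
      obtain ⟨g₁, q₁⟩ := Finset.mem_filter.mp he₁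
      obtain ⟨g₂, q₂⟩ := Finset.mem_filter.mp he₂
      obtain ⟨g₃, q₃⟩ := Finset.mem_filter.mp he₃
      obtain ⟨k₁, n₁⟩ := Finset.mem_filter.mp g₁
      obtain ⟨k₂, n₂⟩ := Finset.mem_filter.mp g₂
      obtain ⟨k₃, n₃⟩ := Finset.mem_filter.mp g₃
      have m₁ := Finset.mem_sdiff.mp k₁
      have m₂ := Finset.mem_sdiff.mp k₂
      have m₃ := Finset.mem_sdiff.mp k₃
      have r12 := (hzr e₁ e₂).mp (q₁.trans q₂.symm)
      have r13 := (hzr e₁ e₃).mp (q₁.trans q₃.symm)
      have r23 := (hzr e₂ e₃).mp (q₂.trans q₃.symm)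
      refine h2 T t hst hmin hF (fun e he => hF e (hTF he)) e₁ m₁.1 e₂ m₂.1 e₃ m₃.1 r12 r13 ?_ ?_
        ?_ ?_
      · intro hl; exact h1 T t hmin hF e₁ m₁.1 e₂ m₂.1 m₁.2 m₂.2 h12 r12 hl
      · intro hl; exact h1 T t hmin hF e₁ m₁.1 e₃ m₃.1 m₁.2 m₃.2 h13 r13 hl
      · intro hl; exact h1 T t hmin hF e₂ m₂.1 e₃ m₃.1 m₂.2 m₃.2 h23 r23 hl
      · intro f hf hr
        have zf : z e₁ = z f := (hzr e₁ f).mpr hr
        refine ⟨fun hl => n₁ ⟨f, hf, zf.symm, hl⟩,
          fun hl => n₂ ⟨f, hf, ?_, hl⟩, fun hl => n₃ ⟨f, hf, ?_, hl⟩⟩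
        · rw [← zf, q₁, q₂]
        · rw [← zf, q₁, q₃]
    have h4 : (X2.image z).card ≤ Nat.card (Quotient t) := by
      rw [Nat.card_eq_fintype_card]
      exact Finset.card_le_univ _
    (clear * - h3 h4; omega)
  omega

end Vale.Agent.P344.Sym
end

section

namespace Vale.Agent.P344.Sym

variable {V : Type*} [AddCommGroup V] [Module ℂ V]

/-- averaging projection onto an eigenspace -/
noncomputable def prj (S : Module.End ℂ V) (q : ℕ) (ψ : ℂ) : Module.End ℂ V :=
  (q : ℂ)⁻¹ • ∑ l ∈ Finset.range q, (ψ⁻¹) ^ l • S ^ l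

lemma prj_apply (S : Module.End ℂ V) (q : ℕ) (ψ : ℂ) (v : V) :
    prj S q ψ v = (q : ℂ)⁻¹ • ∑ l ∈ Finset.range q, (ψ⁻¹) ^ l • (S ^ l) v := by
  simp only [prj, inv_pow, LinearMap.smul_apply, LinearMap.sum_apply]

lemma prj_comm {S T : Module.End ℂ V} (h : Commute S T) (q : ℕ) (ψ : ℂ) (v : V) :
    prj S q ψ (T v) = T (prj S q ψ v) := by
  have : Commute (prj S q ψ) T := by
    unfold prj
    apply Commute.smul_left
    apply Commute.sum_left
    intro l _
    exact ((h.pow_left l).smul_left _)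
  have h2 := LinearMap.congr_fun this.eq v
  simpa only [Module.End.mul_apply] using h2

lemma S_prj {S : Module.End ℂ V} {q : ℕ} (hS : S ^ q = 1) {ψ : ℂ} (hψ : ψ ^ q = 1)
    (hψ0 : ψ ≠ 0) (v : V) : S (prj S q ψ v) = ψ • prj S q ψ v := by
  rw [prj_apply, map_smul, smul_comm ψ]
  congr 1
  rw [map_sum, Finset.smul_sum]
  have h1 : ∀ l, S ((ψ⁻¹) ^ l • (S ^ l) v) = ψ • ((ψ⁻¹) ^ (l + 1) • (S ^ (l + 1)) v) := by
    intro l
    rw [map_smul, smul_smul, pow_succ' S l, Module.End.mul_apply]
    congr 1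
    rw [pow_succ]
    (clear * - hψ0; field_simp)
  simp only [h1]
  rw [← Finset.smul_sum, ← Finset.smul_sum]
  congr 1
  have h2 := Finset.sum_range_succ (fun l => (ψ⁻¹) ^ l • (S ^ l) v) q
  have h3 := Finset.sum_range_succ' (fun l => (ψ⁻¹) ^ l • (S ^ l) v) q
  rw [h2] at h3
  simp only [pow_zero, one_smul] at h3
  rw [hS, inv_pow, hψ, inv_one, one_smul] at h3
  exact (add_right_cancel h3).symm

lemma eig_pow {S : Module.End ℂ V} {ψ : ℂ} {v : V} (hv : S v = ψ • v) (l : ℕ) :
    (S ^ l) v = ψ ^ l • v := by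
  induction l with
  | zero => simp only [pow_zero, Module.End.one_apply, one_smul]
  | succ l ih => rw [pow_succ', Module.End.mul_apply, ih, map_smul, hv, smul_smul, pow_succ]

lemma prj_self {S : Module.End ℂ V} {q : ℕ} (hq : 0 < q) {ψ : ℂ}
    (hψ0 : ψ ≠ 0) {v : V} (hv : S v = ψ • v) : prj S q ψ v = v := by
  rw [prj_apply]
  have h1 : ∀ l ∈ Finset.range q, (ψ⁻¹) ^ l • (S ^ l) v = v := by
    intro l _
    rw [eig_pow hv, smul_smul, ← mul_pow, inv_mul_cancel₀ hψ0, one_pow, one_smul]
  rw [Finset.sum_congr rfl h1, Finset.sum_const, Finset.card_range, ← Nat.cast_smul_eq_nsmul ℂ,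
    smul_smul, inv_mul_cancel₀, one_smul]
  exact_mod_cast hq.ne'

lemma eq_zero_of_two_eig {S : Module.End ℂ V} {ψ ψ' : ℂ} (h : ψ ≠ ψ') {v : V}
    (h1 : S v = ψ • v) (h2 : S v = ψ' • v) : v = 0 := by
  have h3 : (ψ - ψ') • v = 0 := by rw [sub_smul, ← h1, ← h2, sub_self]
  rcases smul_eq_zero.mp h3 with h4 | h4
  · exact absurd (sub_eq_zero.mp h4) h
  · exact h4

lemma prj_other {S : Module.End ℂ V} {q : ℕ} (hS : S ^ q = 1) {ψ ψ' : ℂ} (hψ : ψ ^ q = 1)
    (hψ0 : ψ ≠ 0) (hne : ψ ≠ ψ') {v : V} (hv : S v = ψ' • v) : prj S q ψ v = 0 := by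
  apply eq_zero_of_two_eig (S := S) hne (S_prj hS hψ hψ0 v)
  rw [← prj_comm (Commute.refl S), hv, map_smul]

/-- the orbit relation: equal up to a scalar and a power of `T` -/
def Orb (T : Module.End ℂ V) (u v : V) : Prop := ∃ c : ℂ, c ≠ 0 ∧ ∃ j : ℕ, u = c • (T ^ j) v

lemma pow_inv_apply {T : Module.End ℂ V} {N : ℕ} (hN : 0 < N) (hT : T ^ N = 1) (j : ℕ) (v : V) :
    (T ^ ((N - 1) * j)) ((T ^ j) v) = v := by
  rw [← Module.End.mul_apply, ← pow_add]
  have : (N - 1) * j + j = N * j := by
    obtain ⟨M, rfl⟩ : ∃ M, N = M + 1 := ⟨N - 1, by omega⟩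
    rw [Nat.add_sub_cancel]; ring
  rw [this, pow_mul, hT, one_pow, Module.End.one_apply]

lemma pow_injective {T : Module.End ℂ V} {N : ℕ} (hN : 0 < N) (hT : T ^ N = 1) (j : ℕ) {u v : V}
    (h : (T ^ j) u = (T ^ j) v) : u = v := by
  rw [← pow_inv_apply hN hT j u, h, pow_inv_apply hN hT j v]

lemma Orb.refl (T : Module.End ℂ V) (u : V) : Orb T u u := ⟨1, one_ne_zero, 0, by simp only [pow_zero, Module.End.one_apply, one_smul]⟩

lemma Orb.symm {T : Module.End ℂ V} {N : ℕ} (hN : 0 < N) (hT : T ^ N = 1) {u v : V}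
    (h : Orb T u v) : Orb T v u := by
  obtain ⟨c, hc, j, rfl⟩ := h
  refine ⟨c⁻¹, inv_ne_zero hc, (N - 1) * j, ?_⟩
  rw [map_smul, pow_inv_apply hN hT, smul_smul, inv_mul_cancel₀ hc, one_smul]

lemma Orb.trans {T : Module.End ℂ V} {u v w : V} (h : Orb T u v) (h' : Orb T v w) :
    Orb T u w := by
  obtain ⟨c, hc, j, rfl⟩ := h
  obtain ⟨c', hc', j', rfl⟩ := h'
  refine ⟨c * c', mul_ne_zero hc hc', j + j', ?_⟩
  rw [map_smul, smul_smul, pow_add, Module.End.mul_apply]

/-- in a cyclic group of order `p ^ A`, subgroups are ordered by inclusion -/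
lemma exists_mul_pow {p A B j : ℕ} (hp : p.Prime) (hB : B ≤ A) (hj : ¬ p ^ B ∣ j)
    {T : Module.End ℂ V} (hT : T ^ (p ^ A) = 1) : ∃ l : ℕ, (T ^ j) ^ l = T ^ (p ^ B) := by
  have hg : Nat.gcd j (p ^ A) ∣ p ^ A := Nat.gcd_dvd_right _ _
  obtain ⟨v, hvA, hv⟩ := (Nat.dvd_prime_pow hp).mp hg
  have hvB : v < B := by
    by_contra hcon
    push Not at hcon
    apply hj
    have h1 : p ^ B ∣ p ^ v := Nat.pow_dvd_pow p hcon
    rw [← hv] at h1
    exact h1.trans (Nat.gcd_dvd_left _ _)
  have hlt : Nat.gcd j (p ^ A) < p ^ A := by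
    rw [hv]
    exact Nat.pow_lt_pow_right hp.one_lt (by omega)
  obtain ⟨l, _, hl⟩ := Nat.exists_mul_mod_eq_gcd hlt
  refine ⟨l * p ^ (B - v), ?_⟩
  have h1 : T ^ (j * l) = T ^ (p ^ v) := by
    conv_lhs => rw [← Nat.div_add_mod (j * l) (p ^ A)]
    rw [pow_add, pow_mul, hT, one_pow, one_mul, hl, hv]
  rw [← pow_mul, ← mul_assoc, pow_mul, h1, ← pow_mul, ← pow_add]
  congr 2
  omega

/-- the arithmetic contradiction -/
lemma no_three {p A i : ℕ} (hp : p.Prime) {T : Module.End ℂ V}
    (hT : T ^ (p ^ A) = 1) {ψ₁ ψ₂ ψ₃ : ℂ} (h1 : ψ₁ ^ (p ^ i) = 1) (h2 : ψ₂ ^ (p ^ i) = 1)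
    (h3 : ψ₃ ^ (p ^ i) = 1) (h13 : ψ₁ ≠ ψ₃) (h23 : ψ₂ ≠ ψ₃) {b₁ b₂ b₃ : V}
    (e1 : (T ^ (p ^ (A - i))) b₁ = ψ₁ • b₁) (e2 : (T ^ (p ^ (A - i))) b₂ = ψ₂ • b₂)
    (e3 : (T ^ (p ^ (A - i))) b₃ = ψ₃ • b₃) (hb3 : b₃ ≠ 0)
    {γ₁ γ₂ : ℂ} {J₁ J₂ : ℕ}
    (f12 : γ₁ • (T ^ J₁) b₂ = b₂) (f13 : γ₁ • (T ^ J₁) b₃ = b₃) (f11 : γ₁ • (T ^ J₁) b₁ ≠ b₁)
    (f21 : γ₂ • (T ^ J₂) b₁ = b₁) (f23 : γ₂ • (T ^ J₂) b₃ = b₃) (f22 : γ₂ • (T ^ J₂) b₂ ≠ b₂) :
    False := by
  have hb1 : b₁ ≠ 0 := by intro h; apply f11; rw [h]; simp only [map_zero, smul_zero]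
  have hb2 : b₂ ≠ 0 := by intro h; apply f22; rw [h]; simp only [map_zero, smul_zero]
  have iter : ∀ (γ : ℂ) (J : ℕ) (b : V), γ • (T ^ J) b = b → ∀ l, γ ^ l • ((T ^ J) ^ l) b = b := by
    intro γ J b hb l
    induction l with
    | zero => simp only [pow_zero, Module.End.one_apply, one_smul]
    | succ l ih =>
      rw [pow_succ (T ^ J), Module.End.mul_apply, pow_succ, mul_smul, ← map_smul, hb, ih]
  have key : ∀ (γ : ℂ) (J : ℕ) (b b' : V) (ψ ψ' : ℂ), (T ^ (p ^ (A - i))) b = ψ • b →
      (T ^ (p ^ (A - i))) b' = ψ' • b' → b ≠ 0 → b' ≠ 0 → ψ ≠ ψ' → γ • (T ^ J) b = b →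
      γ • (T ^ J) b' = b' → p ^ (A - i) ∣ J := by
    intro γ J b b' ψ ψ' hb hb' hb0 hb0' hne hf hf'
    by_contra hcon
    obtain ⟨l, hl⟩ := exists_mul_pow hp (Nat.sub_le A i) hcon hT
    have g1 := iter γ J b hf l
    have g2 := iter γ J b' hf' l
    rw [hl, hb, smul_smul] at g1
    rw [hl, hb', smul_smul] at g2
    have g3 : γ ^ l * ψ = 1 := by
      have : (γ ^ l * ψ - 1) • b = 0 := by rw [sub_smul, g1, one_smul, sub_self]
      rcases smul_eq_zero.mp this with h | h
      · linear_combination h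
      · exact absurd h hb0
    have g4 : γ ^ l * ψ' = 1 := by
      have : (γ ^ l * ψ' - 1) • b' = 0 := by rw [sub_smul, g2, one_smul, sub_self]
      rcases smul_eq_zero.mp this with h | h
      · linear_combination h
      · exact absurd h hb0'
    apply hne
    have hγ : γ ^ l ≠ 0 := by
      intro h; rw [h, zero_mul] at g3; exact zero_ne_one g3
    exact mul_left_cancel₀ hγ (g3.trans g4.symm)
  obtain ⟨m₁, hm₁⟩ := key γ₁ J₁ b₂ b₃ ψ₂ ψ₃ e2 e3 hb2 hb3 h23 f12 f13
  obtain ⟨m₂, hm₂⟩ := key γ₂ J₂ b₁ b₃ ψ₁ ψ₃ e1 e3 hb1 hb3 h13 f21 f23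
  have act : ∀ (m : ℕ) (b : V) (ψ : ℂ), (T ^ (p ^ (A - i))) b = ψ • b →
      (T ^ (p ^ (A - i) * m)) b = ψ ^ m • b := by
    intro m b ψ hb
    rw [pow_mul]
    exact eig_pow hb m
  rw [hm₁, act _ _ _ e2, smul_smul] at f12
  rw [hm₁, act _ _ _ e3, smul_smul] at f13
  rw [hm₁, act _ _ _ e1, smul_smul] at f11
  rw [hm₂, act _ _ _ e1, smul_smul] at f21
  rw [hm₂, act _ _ _ e3, smul_smul] at f23
  rw [hm₂, act _ _ _ e2, smul_smul] at f22
  have one_of : ∀ (z : ℂ) (b : V), b ≠ 0 → z • b = b → z = 1 := by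
    intro z b hb h
    have : (z - 1) • b = 0 := by rw [sub_smul, h, one_smul, sub_self]
    rcases smul_eq_zero.mp this with h | h
    · linear_combination h
    · exact absurd h hb
  have g12 := one_of _ _ hb2 f12
  have g13 := one_of _ _ hb3 f13
  have g21 := one_of _ _ hb1 f21
  have g23 := one_of _ _ hb3 f23
  have g11 : γ₁ * ψ₁ ^ m₁ ≠ 1 := fun h => f11 (by rw [h, one_smul])
  have g22 : γ₂ * ψ₂ ^ m₂ ≠ 1 := fun h => f22 (by rw [h, one_smul])
  have hψ3 : ψ₃ ≠ 0 := by
    intro h; rw [h, zero_pow (Nat.pow_pos hp.pos).ne'] at h3; exact zero_ne_one h3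
  set x := ψ₂ / ψ₃ with hx
  set y := ψ₁ / ψ₃ with hy
  have hγ1 : γ₁ ≠ 0 := by intro h; rw [h, zero_mul] at g12; exact zero_ne_one g12
  have hγ2 : γ₂ ≠ 0 := by intro h; rw [h, zero_mul] at g21; exact zero_ne_one g21
  have hx1 : x ^ m₁ = 1 := by
    rw [hx, div_pow, div_eq_one_iff_eq (pow_ne_zero _ hψ3)]
    exact mul_left_cancel₀ hγ1 (g12.trans g13.symm)
  have hy1 : y ^ m₁ ≠ 1 := by
    rw [hy, div_pow, Ne, div_eq_one_iff_eq (pow_ne_zero _ hψ3)]
    intro h; apply g11; rw [h, g13]
  have hy2 : y ^ m₂ = 1 := by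
    rw [hy, div_pow, div_eq_one_iff_eq (pow_ne_zero _ hψ3)]
    exact mul_left_cancel₀ hγ2 (g21.trans g23.symm)
  have hx2 : x ^ m₂ ≠ 1 := by
    rw [hx, div_pow, Ne, div_eq_one_iff_eq (pow_ne_zero _ hψ3)]
    intro h; apply g22; rw [h, g23]
  have hxq : x ^ (p ^ i) = 1 := by rw [hx, div_pow, h2, h3, div_one]
  have hyq : y ^ (p ^ i) = 1 := by rw [hy, div_pow, h1, h3, div_one]
  obtain ⟨α, _, hα⟩ := (Nat.dvd_prime_pow hp).mp (orderOf_dvd_of_pow_eq_one hxq)
  obtain ⟨β, _, hβ⟩ := (Nat.dvd_prime_pow hp).mp (orderOf_dvd_of_pow_eq_one hyq)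
  have k1 : p ^ α ∣ m₁ := by rw [← hα]; exact orderOf_dvd_of_pow_eq_one hx1
  have k2 : p ^ β ∣ m₂ := by rw [← hβ]; exact orderOf_dvd_of_pow_eq_one hy2
  rcases le_total α β with h | h
  · apply hx2
    apply orderOf_dvd_iff_pow_eq_one.mp
    rw [hα]
    exact (Nat.pow_dvd_pow p h).trans k2
  · apply hy1
    apply orderOf_dvd_iff_pow_eq_one.mp
    rw [hβ]
    exact (Nat.pow_dvd_pow p h).trans k1

end Vale.Agent.P344.Sym
end

section

namespace Vale.Agent.P344.Sym

variable {V : Type*} [AddCommGroup V] [Module ℂ V]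

/-- relation used for the linear independence argument -/
def relPi {X W : Type*} [AddCommGroup W] [Module ℂ W] (f : X → W) : Setoid X where
  r x y := ∃ c : ℂ, c ≠ 0 ∧ f x = c • f y
  iseqv := by
    refine ⟨fun x => ⟨1, one_ne_zero, by simp⟩, ?_, ?_⟩
    · rintro x y ⟨c, hc, h⟩
      exact ⟨c⁻¹, inv_ne_zero hc, by rw [h, smul_smul, inv_mul_cancel₀ hc, one_smul]⟩
    · rintro x y z ⟨c, hc, h⟩ ⟨c', hc', h'⟩
      exact ⟨c * c', mul_ne_zero hc hc', by rw [h, h', smul_smul]⟩

/-- simultaneous orbit relation for a family of vectors -/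
def relSim (T : Module.End ℂ V) {N : ℕ} (hN : 0 < N) (hT : T ^ N = 1) {X K : Type*}
    (f : K → X → V) : Setoid X where
  r x y := ∃ c : ℂ, c ≠ 0 ∧ ∃ j : ℕ, ∀ k, f k x = c • (T ^ j) (f k y)
  iseqv := by
    refine ⟨fun x => ⟨1, one_ne_zero, 0, by simp⟩, ?_, ?_⟩
    · rintro x y ⟨c, hc, j, h⟩
      refine ⟨c⁻¹, inv_ne_zero hc, (N - 1) * j, fun k => ?_⟩
      rw [h k, map_smul, pow_inv_apply hN hT, smul_smul, inv_mul_cancel₀ hc, one_smul]
    · rintro x y z ⟨c, hc, j, h⟩ ⟨c', hc', j', h'⟩
      refine ⟨c * c', mul_ne_zero hc hc', j + j', fun k => ?_⟩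
      rw [h k, h' k, map_smul, smul_smul, pow_add, Module.End.mul_apply]

/-- the relation `t`, refined by `t'` on the class of `z` -/
def refineOn {X : Type*} (t t' : Setoid X) (z : X) : Setoid X where
  r x y := t.r x y ∧ (t.r z x → t'.r x y)
  iseqv := by
    refine ⟨fun x => ⟨t.refl x, fun _ => t'.refl x⟩, ?_, ?_⟩
    · rintro x y ⟨h, h'⟩
      exact ⟨t.symm h, fun hz => t'.symm (h' (t.trans hz (t.symm h)))⟩
    · rintro x y w ⟨h, h'⟩ ⟨g, g'⟩
      exact ⟨t.trans h g, fun hz => t'.trans (h' hz) (g' (t.trans hz h))⟩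

theorem orbit_count {p A i m : ℕ} (hp : p.Prime) (hi : i ≤ A) {T : Module.End ℂ V}
    (hT : T ^ (p ^ A) = 1) {X : Type*} [Finite X] (C : X → V) (s : Setoid X)
    (hs : ∀ x y, s.r x y ↔ Orb T (C x) (C y))
    (ψ κ : Fin (p ^ i) → ℂ) (hψ : Function.Injective ψ) (hκ1 : ∀ l, κ l ^ (p ^ A) = 1)
    (hκψ : ∀ l, κ l ^ (p ^ (A - i)) = ψ l)
    (a b : Fin (p ^ i) × Fin m → X) (c : Fin (p ^ i) × Fin m → ℂ) (hc : ∀ e, c e ≠ 0)
    (j : Fin (p ^ i) × Fin m → ℕ)
    (hw : ∀ e, (T ^ (p ^ (A - i))) (C (a e) - c e • (T ^ j e) (C (b e))) =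
      ψ e.1 • (C (a e) - c e • (T ^ j e) (C (b e))))
    (hli : ∀ l, LinearIndependent ℂ (fun r : Fin m =>
      prj T (p ^ A) (κ l) (C (a (l, r)) - c (l, r) • (T ^ j (l, r)) (C (b (l, r)))))) :
    p ^ i * m ≤ 2 * Nat.card (Quotient s) := by
  classical
  have hN : 0 < p ^ A := Nat.pow_pos hp.pos
  have hq : 0 < p ^ i := Nat.pow_pos hp.pos
  have hκ0 : ∀ l, κ l ≠ 0 := by
    intro l h
    have := hκ1 l
    rw [h, zero_pow hN.ne'] at this
    exact zero_ne_one this
  have hψ1 : ∀ l, ψ l ^ (p ^ i) = 1 := by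
    intro l
    rw [← hκψ l, ← pow_mul, ← pow_add, Nat.sub_add_cancel hi, hκ1 l]
  have hψ0 : ∀ l, ψ l ≠ 0 := by
    intro l h
    have := hψ1 l
    rw [h, zero_pow hq.ne'] at this
    exact zero_ne_one this
  have hTd : (T ^ (p ^ (A - i))) ^ (p ^ i) = 1 := by
    rw [← pow_mul, ← pow_add, Nat.sub_add_cancel hi, hT]
  set w : Fin (p ^ i) × Fin m → V := fun e => C (a e) - c e • (T ^ j e) (C (b e)) with hwdef
  -- the projection of an edge vector with another label vanishes
  have hπ0 : ∀ (l : Fin (p ^ i)) (e : Fin (p ^ i) × Fin m), e.1 ≠ l →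
      prj T (p ^ A) (κ l) (w e) = 0 := by
    intro l e hne
    have hne' : ψ l ≠ ψ e.1 := fun h => hne (hψ h).symm
    apply eq_zero_of_two_eig (S := T ^ (p ^ (A - i))) hne'
    · rw [← hκψ l]
      exact eig_pow (S_prj hT (hκ1 l) (hκ0 l) (w e)) _
    · rw [← prj_comm ((Commute.refl T).pow_right _), hw e, map_smul]
  have hπT : ∀ (l : Fin (p ^ i)) (n : ℕ) (v : V), prj T (p ^ A) (κ l) ((T ^ n) v) =
      κ l ^ n • prj T (p ^ A) (κ l) v := by
    intro l n v
    rw [prj_comm ((Commute.refl T).pow_right n)]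
    exact eig_pow (S_prj hT (hκ1 l) (hκ0 l) v) n
  have hcard : (Finset.univ : Finset (Fin (p ^ i) × Fin m)).card = p ^ i * m := by
    rw [Finset.card_univ, Fintype.card_prod, Fintype.card_fin, Fintype.card_fin]
  rw [← hcard]
  apply edge_count s a b Prod.fst
  · -- two edges with the same label
    intro F t hmin hF e _ e' _ heF heF' hee' hr hl
    obtain ⟨l, r⟩ := e
    obtain ⟨l', r'⟩ := e'
    simp only at hl
    subst hl
    set W : Fin m → V := fun r => prj T (p ^ A) (κ l) (w (l, r)) with hW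
    set J : Set (Fin m) := {r | (l, r) ∈ F} with hJ
    set S : Submodule ℂ V := Submodule.span ℂ (W '' J) with hS
    set π : V →ₗ[ℂ] V ⧸ S := S.mkQ ∘ₗ prj T (p ^ A) (κ l) with hπ
    have hπT' : ∀ (n : ℕ) (v : V), π ((T ^ n) v) = κ l ^ n • π v := by
      intro n v
      simp only [hπ, LinearMap.comp_apply, hπT, map_smul]
    have hle : t ≤ relPi (fun x => π (C x)) := by
      apply hmin
      · intro x y hxy
        obtain ⟨c', hc', j', h⟩ := (hs x y).mp hxy
        refine ⟨c' * κ l ^ j', mul_ne_zero hc' (pow_ne_zero _ (hκ0 l)), ?_⟩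
        show π (C x) = (c' * κ l ^ j') • π (C y)
        rw [h, map_smul, hπT', smul_smul]
      · intro f hf
        refine ⟨c f * κ l ^ j f, mul_ne_zero (hc f) (pow_ne_zero _ (hκ0 l)), ?_⟩
        show π (C (a f)) = (c f * κ l ^ j f) • π (C (b f))
        have h0 : π (w f) = 0 := by
          by_cases hfl : f.1 = l
          · have h1 : prj T (p ^ A) (κ l) (w f) ∈ S := by
              apply Submodule.subset_span
              refine ⟨f.2, ?_, ?_⟩
              · show (l, f.2) ∈ F
                rw [← hfl]; exact hf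
              · show prj T (p ^ A) (κ l) (w (l, f.2)) = _
                rw [← hfl]
            simp only [hπ, LinearMap.comp_apply]
            exact (Submodule.Quotient.mk_eq_zero S).mpr h1
          · simp only [hπ, LinearMap.comp_apply, hπ0 l f hfl, map_zero]
        rw [hwdef] at h0
        simp only [map_sub, map_smul, hπT'] at h0
        rw [sub_eq_zero.mp h0, smul_smul]
    -- everything is a multiple of `π (C (a (l, r)))`
    obtain ⟨c₁, hc₁, h₁⟩ : ∃ c : ℂ, c ≠ 0 ∧ π (C (a (l, r))) = c • π (C (b (l, r))) :=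
      hle (hF _ (Finset.mem_univ _))
    obtain ⟨c₂, hc₂, h₂⟩ : ∃ c : ℂ, c ≠ 0 ∧ π (C (a (l, r'))) = c • π (C (b (l, r'))) :=
      hle (hF _ (Finset.mem_univ _))
    obtain ⟨c₃, hc₃, h₃⟩ : ∃ c : ℂ, c ≠ 0 ∧ π (C (a (l, r))) = c • π (C (a (l, r'))) :=
      hle hr
    have g₁ : ∃ μ : ℂ, π (w (l, r)) = μ • π (C (a (l, r))) := by
      refine ⟨1 - c (l, r) * κ l ^ j (l, r) * c₁⁻¹, ?_⟩
      simp only [hwdef, map_sub, map_smul, hπT']
      have : π (C (b (l, r))) = c₁⁻¹ • π (C (a (l, r))) := by
        rw [h₁, smul_smul, inv_mul_cancel₀ hc₁, one_smul]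
      rw [this, smul_smul, smul_smul, sub_smul, one_smul, mul_assoc]
    have g₂ : ∃ μ : ℂ, π (w (l, r')) = μ • π (C (a (l, r))) := by
      refine ⟨(1 - c (l, r') * κ l ^ j (l, r') * c₂⁻¹) * c₃⁻¹, ?_⟩
      simp only [hwdef, map_sub, map_smul, hπT']
      have e1 : π (C (b (l, r'))) = c₂⁻¹ • π (C (a (l, r'))) := by
        rw [h₂, smul_smul, inv_mul_cancel₀ hc₂, one_smul]
      have e2 : π (C (a (l, r'))) = c₃⁻¹ • π (C (a (l, r))) := by
        rw [h₃, smul_smul, inv_mul_cancel₀ hc₃, one_smul]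
      rw [e1, e2]
      simp only [smul_smul]
      rw [← sub_smul]
      congr 1
      ring
    obtain ⟨μ, hμ⟩ := g₁
    obtain ⟨μ', hμ'⟩ := g₂
    have hrr' : r ≠ r' := fun h => hee' (by rw [h])
    have hrJ : r ∉ J := heF
    have hrJ' : r' ∉ J := heF'
    have mem_of : ∀ v, π v = 0 → prj T (p ^ A) (κ l) v ∈ S := by
      intro v hv
      simp only [hπ, LinearMap.comp_apply] at hv
      exact (Submodule.Quotient.mk_eq_zero S).mp hv
    by_cases hμ0 : μ' = 0
    · have : π (w (l, r')) = 0 := by rw [hμ', hμ0, zero_smul]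
      exact (hli l).notMem_span_image hrJ' (mem_of _ this)
    · have h5 : π (μ' • w (l, r) - μ • w (l, r')) = 0 := by
        rw [map_sub, map_smul, map_smul, hμ, hμ', smul_smul, smul_smul, mul_comm, sub_self]
      have h6 := mem_of _ h5
      rw [map_sub, map_smul, map_smul] at h6
      have h7 : W r ∈ Submodule.span ℂ (W '' (insert r' J)) := by
        have h8 : μ' • W r - μ • W r' ∈ Submodule.span ℂ (W '' (insert r' J)) :=
          Submodule.span_mono (Set.image_mono (Set.subset_insert _ _)) h6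
        have h9 : W r' ∈ Submodule.span ℂ (W '' (insert r' J)) :=
          Submodule.subset_span ⟨r', Set.mem_insert _ _, rfl⟩
        have h10 : W r = μ'⁻¹ • ((μ' • W r - μ • W r') + μ • W r') := by
          rw [sub_add_cancel, smul_smul, inv_mul_cancel₀ hμ0, one_smul]
        rw [h10]
        exact Submodule.smul_mem _ _ (Submodule.add_mem _ h8 (Submodule.smul_mem _ _ h9))
      refine (hli l).notMem_span_image ?_ h7
      intro h
      rcases Set.mem_insert_iff.mp h with h | h
      · exact hrr' h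
      · exact hrJ h
  · -- three edges with different labels
    intro F t hst hmin hF hFt e₁ _ e₂ _ e₃ _ hr12 hr13 hl12 hl13 hl23 hno
    -- components
    set P : Fin (p ^ i) → Module.End ℂ V :=
      fun l => prj (T ^ (p ^ (A - i))) (p ^ i) (ψ l) with hP
    have hPT : ∀ (l : Fin (p ^ i)) (n : ℕ) (v : V), P l ((T ^ n) v) = (T ^ n) (P l v) := by
      intro l n v
      exact prj_comm (((Commute.refl T).pow_left _).pow_right n) _ _ v
    have hPe : ∀ (l : Fin (p ^ i)) (v : V), (T ^ (p ^ (A - i))) (P l v) = ψ l • P l v :=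
      fun l v => S_prj hTd (hψ1 l) (hψ0 l) v
    have hPw : ∀ (l : Fin (p ^ i)) (e : Fin (p ^ i) × Fin m), e.1 ≠ l → P l (w e) = 0 := by
      intro l e hne
      exact prj_other hTd (hψ1 l) (hψ0 l) (fun h => hne (hψ h).symm) (hw e)
    have hPs : ∀ e : Fin (p ^ i) × Fin m, P e.1 (w e) = w e := by
      intro e
      exact prj_self hq (hψ0 _) (hw e)
    have hw0 : ∀ e : Fin (p ^ i) × Fin m, w e ≠ 0 := by
      intro e h
      have := (hli e.1).ne_zero e.2
      apply this
      show prj T (p ^ A) (κ e.1) (w (e.1, e.2)) = 0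
      rw [Prod.mk.eta, h, map_zero]
    set ls : Fin 3 → Fin (p ^ i) := ![e₁.1, e₂.1, e₃.1] with hls
    set R : Setoid X := relSim T hN hT (fun (k : Fin 3) x => P (ls k) (C x)) with hR
    have hle : t ≤ refineOn t R (a e₁) := by
      apply hmin
      · intro x y hxy
        refine ⟨hst hxy, fun _ => ?_⟩
        obtain ⟨c', hc', j', h⟩ := (hs x y).mp hxy
        refine ⟨c', hc', j', fun k => ?_⟩
        show P (ls k) (C x) = c' • (T ^ j') (P (ls k) (C y))
        rw [h, map_smul, hPT]
      · intro f hf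
        refine ⟨hFt f hf, fun hz => ⟨c f, hc f, j f, fun k => ?_⟩⟩
        obtain ⟨n1, n2, n3⟩ := hno f hf hz
        have hk : f.1 ≠ ls k := by
          fin_cases k
          · exact n1
          · exact n2
          · exact n3
        have := hPw (ls k) f hk
        rw [hwdef] at this
        simp only [map_sub, map_smul, hPT] at this
        exact sub_eq_zero.mp this
    -- all vectors in the component are simultaneously equivalent
    have hcomp : ∀ x, t.r (a e₁) x → R.r (a e₁) x := fun x hx => (hle hx).2 (t.refl _)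
    -- each of the three edges gives an element fixing all but its own component of `b`
    have main : ∀ e : Fin (p ^ i) × Fin m, t.r (a e₁) (a e) → ∃ γ : ℂ, ∃ J' : ℕ,
        (∀ k : Fin 3, ls k ≠ e.1 → γ • (T ^ J') (P (ls k) (C (a e₁))) = P (ls k) (C (a e₁))) ∧
        (∀ k : Fin 3, ls k = e.1 →
          γ • (T ^ J') (P (ls k) (C (a e₁))) ≠ P (ls k) (C (a e₁))) := by
      intro e he
      have hb : t.r (a e₁) (b e) := t.trans he (hF e (Finset.mem_univ _))
      obtain ⟨c₁, hc₁, j₁, h₁⟩ : ∃ c : ℂ, c ≠ 0 ∧ ∃ j : ℕ, ∀ k : Fin 3,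
          P (ls k) (C (a e₁)) = c • (T ^ j) (P (ls k) (C (a e))) := hcomp _ he
      obtain ⟨c₂, hc₂, j₂, h₂⟩ : ∃ c : ℂ, c ≠ 0 ∧ ∃ j : ℕ, ∀ k : Fin 3,
          P (ls k) (C (b e)) = c • (T ^ j) (P (ls k) (C (a e₁))) := R.symm (hcomp _ hb)
      refine ⟨c₁ * c e * c₂, j₁ + j e + j₂, ?_, ?_⟩
      · intro k hk
        have h0 := hPw (ls k) e (Ne.symm hk)
        rw [hwdef] at h0
        simp only [map_sub, map_smul, hPT] at h0
        have h3 := sub_eq_zero.mp h0
        rw [pow_add, pow_add, Module.End.mul_apply, Module.End.mul_apply]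
        conv_rhs => rw [h₁ k, h3, h₂ k]
        simp only [mul_assoc, map_smul, smul_smul]
      · intro k hk hcon
        have h0 := hPs e
        rw [← hk] at h0
        apply hw0 e
        rw [← h0]
        have h4 : w e = C (a e) - c e • (T ^ j e) (C (b e)) := rfl
        rw [h4]
        simp only [map_sub, map_smul, hPT]
        rw [sub_eq_zero, h₂ k]
        have h5 : c₁ • (T ^ j₁) (P (ls k) (C (a e))) =
            c₁ • (T ^ j₁) (c e • (T ^ j e) (c₂ • (T ^ j₂) (P (ls k) (C (a e₁))))) := by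
          rw [← h₁ k]
          conv_lhs => rw [← hcon]
          simp only [mul_assoc, pow_add, Module.End.mul_apply, map_smul, smul_smul]
        have h6 : (T ^ j₁) (P (ls k) (C (a e))) =
            (T ^ j₁) (c e • (T ^ j e) (c₂ • (T ^ j₂) (P (ls k) (C (a e₁))))) := by
          exact smul_right_injective V hc₁ h5
        exact pow_injective hN hT j₁ h6
    obtain ⟨γ₁, J₁, q11, q12⟩ := main e₁ (t.refl _)
    obtain ⟨γ₂, J₂, q21, q22⟩ := main e₂ hr12
    obtain ⟨γ₃, J₃, _, q32⟩ := main e₃ hr13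
    have hb3 : P e₃.1 (C (a e₁)) ≠ 0 := by
      intro h
      apply q32 2 rfl
      show γ₃ • (T ^ J₃) (P e₃.1 (C (a e₁))) = P e₃.1 (C (a e₁))
      rw [h]; simp
    exact no_three hp hT (hψ1 e₁.1) (hψ1 e₂.1) (hψ1 e₃.1)
      (fun h => hl13 (hψ h)) (fun h => hl23 (hψ h)) (hPe _ _) (hPe _ _) (hPe _ _) hb3
      (q11 1 (Ne.symm hl12)) (q11 2 (Ne.symm hl13)) (q12 0 rfl)
      (q21 0 hl12) (q21 2 (Ne.symm hl23)) (q22 1 rfl)

end Vale.Agent.P344.Sym
end

section

namespace Vale.Agent.P344.Sym

variable {V : Type*} [AddCommGroup V] [Module ℂ V]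

/-- eigenvector of `T ^ d` (or zero) -/
def Eig (T : Module.End ℂ V) (d : ℕ) (u : V) : Prop := ∃ ψ : ℂ, (T ^ d) u = ψ • u

lemma Eig.mul {T : Module.End ℂ V} {d : ℕ} {u : V} (h : Eig T d u) (l : ℕ) : Eig T (d * l) u := by
  obtain ⟨ψ, hψ⟩ := h
  exact ⟨ψ ^ l, by rw [pow_mul]; exact eig_pow hψ l⟩

lemma Eig.dvd {T : Module.End ℂ V} {d d' : ℕ} (hd : d ∣ d') {u : V} (h : Eig T d u) :
    Eig T d' u := by
  obtain ⟨l, rfl⟩ := hd
  exact h.mul l

lemma Eig.orb {T : Module.End ℂ V} {d : ℕ} {u v : V} (h : Orb T u v) (hv : Eig T d v) :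
    Eig T d u := by
  obtain ⟨c, _, j, rfl⟩ := h
  obtain ⟨ψ, hψ⟩ := hv
  refine ⟨ψ, ?_⟩
  rw [map_smul, ← Module.End.mul_apply, ← pow_add, add_comm, pow_add, Module.End.mul_apply, hψ,
    map_smul, smul_comm]

lemma exists_mul_pow' {p A B j : ℕ} (hp : p.Prime) (hB : B < A) (hj : ¬ p ^ (B + 1) ∣ j)
    {T : Module.End ℂ V} (hT : T ^ (p ^ A) = 1) : ∃ l : ℕ, (T ^ j) ^ l = T ^ (p ^ B) := by
  have hg : Nat.gcd j (p ^ A) ∣ p ^ A := Nat.gcd_dvd_right _ _
  obtain ⟨v, hvA, hv⟩ := (Nat.dvd_prime_pow hp).mp hg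
  have hvB : v ≤ B := by
    by_contra hcon
    push Not at hcon
    apply hj
    have h1 : p ^ (B + 1) ∣ p ^ v := Nat.pow_dvd_pow p hcon
    rw [← hv] at h1
    exact h1.trans (Nat.gcd_dvd_left _ _)
  have hlt : Nat.gcd j (p ^ A) < p ^ A := by
    rw [hv]
    exact Nat.pow_lt_pow_right hp.one_lt (by omega)
  obtain ⟨l, _, hl⟩ := Nat.exists_mul_mod_eq_gcd hlt
  refine ⟨l * p ^ (B - v), ?_⟩
  have h1 : T ^ (j * l) = T ^ (p ^ v) := by
    conv_lhs => rw [← Nat.div_add_mod (j * l) (p ^ A)]
    rw [pow_add, pow_mul, hT, one_pow, one_mul, hl, hv]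
  rw [← pow_mul, ← mul_assoc, pow_mul, h1, ← pow_mul, ← pow_add]
  congr 2
  (clear * - hvB; omega)

/-- the orbit equivalence relation on the computed vectors that are not `T ^ d`-eigenvectors -/
def orbS (T : Module.End ℂ V) {N : ℕ} (hN : 0 < N) (hT : T ^ N = 1) {len : ℕ} (C : Fin len → V)
    (d : ℕ) : Setoid {k : Fin len // ¬ Eig T d (C k)} where
  r x y := Orb T (C x) (C y)
  iseqv := ⟨fun _ => Orb.refl T _, fun h => h.symm hN hT, fun h h' => h.trans h'⟩

lemma geom_bound {p : ℕ} (hp : 1 ≤ p) (A a : ℕ) (ha : a ≤ A) :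
    (p - 1) * ∑ i ∈ (Finset.Icc 1 A).filter (fun i => a < i), p ^ (A - i) ≤ p ^ (A - a) := by
  have h1 : ∑ i ∈ (Finset.Icc 1 A).filter (fun i => a < i), p ^ (A - i) =
      ∑ j ∈ Finset.range (A - a), p ^ j := by
    apply Finset.sum_bij' (fun i _ => A - i) (fun j _ => A - j)
    · intro i hi
      simp only [Finset.mem_filter, Finset.mem_Icc] at hi
      simp only [Finset.mem_range]; omega
    · intro j hj
      simp only [Finset.mem_range] at hj
      simp only [Finset.mem_filter, Finset.mem_Icc]; omega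
    · intro i hi
      simp only [Finset.mem_filter, Finset.mem_Icc] at hi
      (clear * - hi; omega)
    · intro j hj
      simp only [Finset.mem_range] at hj
      omega
    · intro i hi; rfl
  rw [h1]
  have h2 : (p - 1) * ∑ j ∈ Finset.range (A - a), p ^ j + 1 = p ^ (A - a) := by
    induction (A - a) with
    | zero => simp only [Finset.range_zero, Finset.sum_empty, mul_zero, zero_add, pow_zero]
    | succ k ih =>
      rw [Finset.sum_range_succ, mul_add]
      calc (p - 1) * ∑ j ∈ Finset.range k, p ^ j + (p - 1) * p ^ k + 1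
          = ((p - 1) * ∑ j ∈ Finset.range k, p ^ j + 1) + (p - 1) * p ^ k := by ring
        _ = p ^ k + (p - 1) * p ^ k := by rw [ih]
        _ = (1 + (p - 1)) * p ^ k := by ring
        _ = p ^ (k + 1) := by rw [Nat.add_sub_cancel' hp, pow_succ]; ring
  omega

theorem total_count {p A n : ℕ} (hp : p.Prime) {T : Module.End ℂ V}
    (hN : 0 < p ^ A) (hT : T ^ (p ^ A) = 1) {len : ℕ} (C : Fin len → V)
    (hclosed : ∀ k, ∃ k', ∃ c : ℂ, c ≠ 0 ∧ T (C k) = c • C k')
    (hlev : ∀ i, 1 ≤ i → i ≤ A →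
      n ≤ 2 * p ^ (A - i) * Nat.card (Quotient (orbS T hN hT C (p ^ (A - i))))) :
    (p - 1) * A * n ≤ 2 * Nat.card {k : Fin len // ¬ Eig T 1 (C k)} := by
  classical
  -- closure under powers
  have hcl : ∀ (j : ℕ) (k : Fin len), ∃ k', ∃ c : ℂ, c ≠ 0 ∧ (T ^ j) (C k) = c • C k' := by
    intro j
    induction j with
    | zero => intro k; exact ⟨k, 1, one_ne_zero, by simp only [pow_zero, Module.End.one_apply, one_smul]⟩
    | succ j ih =>
      intro k
      obtain ⟨k', c, hc, h⟩ := ih k
      obtain ⟨k'', c', hc', h'⟩ := hclosed k'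
      refine ⟨k'', c * c', mul_ne_zero hc hc', ?_⟩
      rw [pow_succ', Module.End.mul_apply, h, map_smul, h', smul_smul]
  set sA := orbS T hN hT C 1 with hsA
  set Q := Quotient sA with hQ
  have : Fintype Q := Fintype.ofFinite _
  set lv : Q → ℕ := fun O => Nat.findGreatest (fun a => Eig T (p ^ (A - a)) (C O.out)) A with hlv
  have lv_le : ∀ O, lv O ≤ A := fun O => Nat.findGreatest_le A
  have lv_eig : ∀ O, Eig T (p ^ (A - lv O)) (C O.out) := by
    intro O
    have h0 : Eig T (p ^ (A - 0)) (C O.out) := by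
      rw [Nat.sub_zero]
      exact ⟨1, by rw [hT]; simp only [Module.End.one_apply, one_smul]⟩
    exact Nat.findGreatest_spec (P := fun a => Eig T (p ^ (A - a)) (C O.out)) (Nat.zero_le A) h0
  have lv_max : ∀ (O : Q) (a : ℕ), lv O < a → a ≤ A → ¬ Eig T (p ^ (A - a)) (C O.out) := by
    intro O a h1 h2
    exact Nat.findGreatest_is_greatest (P := fun a => Eig T (p ^ (A - a)) (C O.out)) h1 h2
  have lv_lt : ∀ O, lv O < A := by
    intro O
    rcases Nat.lt_or_eq_of_le (lv_le O) with h | h
    · exact h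
    · exfalso
      have h1 := lv_eig O
      rw [h, Nat.sub_self, pow_zero] at h1
      exact O.out.2 h1
  -- large fibres
  have fib : ∀ O : Q, p ^ (A - lv O) ≤
      (Finset.univ.filter (fun k : {k : Fin len // ¬ Eig T 1 (C k)} =>
        Quotient.mk sA k = O)).card := by
    intro O
    have hex : ∀ j : ℕ, ∃ k : {k : Fin len // ¬ Eig T 1 (C k)}, Quotient.mk sA k = O ∧
        ∃ c : ℂ, c ≠ 0 ∧ (T ^ j) (C O.out) = c • C k := by
      intro j
      obtain ⟨k', c, hc, h⟩ := hcl j O.out
      have horb : Orb T (C k') (C O.out) := by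
        refine ⟨c⁻¹, inv_ne_zero hc, j, ?_⟩
        rw [h, smul_smul, inv_mul_cancel₀ hc, one_smul]
      have hne : ¬ Eig T 1 (C k') := fun he => O.out.2 (he.orb (horb.symm hN hT))
      refine ⟨⟨k', hne⟩, ?_, c, hc, h⟩
      conv_rhs => rw [← Quotient.out_eq O]
      exact Quotient.sound (s := sA) horb
    choose f hf1 cf hcf hf2 using hex
    rw [← Finset.card_range (p ^ (A - lv O))]
    apply Finset.card_le_card_of_injOn f
    · intro j _
      simp only [Finset.coe_filter, Finset.mem_univ, true_and, Set.mem_ofPred_eq]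
      exact hf1 j
    · have key : ∀ j j' : ℕ, j < j' → j' < p ^ (A - lv O) → f j = f j' → False := by
        intro j j' hjj' hj' hff
        have h1 : (T ^ j') (C O.out) = (cf j' * (cf j)⁻¹) • (T ^ j) (C O.out) := by
          rw [hf2 j', hf2 j, ← hff, smul_smul, mul_assoc, inv_mul_cancel₀ (hcf j), mul_one]
        have h2 : Eig T (j' - j) (C O.out) := by
          refine ⟨cf j' * (cf j)⁻¹, ?_⟩
          apply pow_injective hN hT j
          rw [← Module.End.mul_apply, ← pow_add, map_smul, Nat.add_sub_cancel' hjj'.le]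
          exact h1
        have hlt := lv_lt O
        have hndvd : ¬ p ^ ((A - (lv O + 1)) + 1) ∣ (j' - j) := by
          intro hd
          have h3 := Nat.le_of_dvd (by omega) hd
          have h4 : A - (lv O + 1) + 1 = A - lv O := by omega
          rw [h4] at h3
          (clear * - hN hT hjj' hj' hlt h3; omega)
        obtain ⟨l, hl⟩ := exists_mul_pow' hp (by omega : A - (lv O + 1) < A) hndvd hT
        have h5 : Eig T (p ^ (A - (lv O + 1))) (C O.out) := by
          obtain ⟨ψ, hψ⟩ := h2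
          refine ⟨ψ ^ l, ?_⟩
          rw [← hl]
          exact eig_pow hψ l
        exact lv_max O (lv O + 1) (Nat.lt_succ_self _) (by omega) h5
      intro j hj j' hj' hff
      simp only [Finset.coe_range, Set.mem_Iio] at hj hj'
      rcases lt_trichotomy j j' with h | h | h
      · exact absurd (key j j' h hj' hff) id
      · exact h
      · exact absurd (key j' j h hj hff.symm) id
  -- classes of low level
  have low : ∀ i, 1 ≤ i → i ≤ A → Nat.card (Quotient (orbS T hN hT C (p ^ (A - i)))) ≤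
      (Finset.univ.filter (fun O : Q => lv O < i)).card := by
    intro i hi1 hiA
    have : Fintype (Quotient (orbS T hN hT C (p ^ (A - i)))) := Fintype.ofFinite _
    rw [Nat.card_eq_fintype_card, ← Finset.card_univ]
    let ι : {k : Fin len // ¬ Eig T (p ^ (A - i)) (C k)} → {k : Fin len // ¬ Eig T 1 (C k)} :=
      fun k => ⟨k.1, fun h => k.2 (h.dvd (one_dvd _))⟩
    let g : Quotient (orbS T hN hT C (p ^ (A - i))) → Q :=
      Quotient.map' ι (fun a b hab => hab)
    apply Finset.card_le_card_of_injOn g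
    · intro q _
      obtain ⟨k, rfl⟩ := Quotient.exists_rep q
      simp only [Finset.coe_filter, Finset.mem_univ, true_and, Set.mem_ofPred_eq]
      have hg : g (Quotient.mk _ k) = Quotient.mk sA (ι k) := rfl
      rw [hg]
      set O := Quotient.mk sA (ι k) with hO
      by_contra hcon
      push Not at hcon
      have horb : Orb T (C (ι k)) (C O.out) := by
        have : sA.r (ι k) O.out := Quotient.exact (s := sA) (by rw [Quotient.out_eq])
        exact this
      have h1 : Eig T (p ^ (A - i)) (C O.out) :=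
        (lv_eig O).dvd (Nat.pow_dvd_pow p (by omega))
      exact k.2 (h1.orb horb)
    · intro q _ q' _ hqq
      obtain ⟨k, rfl⟩ := Quotient.exists_rep q
      obtain ⟨k', rfl⟩ := Quotient.exists_rep q'
      have : sA.r (ι k) (ι k') := Quotient.exact (s := sA) hqq
      exact Quotient.sound (s := orbS T hN hT C (p ^ (A - i))) this
  -- double counting
  have h1 : Nat.card {k : Fin len // ¬ Eig T 1 (C k)} =
      ∑ O : Q, (Finset.univ.filter (fun k : {k : Fin len // ¬ Eig T 1 (C k)} =>
        Quotient.mk sA k = O)).card := by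
    rw [Nat.card_eq_fintype_card, ← Finset.card_univ]
    exact Finset.card_eq_sum_card_fiberwise (fun _ _ => Finset.mem_univ _)
  rw [h1]
  have h2 : ∑ O : Q, (p - 1) * ∑ i ∈ (Finset.Icc 1 A).filter (fun i => lv O < i), p ^ (A - i) ≤
      ∑ O : Q, (Finset.univ.filter (fun k : {k : Fin len // ¬ Eig T 1 (C k)} =>
        Quotient.mk sA k = O)).card :=
    Finset.sum_le_sum (fun O _ => (geom_bound hp.one_lt.le A (lv O) (lv_le O)).trans (fib O))
  have h3 : ∑ O : Q, (p - 1) * ∑ i ∈ (Finset.Icc 1 A).filter (fun i => lv O < i), p ^ (A - i) =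
      (p - 1) * ∑ i ∈ Finset.Icc 1 A,
        p ^ (A - i) * (Finset.univ.filter (fun O : Q => lv O < i)).card := by
    rw [← Finset.mul_sum]
    congr 1
    simp only [Finset.sum_filter]
    rw [Finset.sum_comm]
    apply Finset.sum_congr rfl
    intro i _
    rw [Finset.card_filter, Finset.mul_sum]
    apply Finset.sum_congr rfl
    intro O _
    split_ifs <;> simp
  have h4 : ∑ i ∈ Finset.Icc 1 A, n ≤ ∑ i ∈ Finset.Icc 1 A,
      2 * (p ^ (A - i) * (Finset.univ.filter (fun O : Q => lv O < i)).card) := by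
    apply Finset.sum_le_sum
    intro i hi
    rw [Finset.mem_Icc] at hi
    calc n ≤ 2 * p ^ (A - i) * Nat.card (Quotient (orbS T hN hT C (p ^ (A - i)))) :=
          hlev i hi.1 hi.2
      _ ≤ 2 * p ^ (A - i) * (Finset.univ.filter (fun O : Q => lv O < i)).card :=
          Nat.mul_le_mul_left _ (low i hi.1 hi.2)
      _ = _ := by ring
  rw [Finset.sum_const, Nat.card_Icc, Nat.add_sub_cancel, smul_eq_mul, ← Finset.mul_sum] at h4
  calc (p - 1) * A * n = (p - 1) * (A * n) := by ring
    _ ≤ (p - 1) * (2 * ∑ i ∈ Finset.Icc 1 A,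
        p ^ (A - i) * (Finset.univ.filter (fun O : Q => lv O < i)).card) :=
      Nat.mul_le_mul_left _ h4
    _ = 2 * ((p - 1) * ∑ i ∈ Finset.Icc 1 A,
        p ^ (A - i) * (Finset.univ.filter (fun O : Q => lv O < i)).card) := by ring
    _ ≤ _ := by
      rw [← h3]
      exact Nat.mul_le_mul_left _ h2

end Vale.Agent.P344.Sym
end

section

namespace Vale.Agent.P344.Stable

/-- A gate of a linear circuit; it reads values by their address. -/
inductive Gate where
  | add (i j : ℕ)
  | sub (i j : ℕ)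
  | smul (a : ℂ) (i : ℕ)

/-- The value a gate computes from the memory `m`. -/
def Gate.apply {M : Type*} [AddCommGroup M] [Module ℂ M] (m : ℕ → M) : Gate → M
  | .add i j => m i + m j
  | .sub i j => m i - m j
  | .smul a i => a • m i

/-- A linear circuit with `n` inputs and `n` outputs: gates `0, ..., size - 1`, executed in this
order, and the addresses of the outputs. -/
structure Circuit (n : ℕ) where
  size : ℕ
  gate : ℕ → Gate
  out : Fin n → ℕ

/-- The memory after the first `t` gates, on input `x`, when the error `e g` is added to the value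
of gate `g` (`e = 0`: exact run). Address `i < n` holds input `i`, address `n + g` holds the value
of gate `g < t`, and every other address holds the constant `0`. -/
def Circuit.mem {n : ℕ} {M : Type*} [AddCommGroup M] [Module ℂ M] (c : Circuit n)
    (x : Fin n → M) (e : ℕ → M) : ℕ → ℕ → M
  | 0 => fun i => if h : i < n then x ⟨i, h⟩ else 0
  | t + 1 => Function.update (c.mem x e t) (n + t) ((c.gate t).apply (c.mem x e t) + e t)

end Vale.Agent.P344.Stable
end

section

namespace Vale.Agent.P344.Cancel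

open Vale.Agent.P344.Stable

variable {n : ℕ}

/-- The exact outputs of the circuit are `lam` times the unnormalized discrete Fourier transform. -/
def ComputesDFT (c : Circuit n) (lam : ℂ) : Prop :=
  ∀ (x : Fin n → ℂ) (k : Fin n), c.mem x 0 c.size (c.out k) =
    lam * ∑ j : Fin n, Complex.exp (2 * Real.pi * Complex.I * (j : ℂ) * (k : ℂ) / n) * x j

/-- Coefficient vector of the linear form held at address `i` after the first `t` gates. The norm
on `Fin n → ℂ` is the sup norm: the largest modulus of a coefficient. -/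
noncomputable def coeffs (c : Circuit n) (t i : ℕ) : Fin n → ℂ :=
  fun j => c.mem (Pi.single j (1 : ℂ)) 0 t i

/-- Cancellation at gate `g` (an addition or subtraction): sum of the sup norms of the two forms
it reads, divided by the sup norm of the form it computes. -/
noncomputable def cancel (c : Circuit n) (g : ℕ) : ℝ :=
  match c.gate g with
  | .add i j => (‖coeffs c g i‖ + ‖coeffs c g j‖) / ‖coeffs c (g + 1) (n + g)‖
  | .sub i j => (‖coeffs c g i‖ + ‖coeffs c g j‖) / ‖coeffs c (g + 1) (n + g)‖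
  | .smul _ _ => 0

/-- The addition and subtraction gates. -/
noncomputable def additions (c : Circuit n) : Finset ℕ := by
  classical
  exact (Finset.range c.size).filter (fun g => ∀ a i, c.gate g ≠ Gate.smul a i)

end Vale.Agent.P344.Cancel
end

section

namespace Vale.Agent.P344.Cancel

open Finset Matrix

/-- Rectangular expansion of the determinant of a product. -/
lemma det_mul_expand {n d : ℕ} (A : Matrix (Fin d) (Fin n) ℂ) (B : Matrix (Fin n) (Fin d) ℂ) :
    (A * B).det = ∑ f : Fin d → Fin n, (∏ i, A i (f i)) * (B.submatrix f id).det := by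
  have h1 : A * B = fun i => ∑ k, A i k • B k := by
    ext i j
    simp only [Matrix.mul_apply, Finset.sum_apply, Pi.smul_apply, smul_eq_mul]
  have h2 : (A * B).det = Matrix.detRowAlternating (fun i => ∑ k, A i k • B k) := by
    rw [h1]; rfl
  rw [h2]
  have h3 := (Matrix.detRowAlternating (R := ℂ) (n := Fin d)).toMultilinearMap.map_sum
    (fun (i : Fin d) (k : Fin n) => A i k • B k)
  rw [AlternatingMap.coe_multilinearMap] at h3
  rw [h3]
  apply sum_congr rfl
  intro f _
  have h4 := (Matrix.detRowAlternating (R := ℂ) (n := Fin d)).toMultilinearMap.map_smul_univ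
    (fun i => A i (f i)) (fun i => B (f i))
  rw [AlternatingMap.coe_multilinearMap] at h4
  rw [h4, smul_eq_mul]
  rfl

/-- Cauchy-Binet, summed over all tuples. -/
lemma sum_normSq_det {n d : ℕ} (M : Matrix (Fin n) (Fin d) ℂ) :
    ∑ f : Fin d → Fin n, (starRingEnd ℂ) (M.submatrix f id).det * (M.submatrix f id).det =
      (d.factorial : ℂ) * (M.conjTranspose * M).det := by
  have h1 : ∀ f : Fin d → Fin n, (starRingEnd ℂ) (M.submatrix f id).det =
      ∑ σ : Equiv.Perm (Fin d), ((Equiv.Perm.sign σ : ℤ) : ℂ) *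
        ∏ i, (starRingEnd ℂ) (M (f (σ i)) i) := by
    intro f
    rw [Matrix.det_apply', map_sum]
    apply sum_congr rfl
    intro σ _
    rw [map_mul, map_prod]
    simp only [map_intCast, submatrix_apply, id_eq]
  have h2 : ∀ (σ : Equiv.Perm (Fin d)),
      ∑ f : Fin d → Fin n, (((Equiv.Perm.sign σ : ℤ) : ℂ) *
        ∏ i, (starRingEnd ℂ) (M (f (σ i)) i)) * (M.submatrix f id).det =
      (M.conjTranspose * M).det := by
    intro σ
    rw [det_mul_expand]
    -- reindex f = f' ∘ σ⁻¹
    rw [← Equiv.sum_comp (Equiv.arrowCongr σ (Equiv.refl (Fin n)))]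
    apply sum_congr rfl
    intro f _
    have e1 : ∀ i, (Equiv.arrowCongr σ (Equiv.refl (Fin n))) f (σ i) = f i := by
      intro i; simp [Equiv.arrowCongr]
    simp only [e1]
    have e2 : (M.submatrix ((Equiv.arrowCongr σ (Equiv.refl (Fin n))) f) id) =
        (M.submatrix f id).submatrix σ.symm id := by
      ext i j; simp only [Equiv.arrowCongr, Equiv.coe_refl, CompTriple.comp_eq, Equiv.refl_symm, Equiv.coe_fn_mk, submatrix_apply, Function.comp_apply, id_eq]
    rw [e2]
    have e3 := Matrix.det_permute σ.symm (M.submatrix f id)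
    rw [e3]
    have e4 : ((Equiv.Perm.sign σ : ℤ) : ℂ) * ((Equiv.Perm.sign σ.symm : ℤ) : ℂ) = 1 := by
      rw [Equiv.Perm.sign_symm, ← Int.cast_mul, ← Units.val_mul, Int.units_mul_self]
      simp
    calc _ = (((Equiv.Perm.sign σ : ℤ) : ℂ) * ((Equiv.Perm.sign σ.symm : ℤ) : ℂ)) *
        ((∏ i, (starRingEnd ℂ) (M (f i) i)) * (M.submatrix f id).det) := by ring
      _ = _ := by
        rw [e4, one_mul]
        rfl
  simp only [h1, sum_mul]
  rw [sum_comm]
  rw [sum_congr rfl (fun σ _ => h2 σ), sum_const, card_univ, Fintype.card_perm,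
    Fintype.card_fin, nsmul_eq_mul]

lemma sum_norm_sq_det {n d : ℕ} (M : Matrix (Fin n) (Fin d) ℂ) (r : ℝ)
    (hM : M.conjTranspose * M = (r : ℂ) • (1 : Matrix (Fin d) (Fin d) ℂ)) :
    ∑ f : Fin d → Fin n, ‖(M.submatrix f id).det‖ ^ 2 = (d.factorial : ℝ) * r ^ d := by
  have h := sum_normSq_det M
  rw [hM, Matrix.det_smul, Matrix.det_one, mul_one, Fintype.card_fin] at h
  have h2 : ∀ f : Fin d → Fin n, (starRingEnd ℂ) (M.submatrix f id).det *
      (M.submatrix f id).det = ((‖(M.submatrix f id).det‖ ^ 2 : ℝ) : ℂ) := by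
    intro f
    rw [mul_comm, Complex.mul_conj, Complex.normSq_eq_norm_sq]
  rw [sum_congr rfl (fun f _ => h2 f)] at h
  exact_mod_cast h

lemma det_submatrix_eq_zero {n d : ℕ} (M : Matrix (Fin n) (Fin d) ℂ) (f : Fin d → Fin n)
    (hf : ¬ Function.Injective f) : (M.submatrix f id).det = 0 := by
  rw [Function.not_injective_iff] at hf
  obtain ⟨i, j, hij, hne⟩ := hf
  apply Matrix.det_zero_of_row_eq hne
  ext k
  simp [hij]

/-- every maximal minor of a matrix with orthonormal columns is at most one -/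
lemma norm_det_le_one {n d : ℕ} (M : Matrix (Fin n) (Fin d) ℂ)
    (hM : M.conjTranspose * M = 1) (f : Fin d → Fin n) :
    ‖(M.submatrix f id).det‖ ≤ 1 := by
  by_cases hf : Function.Injective f
  · have h := sum_norm_sq_det M 1 (by rw [hM]; simp)
    rw [one_pow, mul_one] at h
    have hinj : Function.Injective (fun σ : Equiv.Perm (Fin d) => (f ∘ σ : Fin d → Fin n)) := by
      intro σ τ hst
      ext i
      have := congrFun hst i
      simp only [Function.comp_apply] at this
      exact congrArg Fin.val (hf this)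
    have h2 : ∑ σ : Equiv.Perm (Fin d), ‖(M.submatrix (f ∘ σ) id).det‖ ^ 2 ≤
        ∑ g : Fin d → Fin n, ‖(M.submatrix g id).det‖ ^ 2 := by
      rw [← Finset.sum_image (s := Finset.univ)
        (g := fun σ : Equiv.Perm (Fin d) => (f ∘ σ : Fin d → Fin n))
        (f := fun g : Fin d → Fin n => ‖(M.submatrix g id).det‖ ^ 2) (hinj.injOn)]
      apply Finset.sum_le_sum_of_subset_of_nonneg (subset_univ _)
      intro _ _ _
      (clear * -; positivity)
    have h3 : ∀ σ : Equiv.Perm (Fin d), ‖(M.submatrix (f ∘ σ) id).det‖ ^ 2 =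
        ‖(M.submatrix f id).det‖ ^ 2 := by
      intro σ
      have : M.submatrix (f ∘ σ) id = (M.submatrix f id).submatrix σ id := by
        ext i j; simp
      rw [this, Matrix.det_permute, norm_mul]
      have : ‖((Equiv.Perm.sign σ : ℤ) : ℂ)‖ = 1 := by
        rcases Int.units_eq_one_or (Equiv.Perm.sign σ) with hs | hs <;> simp only [hs, Units.val_neg, Units.val_one, Int.reduceNeg, Int.cast_neg, Int.cast_one, norm_neg, norm_one]
      rw [this, one_mul]
    rw [sum_congr rfl (fun σ _ => h3 σ), sum_const, card_univ, Fintype.card_perm,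
      Fintype.card_fin, nsmul_eq_mul, h] at h2
    have hd : (0 : ℝ) < d.factorial := by exact_mod_cast Nat.factorial_pos d
    have h4 : ‖(M.submatrix f id).det‖ ^ 2 ≤ 1 := by
      nlinarith only [h2, hd]
    nlinarith only [h4]
  · rw [det_submatrix_eq_zero M f hf]
    simp only [norm_zero, zero_le_one]

/-- some maximal minor is large -/
lemma exists_norm_det_ge {n d : ℕ} (hd : d ≤ n) (M : Matrix (Fin n) (Fin d) ℂ) (r : ℝ)
    (hM : M.conjTranspose * M = (r : ℂ) • (1 : Matrix (Fin d) (Fin d) ℂ)) :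
    ∃ f : Fin d → Fin n, r ^ d ≤ (n.choose d : ℝ) * ‖(M.submatrix f id).det‖ ^ 2 := by
  classical
  by_contra hcon
  push Not at hcon
  have h := sum_norm_sq_det M r hM
  have hsub : ∑ f : Fin d → Fin n, ‖(M.submatrix f id).det‖ ^ 2 =
      ∑ f ∈ (univ.filter (fun f : Fin d → Fin n => Function.Injective f)),
        ‖(M.submatrix f id).det‖ ^ 2 := by
    symm
    apply Finset.sum_subset (subset_univ _)
    intro f _ hf
    have : ¬ Function.Injective f := by
      intro hi
      exact hf (mem_filter.mpr ⟨mem_univ _, hi⟩)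
    rw [det_submatrix_eq_zero M f this]
    simp
  have hcard : (univ.filter (fun f : Fin d → Fin n => Function.Injective f)).card =
      n.descFactorial d := by
    have := Fintype.card_embedding_eq (α := Fin d) (β := Fin n)
    rw [Fintype.card_fin, Fintype.card_fin] at this
    rw [← this, ← Fintype.card_subtype]
    exact Fintype.card_congr (Equiv.subtypeInjectiveEquivEmbedding _ _)
  have hchoose : (0 : ℝ) < n.choose d := by exact_mod_cast Nat.choose_pos hd
  have hpos : 0 < n.descFactorial d := by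
    rw [Nat.descFactorial_eq_factorial_mul_choose]
    exact Nat.mul_pos (Nat.factorial_pos _) (Nat.choose_pos hd)
  have hne : (univ.filter (fun f : Fin d → Fin n => Function.Injective f)).Nonempty := by
    rw [← card_pos, hcard]; exact hpos
  have hlt : ∑ f ∈ (univ.filter (fun f : Fin d → Fin n => Function.Injective f)),
        ‖(M.submatrix f id).det‖ ^ 2 <
      ∑ _f ∈ (univ.filter (fun f : Fin d → Fin n => Function.Injective f)),
        r ^ d / n.choose d := by
    apply Finset.sum_lt_sum_of_nonempty hne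
    intro f _
    rw [lt_div_iff₀ hchoose, mul_comm]
    exact hcon f
  rw [← hsub, h, sum_const, hcard, nsmul_eq_mul, Nat.descFactorial_eq_factorial_mul_choose] at hlt
  push_cast at hlt
  have : (d.factorial : ℝ) * (n.choose d : ℝ) * (r ^ d / (n.choose d : ℝ)) =
      d.factorial * r ^ d := by
    (clear * - hchoose; field_simp)
  rw [this] at hlt
  exact lt_irrefl _ hlt

end Vale.Agent.P344.Cancel
end

section

namespace Vale.Agent.P344.Stable

variable {n : ℕ}

end Vale.Agent.P344.Stable
end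

section

namespace Vale.Agent.P344.Stable

open Finset

variable {n : ℕ} {M : Type*} [AddCommGroup M] [Module ℂ M]

lemma Circuit.mem_succ (c : Circuit n) (x : Fin n → M) (e : ℕ → M) (t i : ℕ) :
    c.mem x e (t + 1) i =
      if i = n + t then (c.gate t).apply (c.mem x e t) + e t else c.mem x e t i := by
  simp only [mem, Function.update_apply]

lemma Circuit.mem_zero_apply (c : Circuit n) (x : Fin n → M) (e : ℕ → M) (i : ℕ) :
    c.mem x e 0 i = if h : i < n then x ⟨i, h⟩ else 0 := rfl

end Vale.Agent.P344.Stable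
end

section

namespace Vale.Agent.P344.Stable

open Finset

variable {n : ℕ}

end Vale.Agent.P344.Stable
end

section

namespace Vale.Agent.P344.Stable

open Finset

variable {n : ℕ}

end Vale.Agent.P344.Stable
end

section

namespace Vale.Agent.P344.Stable

open Finset

variable {n : ℕ}

/-- rows of the DFT matrix -/
noncomputable def row (n : ℕ) (k : Fin n) : EuclideanSpace ℂ (Fin n) :=
  WithLp.toLp 2 (fun j => Complex.exp (2 * Real.pi * Complex.I * (j : ℂ) * (k : ℂ) / n))

lemma row_apply (k j : Fin n) :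
    row n k j = Complex.exp (2 * Real.pi * Complex.I * (j : ℂ) * (k : ℂ) / n) := rfl

lemma norm_row_apply (k j : Fin n) : ‖row n k j‖ = 1 := by
  rw [row_apply]
  have : (2 * Real.pi * Complex.I * (j : ℂ) * (k : ℂ) / n) =
      ((2 * Real.pi * (j : ℝ) * (k : ℝ) / n : ℝ) : ℂ) * Complex.I := by
    push_cast; ring
  rw [this, Complex.norm_exp_ofReal_mul_I]

/-- Orthogonality of the characters. -/
lemma sum_row_mul_conj (hn : n ≠ 0) (j j' : Fin n) :
    ∑ k : Fin n, (starRingEnd ℂ) (row n k j) * row n k j' = if j = j' then (n : ℂ) else 0 := by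
  have hz := Complex.isPrimitiveRoot_exp n hn
  have hn' : (n : ℂ) ≠ 0 := by exact_mod_cast hn
  by_cases h : j = j'
  · subst h
    rw [if_pos rfl]
    have : ∀ k : Fin n, (starRingEnd ℂ) (row n k j) * row n k j = 1 := by
      intro k
      rw [mul_comm, Complex.mul_conj, Complex.normSq_eq_norm_sq, norm_row_apply]
      simp
    simp only [this, sum_const, card_univ, Fintype.card_fin, nsmul_eq_mul, mul_one]
  · rw [if_neg h]
    set w : ℂ := Complex.exp (2 * Real.pi * Complex.I * ((j' : ℂ) - (j : ℂ)) / n) with hw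
    have hterm : ∀ k : Fin n, (starRingEnd ℂ) (row n k j) * row n k j' = w ^ (k : ℕ) := by
      intro k
      rw [row_apply, row_apply, ← Complex.exp_conj, ← Complex.exp_add, hw, ← Complex.exp_nat_mul]
      congr 1
      simp only [map_div₀, map_mul, Complex.conj_ofReal, Complex.conj_I, map_natCast, map_ofNat]
      field_simp
      ring
    rw [sum_congr rfl (fun k _ => hterm k), Fin.sum_univ_eq_sum_range (fun k => w ^ k) n]
    have hw1 : w ^ n = 1 := by
      rw [hw, ← Complex.exp_nat_mul]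
      have : (n : ℂ) * (2 * Real.pi * Complex.I * ((j' : ℂ) - (j : ℂ)) / n) =
          (((j' : ℕ) : ℤ) - ((j : ℕ) : ℤ) : ℤ) * (2 * Real.pi * Complex.I) := by
        push_cast
        (clear * - hn'; field_simp)
      rw [this, Complex.exp_int_mul_two_pi_mul_I]
    have hwne : w ≠ 1 := by
      intro hw'
      rw [hw, Complex.exp_eq_one_iff] at hw'
      obtain ⟨m, hm⟩ := hw'
      have h2 : (2 * Real.pi * Complex.I : ℂ) ≠ 0 := Complex.two_pi_I_ne_zero
      have h3 : ((j' : ℂ) - (j : ℂ)) = m * n := by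
        field_simp at hm
        have := mul_left_cancel₀ h2 (a := (2 * Real.pi * Complex.I : ℂ))
          (b := ((j' : ℂ) - (j : ℂ))) (c := m * n)
        apply this
        linear_combination (2 * Real.pi * Complex.I) * hm
      have h4 : (((j' : ℕ) : ℤ) - ((j : ℕ) : ℤ)) = m * n := by
        exact_mod_cast h3
      have hj := j.isLt
      have hj' := j'.isLt
      have hm0 : m = 0 := by
        by_contra hm0
        have : (n : ℤ) ≤ |m * n| := by
          rw [abs_mul, Nat.abs_cast]
          have : (1 : ℤ) ≤ |m| := Int.one_le_abs hm0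
          nlinarith only [this]
        rw [← h4] at this
        have h5 : |((j' : ℕ) : ℤ) - ((j : ℕ) : ℤ)| < n := by
          rw [abs_lt]; constructor <;> omega
        omega
      rw [hm0, zero_mul] at h4
      apply h
      ext
      omega
    have := mul_neg_geom_sum w n
    rw [hw1, sub_self, mul_eq_zero] at this
    rcases this with h5 | h5
    · exact absurd (sub_eq_zero.mp h5).symm hwne
    · exact h5

/-- transform of a vector: `k ↦ ⟪u, row k⟫` -/
noncomputable def tr (u : EuclideanSpace ℂ (Fin n)) : EuclideanSpace ℂ (Fin n) :=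
  WithLp.toLp 2 (fun k => inner ℂ u (row n k))

lemma tr_apply (u : EuclideanSpace ℂ (Fin n)) (k : Fin n) : tr u k = inner ℂ u (row n k) := rfl

lemma inner_tr_tr (hn : n ≠ 0) (u v : EuclideanSpace ℂ (Fin n)) :
    inner ℂ (tr u) (tr v) = (n : ℂ) * inner ℂ v u := by
  simp only [PiLp.inner_apply, tr_apply, RCLike.inner_apply, map_sum, map_mul,
    Complex.conj_conj]
  have h1 : ∀ k : Fin n, (∑ j, row n k j * (starRingEnd ℂ) (v j)) *
      (∑ j, (starRingEnd ℂ) (row n k j) * u j) =
      ∑ j, ∑ j', (starRingEnd ℂ) (v j) * u j' * ((starRingEnd ℂ) (row n k j') * row n k j) := by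
    intro k
    rw [sum_mul_sum]
    apply sum_congr rfl; intro j _
    apply sum_congr rfl; intro j' _
    ring
  rw [sum_congr rfl (fun k _ => h1 k), sum_comm]
  rw [mul_sum]
  apply sum_congr rfl
  intro j _
  rw [sum_comm]
  simp only [← mul_sum, sum_row_mul_conj hn]
  simp only [mul_ite, mul_zero, sum_ite_eq', mem_univ, if_true]
  ring

end Vale.Agent.P344.Stable
end

section

namespace Vale.Agent.P344.Cancel

open Finset Vale.Agent.P344.Stable

variable {n : ℕ}

lemma mem_additions {c : Circuit n} {g : ℕ} :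
    g ∈ additions c ↔ g < c.size ∧ ∀ a i, c.gate g ≠ Gate.smul a i := by
  classical
  simp only [additions, ne_eq, mem_filter, mem_range]

lemma coeffs_succ (c : Circuit n) (t i : ℕ) :
    coeffs c (t + 1) i =
      if i = n + t then (c.gate t).apply (coeffs c t) else coeffs c t i := by
  ext j
  simp only [coeffs]
  rw [Circuit.mem_succ]
  split_ifs with h
  · cases c.gate t <;> simp [Gate.apply, coeffs]
  · rfl

lemma coeffs_zero (c : Circuit n) (i : ℕ) :
    coeffs c 0 i = if h : i < n then Pi.single ⟨i, h⟩ 1 else 0 := by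
  ext j
  simp only [coeffs, Circuit.mem_zero_apply]
  split_ifs with h
  · simp only [Pi.single_apply]
    by_cases hj : j = ⟨i, h⟩
    · rw [if_pos hj, if_pos hj.symm]
    · rw [if_neg hj, if_neg (Ne.symm hj)]
  · rfl

open Classical in
/-- `log` of the total cancellation outside `W` among the first `t` gates -/
noncomputable def S (c : Circuit n) (W : Finset ℕ) (t : ℕ) : ℝ :=
  ∑ g ∈ (range t).filter (fun g => (∀ a i, c.gate g ≠ Gate.smul a i) ∧ g ∉ W),
    Real.log (cancel c g)

open Classical in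
lemma S_succ (c : Circuit n) (W : Finset ℕ) (t : ℕ) :
    S c W (t + 1) = S c W t + if (∀ a i, c.gate t ≠ Gate.smul a i) ∧ t ∉ W then
      Real.log (cancel c t) else 0 := by
  unfold S
  rw [range_add_one, filter_insert]
  split_ifs with h
  · rw [sum_insert (by simp only [ne_eq, mem_filter, mem_range, lt_self_iff_false, false_and, not_false_eq_true]), add_comm]
  · simp only [ne_eq, add_zero]

lemma one_le_cancel {c : Circuit n} {g : ℕ} (hg : ∀ a i, c.gate g ≠ Gate.smul a i)
    (h0 : coeffs c (g + 1) (n + g) ≠ 0) : 1 ≤ cancel c g := by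
  have hform := coeffs_succ c g (n + g)
  rw [if_pos rfl] at hform
  have hpos : 0 < ‖coeffs c (g + 1) (n + g)‖ := norm_pos_iff.mpr h0
  unfold cancel
  cases hcg : c.gate g with
  | add i j =>
    simp only
    rw [one_le_div hpos, hform, hcg]
    exact norm_add_le _ _
  | sub i j =>
    simp only
    rw [one_le_div hpos, hform, hcg]
    exact norm_sub_le _ _
  | smul a i => exact absurd hcg (hg a i)

lemma log_cancel_nonneg {c : Circuit n} {g : ℕ} (hg : ∀ a i, c.gate g ≠ Gate.smul a i) :
    0 ≤ Real.log (cancel c g) := by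
  by_cases h0 : coeffs c (g + 1) (n + g) = 0
  · have : cancel c g = 0 := by
      unfold cancel
      rw [h0]
      cases c.gate g <;> simp only [norm_zero, div_zero]
    rw [this]; simp
  · exact Real.log_nonneg (one_le_cancel hg h0)

lemma S_mono (c : Circuit n) (W : Finset ℕ) (t : ℕ) : S c W t ≤ S c W (t + 1) := by
  classical
  rw [S_succ]
  split_ifs with h
  · linarith only [log_cancel_nonneg h.1]
  · linarith only []

/-- Growth of an alternating form along the circuit. -/
theorem growth {d : ℕ} (c : Circuit n) (W : Finset ℕ)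
    (ω : (Fin n → ℂ) [⋀^Fin d]→ₗ[ℂ] ℂ)
    (h1 : ∀ f : Fin d → Fin n, ‖ω (fun i => Pi.single (f i) 1)‖ ≤ 1)
    (hW : ∀ g ∈ W, ∀ (v : Fin d → Fin n → ℂ) (j : Fin d), v j = coeffs c (g + 1) (n + g) →
      ω v = 0) (t : ℕ) (a : Fin d → ℕ) :
    ‖ω (fun j => coeffs c t (a j))‖ ≤
      Real.exp (S c W t) * ∏ j, ‖coeffs c t (a j)‖ := by
  classical
  induction t generalizing a with
  | zero =>
    have hS : S c W 0 = 0 := by simp only [S, ne_eq, range_zero, filter_empty, sum_empty]
    rw [hS, Real.exp_zero, one_mul]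
    by_cases hall : ∀ j, a j < n
    · have : (fun j => coeffs c 0 (a j)) = fun j => Pi.single (⟨a j, hall j⟩ : Fin n) 1 := by
        funext j
        rw [coeffs_zero, dif_pos (hall j)]
      rw [this]
      refine (h1 (fun j => ⟨a j, hall j⟩)).trans (le_of_eq ?_)
      symm
      apply prod_eq_one
      intro j _
      rw [coeffs_zero, dif_pos (hall j)]
      rw [Pi.norm_single]
      simp
    · push Not at hall
      obtain ⟨j, hj⟩ := hall
      have hz : coeffs c 0 (a j) = 0 := by
        rw [coeffs_zero, dif_neg (by omega)]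
      rw [ω.map_coord_zero j hz, norm_zero]
      exact prod_nonneg (fun _ _ => norm_nonneg _)
  | succ t ih =>
    have hprod0 : 0 ≤ ∏ j, ‖coeffs c (t + 1) (a j)‖ := prod_nonneg (fun _ _ => norm_nonneg _)
    by_cases hex : ∃ j0, a j0 = n + t
    · obtain ⟨j0, hj0⟩ := hex
      by_cases hex2 : ∃ j1, j1 ≠ j0 ∧ a j1 = n + t
      · obtain ⟨j1, hne, hj1⟩ := hex2
        have : ω (fun j => coeffs c (t + 1) (a j)) = 0 := by
          apply ω.map_eq_zero_of_eq _ _ hne
          simp only [hj0, hj1]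
        rw [this, norm_zero]
        (clear * -; positivity)
      · push Not at hex2
        set y : Fin d → (Fin n → ℂ) := fun j => coeffs c t (a j) with hy
        set cn := coeffs c (t + 1) (n + t) with hcn
        have hyeq : (fun j => coeffs c (t + 1) (a j)) = Function.update y j0 cn := by
          funext j
          by_cases hj : j = j0
          · subst hj
            simp only [Function.update_self]
            rw [hj0]
          · rw [Function.update_of_ne hj]
            simp only [hy]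
            rw [coeffs_succ, if_neg (hex2 j hj)]
        have hprod : ∏ j, ‖coeffs c (t + 1) (a j)‖ = ‖cn‖ * ∏ j ∈ univ.erase j0, ‖y j‖ := by
          rw [← mul_prod_erase univ _ (mem_univ j0)]
          congr 1
          · rw [hj0]
          · apply prod_congr rfl
            intro j hj
            have hj' := ne_of_mem_erase hj
            simp only [hy]
            rw [coeffs_succ, if_neg (hex2 j hj')]
        have hih : ∀ i : ℕ, ‖ω (Function.update y j0 (coeffs c t i))‖ ≤
            Real.exp (S c W t) * (‖coeffs c t i‖ * ∏ j ∈ univ.erase j0, ‖y j‖) := by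
          intro i
          have h2 := ih (Function.update a j0 i)
          have h3 : (fun j => coeffs c t (Function.update a j0 i j)) =
              Function.update y j0 (coeffs c t i) := by
            funext j
            by_cases hj : j = j0
            · subst hj; simp
            · rw [Function.update_of_ne hj, Function.update_of_ne hj]
          rw [h3] at h2
          refine h2.trans (le_of_eq ?_)
          congr 1
          rw [← mul_prod_erase univ _ (mem_univ j0)]
          congr 1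
          · simp
          · apply prod_congr rfl
            intro j hj
            rw [Function.update_of_ne (ne_of_mem_erase hj)]
        have hP0 : 0 ≤ ∏ j ∈ univ.erase j0, ‖y j‖ := prod_nonneg (fun _ _ => norm_nonneg _)
        set P := ∏ j ∈ univ.erase j0, ‖y j‖ with hP
        rw [hyeq, hprod]
        have hcn' : cn = (c.gate t).apply (coeffs c t) := by
          rw [hcn, coeffs_succ, if_pos rfl]
        -- exceptional gate
        by_cases htW : t ∈ W
        · have : ω (Function.update y j0 cn) = 0 :=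
            hW t htW _ j0 (by simp [hcn])
          rw [this, norm_zero]
          (clear * -; positivity)
        -- zero result
        by_cases hc0 : cn = 0
        · rw [hc0, ω.map_update_zero, norm_zero]
          (clear * -; positivity)
        have hcpos : 0 < ‖cn‖ := norm_pos_iff.mpr hc0
        cases hg : c.gate t with
        | smul a' i =>
          have hnot : ¬ ((∀ a i, c.gate t ≠ Gate.smul a i) ∧ t ∉ W) := by
            intro h; exact h.1 a' i hg
          rw [S_succ, if_neg hnot, add_zero]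
          rw [hcn', hg]
          simp only [Gate.apply]
          rw [ω.map_update_smul, norm_smul, norm_smul]
          calc ‖a'‖ * ‖ω (Function.update y j0 (coeffs c t i))‖
              ≤ ‖a'‖ * (Real.exp (S c W t) * (‖coeffs c t i‖ * P)) :=
                mul_le_mul_of_nonneg_left (hih i) (norm_nonneg _)
            _ = _ := by ring
        | add i j =>
          have hns : ∀ a i, c.gate t ≠ Gate.smul a i := by
            intro a i; rw [hg]; simp
          rw [S_succ, if_pos ⟨hns, htW⟩]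
          have hk1 := one_le_cancel hns hc0
          have hk : cancel c t = (‖coeffs c t i‖ + ‖coeffs c t j‖) / ‖cn‖ := by
            unfold cancel; rw [hg]
          rw [Real.exp_add, Real.exp_log (by linarith only [hk1]), hk]
          have h5 : ω (Function.update y j0 cn) = ω (Function.update y j0 (coeffs c t i)) +
              ω (Function.update y j0 (coeffs c t j)) := by
            rw [hcn', hg]
            simp only [Gate.apply]
            rw [ω.map_update_add]
          rw [h5]
          refine (norm_add_le _ _).trans ((add_le_add (hih i) (hih j)).trans (le_of_eq ?_))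
          (clear * - hc0; field_simp)
        | sub i j =>
          have hns : ∀ a i, c.gate t ≠ Gate.smul a i := by
            intro a i; rw [hg]; simp
          rw [S_succ, if_pos ⟨hns, htW⟩]
          have hk1 := one_le_cancel hns hc0
          have hk : cancel c t = (‖coeffs c t i‖ + ‖coeffs c t j‖) / ‖cn‖ := by
            unfold cancel; rw [hg]
          rw [Real.exp_add, Real.exp_log (by linarith only [hk1]), hk]
          have h5 : ω (Function.update y j0 cn) = ω (Function.update y j0 (coeffs c t i)) -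
              ω (Function.update y j0 (coeffs c t j)) := by
            rw [hcn', hg]
            simp only [Gate.apply]
            rw [ω.map_update_sub]
          rw [h5]
          refine (norm_sub_le _ _).trans ((add_le_add (hih i) (hih j)).trans (le_of_eq ?_))
          (clear * - hc0; field_simp)
    · push Not at hex
      have h6 : ∀ j, coeffs c (t + 1) (a j) = coeffs c t (a j) := by
        intro j
        rw [coeffs_succ, if_neg (hex j)]
      simp only [h6]
      refine (ih a).trans ?_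
      apply mul_le_mul_of_nonneg_right _ (prod_nonneg (fun _ _ => norm_nonneg _))
      exact Real.exp_le_exp.mpr (S_mono c W t)

end Vale.Agent.P344.Cancel
end
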