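import Vale.Agent.P344.Bdl.B1

section

namespace Vale.Agent.P344.Cancel

open Finset Vale.Agent.P344.Stable

variable {n : ℕ}

lemma coeffs_out_eq {c : Circuit n} {lam : ℂ} (hc : ComputesDFT c lam) (k : Fin n) :
    coeffs c c.size (c.out k) = fun j => lam * row n k j := by
  ext j
  have := hc (Pi.single j 1) k
  simp only [coeffs, row_apply]
  rw [this]
  congr 1
  rw [sum_eq_single j]
  · simp
  · intro b _ hb
    rw [Pi.single_apply, if_neg hb, mul_zero]
  · simp

lemma norm_coeffs_out (hn : n ≠ 0) {c : Circuit n} {lam : ℂ} (hc : ComputesDFT c lam)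
    (k : Fin n) : ‖coeffs c c.size (c.out k)‖ = ‖lam‖ := by
  rw [coeffs_out_eq hc]
  apply le_antisymm
  · rw [pi_norm_le_iff_of_nonneg (norm_nonneg _)]
    intro j
    rw [norm_mul, norm_row_apply, mul_one]
  · have h := norm_le_pi_norm (fun j => lam * row n k j) (⟨0, Nat.pos_of_ne_zero hn⟩ : Fin n)
    simp only [norm_mul, norm_row_apply, mul_one] at h
    exact h

/-- orthonormal vectors orthogonal to the exceptional forms -/
lemma exists_orthonormal (c : Circuit n) (W : Finset ℕ) (d : ℕ) (hd : d = n - W.card) :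
    ∃ b : Fin d → EuclideanSpace ℂ (Fin n), Orthonormal ℂ b ∧
      ∀ i, ∀ g ∈ W, inner ℂ (b i) (WithLp.toLp 2 (coeffs c (g + 1) (n + g))) = 0 := by
  classical
  set v : ℕ → EuclideanSpace ℂ (Fin n) := fun g => WithLp.toLp 2 (coeffs c (g + 1) (n + g))
    with hv
  set S : Submodule ℂ (EuclideanSpace ℂ (Fin n)) :=
    Submodule.span ℂ ((W.image v : Finset _) : Set (EuclideanSpace ℂ (Fin n))) with hS
  have hSdim : Module.finrank ℂ S ≤ W.card :=
    (finrank_span_finset_le_card _).trans card_image_le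
  have hdim : d ≤ Module.finrank ℂ Sᗮ := by
    have h1 := Submodule.finrank_add_finrank_orthogonal S
    rw [finrank_euclideanSpace_fin] at h1
    omega
  set b0 := stdOrthonormalBasis ℂ Sᗮ with hb0
  refine ⟨fun i => (b0 (Fin.castLE hdim i) : EuclideanSpace ℂ (Fin n)), ?_, ?_⟩
  · have h1 := b0.orthonormal.comp_linearIsometry (Sᗮ).subtypeₗᵢ
    exact h1.comp _ (Fin.castLE_injective hdim)
  · intro i g hg
    have h1 : ((b0 (Fin.castLE hdim i) : Sᗮ) : EuclideanSpace ℂ (Fin n)) ∈ Sᗮ :=
      (b0 (Fin.castLE hdim i)).2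
    have h2 : v g ∈ S := Submodule.subset_span (by
      rw [coe_image]
      exact ⟨g, hg, rfl⟩)
    exact Submodule.inner_left_of_mem_orthogonal h2 h1

/-- Natural-log form of the main bound. -/
theorem cancel_main (hn : n ≠ 0) {c : Circuit n} {lam : ℂ} (hlam : lam ≠ 0)
    (hc : ComputesDFT c lam) (W : Finset ℕ) (hW : W.card ≤ n) :
    ((n : ℝ) - W.card) * Real.log n - Real.log (n.choose W.card) ≤ 2 * S c W c.size := by
  classical
  obtain ⟨d, hd⟩ : ∃ d, d = n - W.card := ⟨_, rfl⟩
  obtain ⟨b, hb, hbW⟩ := exists_orthonormal c W d hd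
  obtain ⟨B, hB⟩ : ∃ B : Matrix (Fin d) (Fin n) ℂ, ∀ i j, B i j = (starRingEnd ℂ) (b i j) :=
    ⟨Matrix.of fun i j => (starRingEnd ℂ) (b i j), fun _ _ => rfl⟩
  have hBapply : ∀ (i : Fin d) (x : Fin n → ℂ), (B.mulVec x) i =
      inner ℂ (b i) (WithLp.toLp 2 x) := by
    intro i x
    simp only [Matrix.mulVec, dotProduct, hB, PiLp.inner_apply, RCLike.inner_apply]
    apply sum_congr rfl
    intro j _
    ring
  set ω : (Fin n → ℂ) [⋀^Fin d]→ₗ[ℂ] ℂ :=
    (Matrix.detRowAlternating (R := ℂ) (n := Fin d)).compLinearMap B.mulVecLin with hω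
  have hωapply : ∀ v : Fin d → Fin n → ℂ, ω v = Matrix.det (fun i => B.mulVec (v i)) := by
    intro v; rfl
  have hbb : ∀ i j, inner ℂ (b i) (b j) = if i = j then (1 : ℂ) else 0 :=
    orthonormal_iff_ite.mp hb
  -- minors of the identity
  have h1 : ∀ f : Fin d → Fin n, ‖ω (fun i => Pi.single (f i) 1)‖ ≤ 1 := by
    intro f
    have h2 := norm_det_le_one (B.transpose) (by
      ext i i'
      have := hbb i' i
      simp only [PiLp.inner_apply, RCLike.inner_apply] at this
      simp only [Matrix.mul_apply, Matrix.conjTranspose_apply, Matrix.transpose_apply, hB,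
        RCLike.star_def, Complex.conj_conj, Matrix.one_apply]
      rw [this]
      simp [eq_comm]) f
    rw [hωapply]
    refine le_trans (le_of_eq ?_) h2
    congr 2
    ext i i'
    simp [Matrix.mulVec_single]
  -- exceptional gates
  have h3 : ∀ g ∈ W, ∀ (v : Fin d → Fin n → ℂ) (j : Fin d),
      v j = coeffs c (g + 1) (n + g) → ω v = 0 := by
    intro g hg v j hvj
    rw [hωapply]
    apply Matrix.det_eq_zero_of_row_eq_zero j
    intro i
    rw [hvj, hBapply]
    exact hbW i g hg
  -- large minor of the DFT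
  obtain ⟨M, hM⟩ : ∃ M : Matrix (Fin n) (Fin d) ℂ, ∀ k i, M k i = inner ℂ (b i) (row n k) :=
    ⟨Matrix.of fun k i => inner ℂ (b i) (row n k), fun _ _ => rfl⟩
  obtain ⟨f, hf⟩ := exists_norm_det_ge (by omega : d ≤ n) M (n : ℝ) (by
    ext i i'
    have h4 := inner_tr_tr hn (b i) (b i')
    rw [hbb i' i] at h4
    rw [PiLp.inner_apply] at h4
    simp only [tr_apply, RCLike.inner_apply (𝕜 := ℂ)] at h4
    simp only [Matrix.mul_apply, Matrix.conjTranspose_apply, hM, RCLike.star_def,
      Matrix.smul_apply, Matrix.one_apply, smul_eq_mul]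
    rw [show (∑ j, (starRingEnd ℂ) (inner ℂ (b i) (row n j)) * inner ℂ (b i') (row n j)) =
      ∑ j, inner ℂ (b i') (row n j) * (starRingEnd ℂ) (inner ℂ (b i) (row n j)) from
      sum_congr rfl (fun j _ => mul_comm _ _)]
    rw [h4]
    push_cast
    by_cases hii : i = i'
    · subst hii; simp
    · rw [if_neg hii, if_neg (Ne.symm hii)])
  have hg := growth c W ω h1 h3 c.size (fun i => c.out (f i))
  have h5 : ∏ j, ‖coeffs c c.size (c.out (f j))‖ = ‖lam‖ ^ d := by
    rw [prod_congr rfl (fun j _ => norm_coeffs_out hn hc (f j)), prod_const, card_univ,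
      Fintype.card_fin]
  have h6 : ω (fun j => coeffs c c.size (c.out (f j))) =
      lam ^ d * (M.submatrix f id).det := by
    rw [hωapply]
    have h7 : (fun i => B.mulVec (coeffs c c.size (c.out (f i)))) =
        lam • (M.submatrix f id) := by
      ext i i'
      rw [hBapply, coeffs_out_eq hc]
      have : (WithLp.toLp 2 (fun j => lam * row n (f i) j) : EuclideanSpace ℂ (Fin n)) =
          lam • row n (f i) := by
        ext j; simp
      rw [this, inner_smul_right, Matrix.smul_apply, Matrix.submatrix_apply, hM, smul_eq_mul]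
      rfl
    rw [h7, Matrix.det_smul, Fintype.card_fin]
  have h6' : ‖ω (fun j => coeffs c c.size (c.out (f j)))‖ =
      ‖lam‖ ^ d * ‖(M.submatrix f id).det‖ := by
    rw [h6, norm_mul, norm_pow]
  have h8 : ‖(M.submatrix f id).det‖ ≤ Real.exp (S c W c.size) := by
    have h9 : ‖lam‖ ^ d * ‖(M.submatrix f id).det‖ ≤ ‖lam‖ ^ d * Real.exp (S c W c.size) := by
      rw [← h6', mul_comm (‖lam‖ ^ d), ← h5]
      exact hg
    exact le_of_mul_le_mul_left h9 (pow_pos (norm_pos_iff.mpr hlam) d)
  have hchoose : n.choose d = n.choose W.card := by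
    rw [hd]
    exact Nat.choose_symm hW
  have hcpos : (0 : ℝ) < n.choose W.card := by exact_mod_cast Nat.choose_pos hW
  have hn0 : (0 : ℝ) < n := by exact_mod_cast Nat.pos_of_ne_zero hn
  have h10 : (n : ℝ) ^ d ≤ n.choose W.card * Real.exp (S c W c.size) ^ 2 := by
    rw [← hchoose]
    refine hf.trans ?_
    apply mul_le_mul_of_nonneg_left _ (by positivity)
    exact pow_le_pow_left₀ (norm_nonneg _) h8 2
  have h11 := Real.log_le_log (pow_pos hn0 d) h10
  rw [Real.log_pow, Real.log_mul hcpos.ne' (by positivity), Real.log_pow, Real.log_exp] at h11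
  have h12 : ((d : ℕ) : ℝ) = (n : ℝ) - W.card := by
    rw [hd, Nat.cast_sub hW]
  rw [h12] at h11
  push_cast at h11
  linarith

lemma S_eq (c : Circuit n) (W : Finset ℕ) :
    S c W c.size = ∑ g ∈ additions c \ W, Real.log (cancel c g) := by
  classical
  unfold S
  apply sum_congr _ (fun _ _ => rfl)
  ext g
  rw [mem_filter, mem_sdiff, mem_additions, mem_range]
  tauto

theorem cancel_logb (hn : n ≠ 0) {c : Circuit n} {lam : ℂ} (hlam : lam ≠ 0)
    (hc : ComputesDFT c lam) (W : Finset ℕ) (hW : W.card ≤ n) :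
    (((n : ℝ) - W.card) * Real.logb 2 n - Real.logb 2 (n.choose W.card)) / 2 ≤
      ∑ g ∈ additions c \ W, Real.logb 2 (cancel c g) := by
  have h := cancel_main hn hlam hc W hW
  rw [S_eq] at h
  have hl2 : 0 < Real.log 2 := Real.log_pos (by norm_num)
  simp only [Real.logb]
  rw [← sum_div, div_le_div_iff₀ (by norm_num) hl2]
  have : (((n : ℝ) - W.card) * (Real.log n / Real.log 2) -
      Real.log (n.choose W.card) / Real.log 2) * Real.log 2 =
      ((n : ℝ) - W.card) * Real.log n - Real.log (n.choose W.card) := by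
    field_simp
  rw [this]
  linarith

end Vale.Agent.P344.Cancel
end
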