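import Vale.Agent.P344.Amp.Defs
import Vale.Agent.P344.Bdl.B1
import Vale.Agent.P344.Sym.Defs
attribute [-instance] ProperSMul.toContinuousSMul IsTopologicalTorsor.toContinuousSMul IdemSemiring.toCanonicallyOrderedAdd IdemSemiring.toMulLeftMono IdemSemiring.toMulRightMono AddQuantale.instAddLeftMono AddQuantale.instAddRightMono Quantale.instMulLeftMono Quantale.instMulRightMono FiniteDimensional.rclike_to_real IsScalarTower.complexToReal FiniteDimensional.complexToReal

section

namespace Vale.Agent.P344.Amp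

open Vale.Agent.P344

variable {V W : Type*} [AddCommGroup V] [Module ℂ V] [AddCommGroup W] [Module ℂ W]

/-- Derivations: from the available pairs (vector, depth) in `A`, `s` gates lead to `B`. -/
inductive Der (K : ℝ) (A : Set (V × ℕ)) : ℕ → Set (V × ℕ) → Prop
  | refl : Der K A 0 A
  | add {s : ℕ} {B : Set (V × ℕ)} {u v : V × ℕ} (h : Der K A s B) (hu : u ∈ B) (hv : v ∈ B) :
      Der K A (s + 1) (insert (u.1 + v.1, max u.2 v.2 + 1) B)
  | sub {s : ℕ} {B : Set (V × ℕ)} {u v : V × ℕ} (h : Der K A s B) (hu : u ∈ B) (hv : v ∈ B) :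
      Der K A (s + 1) (insert (u.1 - v.1, max u.2 v.2 + 1) B)
  | smul {s : ℕ} {B : Set (V × ℕ)} {u : V × ℕ} (c : ℂ) (hc : ‖c‖ ≤ K) (h : Der K A s B)
      (hu : u ∈ B) : Der K A (s + 1) (insert (c • u.1, u.2 + 1) B)

lemma Der.subset {K : ℝ} {A B : Set (V × ℕ)} {s : ℕ} (h : Der K A s B) : A ⊆ B := by
  induction h with
  | refl => exact subset_rfl
  | add _ _ _ ih => exact ih.trans (Set.subset_insert _ _)
  | sub _ _ _ ih => exact ih.trans (Set.subset_insert _ _)
  | smul _ _ _ _ ih => exact ih.trans (Set.subset_insert _ _)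

lemma Der.trans {K : ℝ} {A B C : Set (V × ℕ)} {s t : ℕ} (h : Der K A s B) (h' : Der K B t C) :
    Der K A (s + t) C := by
  induction h' with
  | refl => exact h
  | add _ hu hv ih => exact Der.add ih hu hv
  | sub _ hu hv ih => exact Der.sub ih hu hv
  | smul c hc _ hu ih => exact Der.smul c hc ih hu

lemma Der.mono {K K' : ℝ} (hK : K ≤ K') {A B : Set (V × ℕ)} {s : ℕ} (h : Der K A s B) :
    Der K' A s B := by
  induction h with
  | refl => exact Der.refl
  | add _ hu hv ih => exact Der.add ih hu hv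
  | sub _ hu hv ih => exact Der.sub ih hu hv
  | smul c hc _ hu ih => exact Der.smul c (hc.trans hK) ih hu

/-- `v` is available at depth at most `D`. -/
def Has (A : Set (V × ℕ)) (D : ℕ) (v : V) : Prop := ∃ d ≤ D, (v, d) ∈ A

omit [AddCommGroup V] [Module ℂ V] in
lemma Has.mono {A B : Set (V × ℕ)} (h : A ⊆ B) {D : ℕ} {v : V} (hv : Has A D v) : Has B D v := by
  obtain ⟨d, hd, hm⟩ := hv
  exact ⟨d, hd, h hm⟩

omit [AddCommGroup V] [Module ℂ V] in
lemma Has.mono' {A : Set (V × ℕ)} {D D' : ℕ} (h : D ≤ D') {v : V} (hv : Has A D v) :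
    Has A D' v := by
  obtain ⟨d, hd, hm⟩ := hv
  exact ⟨d, hd.trans h, hm⟩

/-- from `A`, at most `s` gates lead to `B` -/
def Reach (K : ℝ) (A : Set (V × ℕ)) (s : ℕ) (B : Set (V × ℕ)) : Prop :=
  ∃ s' ≤ s, Der K A s' B

lemma Reach.refl (K : ℝ) (A : Set (V × ℕ)) (s : ℕ) : Reach K A s A := ⟨0, Nat.zero_le _, Der.refl⟩

lemma Reach.subset {K : ℝ} {A B : Set (V × ℕ)} {s : ℕ} (h : Reach K A s B) : A ⊆ B := by
  obtain ⟨_, _, h⟩ := h
  exact h.subset

lemma Reach.trans {K : ℝ} {A B C : Set (V × ℕ)} {s t : ℕ} (h : Reach K A s B)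
    (h' : Reach K B t C) : Reach K A (s + t) C := by
  obtain ⟨s', hs, h⟩ := h
  obtain ⟨t', ht, h'⟩ := h'
  exact ⟨s' + t', by omega, h.trans h'⟩

lemma Reach.mono {K K' : ℝ} (hK : K ≤ K') {A B : Set (V × ℕ)} {s t : ℕ} (hst : s ≤ t)
    (h : Reach K A s B) : Reach K' A t B := by
  obtain ⟨s', hs, h⟩ := h
  exact ⟨s', hs.trans hst, h.mono hK⟩

lemma reach_add {K : ℝ} {A : Set (V × ℕ)} {D : ℕ} {u v : V} (hu : Has A D u) (hv : Has A D v) :
    ∃ B, Reach K A 1 B ∧ Has B (D + 1) (u + v) := by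
  obtain ⟨d, hd, hm⟩ := hu
  obtain ⟨d', hd', hm'⟩ := hv
  refine ⟨_, ⟨1, le_rfl, Der.add Der.refl hm hm'⟩, max d d' + 1, ?_, Set.mem_insert _ _⟩
  have : max d d' ≤ D := max_le hd hd'
  omega

lemma reach_smul {K : ℝ} {A : Set (V × ℕ)} {D : ℕ} {u : V} (c : ℂ) (hc : ‖c‖ ≤ K)
    (hu : Has A D u) : ∃ B, Reach K A 1 B ∧ Has B (D + 1) (c • u) := by
  obtain ⟨d, hd, hm⟩ := hu
  exact ⟨_, ⟨1, le_rfl, Der.smul c hc Der.refl hm⟩, d + 1, by omega, Set.mem_insert _ _⟩

/-- Carry out `r` tasks one after the other. -/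
lemma iter {K : ℝ} (Q : ℕ → Set (V × ℕ) → Prop) (s : ℕ)
    (mono : ∀ i A A', A ⊆ A' → Q i A → Q i A') (A0 : Set (V × ℕ)) (r : ℕ)
    (step : ∀ i < r, ∀ A, A0 ⊆ A → ∃ B, Reach K A s B ∧ Q i B) :
    ∃ B, Reach K A0 (r * s) B ∧ ∀ i < r, Q i B := by
  induction r with
  | zero => exact ⟨A0, Reach.refl _ _ _, fun i hi => absurd hi (Nat.not_lt_zero i)⟩
  | succ r ih =>
    obtain ⟨B, hB, hQ⟩ := ih (fun i hi A hA => step i (Nat.lt_succ_of_lt hi) A hA)
    obtain ⟨C, hC, hQC⟩ := step r (Nat.lt_succ_self r) B hB.subset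
    refine ⟨C, ?_, ?_⟩
    · rw [Nat.succ_mul]
      exact hB.trans hC
    · intro i hi
      rcases Nat.lt_succ_iff_lt_or_eq.mp hi with h | h
      · exact mono i B C hC.subset (hQ i h)
      · subst h; exact hQC

/-- The discrete Fourier transform of a sequence of vectors. -/
noncomputable def dft (m : ℕ) (x : ℕ → V) (k : ℕ) : V :=
  ∑ j ∈ Finset.range m, Complex.exp (2 * Real.pi * Complex.I * (k : ℂ) * (j : ℂ) / m) • x j

/-- `F_m` costs at most `s` gates, coefficients at most `K` in modulus, depth at most `D`. -/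
def DCost (K : ℝ) (m D s : ℕ) : Prop :=
  ∀ (V : Type) [AddCommGroup V] [Module ℂ V] (A : Set (V × ℕ)) (D0 : ℕ) (x : ℕ → V),
    ((0 : V), 0) ∈ A → (∀ j < m, Has A D0 (x j)) →
    ∃ B, Reach K A s B ∧ ∀ k < m, Has B (D0 + D) (dft m x k)

lemma DCost.mono {K K' : ℝ} (hK : K ≤ K') {m D D' s s' : ℕ} (hD : D ≤ D') (hs : s ≤ s')
    (h : DCost K m D s) : DCost K' m D' s' := by
  intro V _ _ A D0 x h0 hx
  obtain ⟨B, hB, hB'⟩ := h V A D0 x h0 hx
  exact ⟨B, hB.mono hK hs, fun k hk => (hB' k hk).mono' (by omega)⟩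

lemma sum_range_mul_eq {M : Type*} [AddCommMonoid M] (a b : ℕ) (f : ℕ → M) :
    ∑ j ∈ Finset.range (b * a), f j =
      ∑ q ∈ Finset.range b, ∑ p ∈ Finset.range a, f (b * p + q) := by
  rw [Finset.sum_comm]
  induction a with
  | zero => simp only [mul_zero, Finset.range_zero, Finset.sum_empty]
  | succ a ih =>
    rw [Nat.mul_succ, Finset.sum_range_add, ih, Finset.sum_range_succ]

lemma exp_int_period (m : ℤ) : Complex.exp (2 * Real.pi * Complex.I * (m : ℂ)) = 1 := by
  rw [Complex.exp_eq_one_iff]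
  exact ⟨m, by ring⟩

lemma norm_exp_two_pi (t : ℝ) : ‖Complex.exp (2 * Real.pi * Complex.I * (t : ℂ))‖ = 1 := by
  have : (2 * Real.pi * Complex.I * (t : ℂ)) = ((2 * Real.pi * t : ℝ) : ℂ) * Complex.I := by
    push_cast; ring
  rw [this, Complex.norm_exp_ofReal_mul_I]

/-- Cooley-Tukey. -/
theorem DCost.mul {K : ℝ} (hK : 1 ≤ K) {a b Da Db sa sb : ℕ} (ha : 0 < a) (hb : 0 < b)
    (hA : DCost K a Da sa) (hB : DCost K b Db sb) :
    DCost K (b * a) (Da + Db + 1) (b * sa + a * sb + b * a) := by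
  intro V _ _ A D0 x h0 hx
  have ha' : (a : ℂ) ≠ 0 := by exact_mod_cast ha.ne'
  have hb' : (b : ℂ) ≠ 0 := by exact_mod_cast hb.ne'
  -- step 1
  obtain ⟨B1, hB1, hB1'⟩ := iter (K := K)
    (fun q C => ∀ p' < a, Has C (D0 + Da) (dft a (fun p => x (b * p + q)) p')) sa
    (fun i C C' hCC' h p' hp' => (h p' hp').mono hCC') A b
    (by
      intro q hq C hC
      apply hA V C D0 (fun p => x (b * p + q)) (hC h0)
      intro p hp
      apply (hx _ _).mono hC
      calc b * p + q < b * p + b := by omega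
        _ = b * (p + 1) := by ring
        _ ≤ b * a := Nat.mul_le_mul_left b hp)
  -- step 2
  obtain ⟨B2, hB2, hB2'⟩ := iter (K := K)
    (fun q C => ∀ p' < a, Has C (D0 + Da + 1)
      (Complex.exp (2 * Real.pi * Complex.I * (p' : ℂ) * (q : ℂ) / ((b : ℂ) * a)) •
        dft a (fun p => x (b * p + q)) p')) (a * 1)
    (fun i C C' hCC' h p' hp' => (h p' hp').mono hCC') B1 b
    (by
      intro q hq C hC
      exact iter (K := K)
        (fun p' C => Has C (D0 + Da + 1)
          (Complex.exp (2 * Real.pi * Complex.I * (p' : ℂ) * (q : ℂ) / ((b : ℂ) * a)) •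
            dft a (fun p => x (b * p + q)) p')) 1
        (fun i C C' hCC' h => h.mono hCC') C a
        (by
          intro p' hp' E hE
          apply reach_smul
          · have : (2 * Real.pi * Complex.I * (p' : ℂ) * (q : ℂ) / ((b : ℂ) * a)) =
              2 * Real.pi * Complex.I * (((p' : ℝ) * q / (b * a) : ℝ) : ℂ) := by
              push_cast; ring
            rw [this, norm_exp_two_pi]
            exact hK
          · exact ((hB1' q hq p' hp').mono hC).mono hE))
  -- step 3
  obtain ⟨B3, hB3, hB3'⟩ := iter (K := K)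
    (fun p' C => ∀ q' < b, Has C (D0 + Da + 1 + Db)
      (dft b (fun q => Complex.exp (2 * Real.pi * Complex.I * (p' : ℂ) * (q : ℂ) /
        ((b : ℂ) * a)) • dft a (fun p => x (b * p + q)) p') q')) sb
    (fun i C C' hCC' h p' hp' => (h p' hp').mono hCC') B2 a
    (by
      intro p' hp' C hC
      apply hB V C (D0 + Da + 1) _ (hC (hB2.subset (hB1.subset h0)))
      intro q hq
      exact (hB2' q hq p' hp').mono hC)
  refine ⟨B3, ?_, ?_⟩
  · have h4 := (hB1.trans hB2).trans hB3
    refine h4.mono le_rfl ?_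
    rw [Nat.mul_one]
    omega
  · intro k hk
    have hq : k / a < b := Nat.div_lt_of_lt_mul (by rwa [Nat.mul_comm] at hk)
    have hp : k % a < a := Nat.mod_lt k ha
    have h5 := hB3' (k % a) hp (k / a) hq
    have h6 : D0 + (Da + Db + 1) = D0 + Da + 1 + Db := by ring
    rw [h6]
    convert h5 using 1
    unfold dft
    rw [sum_range_mul_eq]
    apply Finset.sum_congr rfl
    intro q _
    rw [smul_smul, Finset.smul_sum]
    apply Finset.sum_congr rfl
    intro p _
    rw [smul_smul]
    congr 1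
    rw [← Complex.exp_add, ← Complex.exp_add]
    have h7 : (k : ℂ) = ((k % a : ℕ) : ℂ) + (a : ℂ) * ((k / a : ℕ) : ℂ) := by
      have := Nat.mod_add_div k a
      exact_mod_cast this.symm
    have h8 : (2 * Real.pi * Complex.I * (k : ℂ) * ((b * p + q : ℕ) : ℂ) / ((b * a : ℕ) : ℂ)) =
        (2 * Real.pi * Complex.I * ((k / a : ℕ) : ℂ) * (q : ℂ) / (b : ℂ) +
        (2 * Real.pi * Complex.I * ((k % a : ℕ) : ℂ) * (q : ℂ) / ((b : ℂ) * (a : ℂ)) +
        2 * Real.pi * Complex.I * ((k % a : ℕ) : ℂ) * (p : ℂ) / (a : ℂ))) +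
        2 * Real.pi * Complex.I * ((((k / a) * p : ℕ) : ℤ) : ℂ) := by
      rw [h7]
      generalize k / a = k1
      generalize k % a = k2
      push_cast
      field_simp
      ring
    rw [h8, Complex.exp_add, exp_int_period, mul_one]
    congr 1
    ring

end Vale.Agent.P344.Amp
end

section

namespace Vale.Agent.P344.Amp

open Vale.Agent.P344

theorem DCost.pow {K : ℝ} (hK : 1 ≤ K) {m D s : ℕ} (hm : 0 < m) (h : DCost K m D s) (k : ℕ) :
    DCost K (m ^ k) (k * (D + 1)) (k * (m ^ (k - 1) * (s + m))) := by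
  induction k with
  | zero =>
    intro V _ _ A D0 x h0 hx
    refine ⟨A, Reach.refl _ _ _, ?_⟩
    intro k hk
    have hk0 : k = 0 := by
      have : k < 1 := by simpa only [Order.lt_one_iff, pow_zero] using hk
      omega
    subst hk0
    have := hx 0 (by simp)
    simpa only [zero_mul, add_zero, dft, pow_zero, Finset.range_one, CharP.cast_eq_zero, mul_zero, Nat.cast_one,     div_one, Complex.exp_zero, one_smul, Finset.sum_singleton] using this
  | succ k ih =>
    have h1 := DCost.mul hK (Nat.pow_pos hm (n := k)) hm ih h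
    have h2 : m * m ^ k = m ^ (k + 1) := by rw [pow_succ]; ring
    rw [h2] at h1
    refine h1.mono le_rfl ?_ ?_
    · apply le_of_eq; ring
    · apply le_of_eq
      rw [Nat.add_sub_cancel]
      rcases Nat.eq_zero_or_pos k with h0 | h0
      · subst h0; simp only [zero_tsub, pow_zero, one_mul, zero_mul, mul_zero, zero_add, pow_one, Nat.add_left_cancel_iff]
      · have h3 : m * (k * (m ^ (k - 1) * (s + m))) = k * (m ^ k * (s + m)) := by
          have : m ^ k = m ^ (k - 1) * m := by
            rw [← pow_succ]; congr 1; omega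
          rw [this]; ring
        rw [h3, ← h2]; ring

/-- partial sums -/
lemma reach_sum {V : Type*} [AddCommGroup V] [Module ℂ V] {K : ℝ} {A : Set (V × ℕ)} {D : ℕ}
    (h0 : ((0 : V), 0) ∈ A) (v : ℕ → V) (r : ℕ) (hv : ∀ i < r, Has A D (v i)) :
    ∃ B, Reach K A r B ∧ Has B (D + r) (∑ i ∈ Finset.range r, v i) := by
  induction r with
  | zero => exact ⟨A, Reach.refl _ _ _, 0, Nat.zero_le _, by simpa using h0⟩
  | succ r ih =>
    obtain ⟨B, hB, hB'⟩ := ih (fun i hi => hv i (Nat.lt_succ_of_lt hi))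
    have h1 : Has B (D + r) (v r) := ((hv r (Nat.lt_succ_self r)).mono hB.subset).mono' (by omega)
    obtain ⟨C, hC, hC'⟩ := reach_add (K := K) hB' h1
    refine ⟨C, hB.trans hC, ?_⟩
    rw [Finset.sum_range_succ]
    exact hC'.mono' (by omega)

theorem DCost.naive {K : ℝ} (hK : 1 ≤ K) (r : ℕ) : DCost K r (r + 1) (2 * r ^ 2) := by
  intro V _ _ A D0 x h0 hx
  obtain ⟨B, hB, hB'⟩ := iter (K := K) (fun k C => Has C (D0 + (r + 1)) (dft r x k)) (r + r)
    (fun i C C' hCC' h => h.mono hCC') A r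
    (by
      intro k hk C hC
      obtain ⟨B1, hB1, hB1'⟩ := iter (K := K) (fun j E => Has E (D0 + 1)
        (Complex.exp (2 * Real.pi * Complex.I * (k : ℂ) * (j : ℂ) / r) • x j)) 1
        (fun i C C' hCC' h => h.mono hCC') C r
        (by
          intro j hj E hE
          apply reach_smul
          · have : (2 * Real.pi * Complex.I * (k : ℂ) * (j : ℂ) / r) =
              2 * Real.pi * Complex.I * (((k : ℝ) * j / r : ℝ) : ℂ) := by
              push_cast; ring
            rw [this, norm_exp_two_pi]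
            exact hK
          · exact ((hx j hj).mono hC).mono hE)
      obtain ⟨B2, hB2, hB2'⟩ := reach_sum (K := K) (hB1.subset (hC h0)) _ r hB1'
      refine ⟨B2, ?_, ?_⟩
      · have := hB1.trans hB2
        rwa [Nat.mul_one] at this
      · exact hB2'.mono' (by omega))
  refine ⟨B, hB.mono le_rfl ?_, hB'⟩
  apply le_of_eq; ring

/-- orthogonality of characters -/
lemma sum_exp_eq (N : ℕ) (hN : 0 < N) (u : ℤ) (hu : |u| < N) :
    ∑ l ∈ Finset.range N, Complex.exp (2 * Real.pi * Complex.I * (l : ℂ) * (u : ℂ) / N) =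
      if u = 0 then (N : ℂ) else 0 := by
  have hN' : (N : ℂ) ≠ 0 := by exact_mod_cast hN.ne'
  split_ifs with h
  · subst h; simp only [Int.cast_zero, mul_zero, zero_div, Complex.exp_zero, Finset.sum_const, Finset.card_range, nsmul_eq_mul, mul_one]
  · have h1 : ∀ l ∈ Finset.range N,
        Complex.exp (2 * Real.pi * Complex.I * (l : ℂ) * (u : ℂ) / N) =
        (Complex.exp (2 * Real.pi * Complex.I * (u : ℂ) / N)) ^ l := by
      intro l _
      rw [← Complex.exp_nat_mul]
      congr 1
      ring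
    rw [Finset.sum_congr rfl h1]
    have h2 : Complex.exp (2 * Real.pi * Complex.I * (u : ℂ) / N) ≠ 1 := by
      intro h3
      rw [Complex.exp_eq_one_iff] at h3
      obtain ⟨q, hq⟩ := h3
      have hpi : (2 * Real.pi * Complex.I : ℂ) ≠ 0 := by
        simp only [ne_eq, mul_eq_zero, OfNat.ofNat_ne_zero, Complex.ofReal_eq_zero, Real.pi_ne_zero, or_self, Complex.I_ne_zero, not_false_eq_true]
      have h4 : (u : ℂ) = q * N := by
        field_simp at hq
        apply mul_left_cancel₀ hpi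
        linear_combination (2 : ℂ) * Real.pi * Complex.I * hq
      have h5 : u = q * N := by exact_mod_cast h4
      have h6 : (N : ℤ) ∣ u := ⟨q, by rw [h5]; ring⟩
      exact h (Int.eq_zero_of_abs_lt_dvd h6 hu)
    rw [geom_sum_eq h2]
    have h3 : (Complex.exp (2 * Real.pi * Complex.I * (u : ℂ) / N)) ^ N = 1 := by
      rw [← Complex.exp_nat_mul]
      have : (N : ℂ) * (2 * Real.pi * Complex.I * (u : ℂ) / N) =
        2 * Real.pi * Complex.I * (u : ℂ) := by (clear * - hN' h; field_simp)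
      rw [this, exp_int_period]
    rw [h3]; simp only [sub_self, zero_div]

end Vale.Agent.P344.Amp
end

section

namespace Vale.Agent.P344.Amp

open Vale.Agent.P344

/-- chirp `e^{πi t²/n}` -/
noncomputable def chirp (n : ℕ) (t : ℤ) : ℂ :=
  Complex.exp (2 * Real.pi * Complex.I * ((t ^ 2 : ℤ) : ℂ) / (2 * n))

noncomputable def chirpInv (n : ℕ) (t : ℤ) : ℂ :=
  Complex.exp (-(2 * Real.pi * Complex.I * ((t ^ 2 : ℤ) : ℂ) / (2 * n)))

lemma norm_chirp (n : ℕ) (t : ℤ) : ‖chirp n t‖ = 1 := by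
  unfold chirp
  have : (2 * Real.pi * Complex.I * ((t ^ 2 : ℤ) : ℂ) / (2 * n)) =
      2 * Real.pi * Complex.I * (((t : ℝ) ^ 2 / (2 * n) : ℝ) : ℂ) := by
    push_cast; ring
  rw [this, norm_exp_two_pi]

lemma norm_chirpInv (n : ℕ) (t : ℤ) : ‖chirpInv n t‖ = 1 := by
  unfold chirpInv
  have : (-(2 * Real.pi * Complex.I * ((t ^ 2 : ℤ) : ℂ) / (2 * n))) =
      2 * Real.pi * Complex.I * ((-((t : ℝ) ^ 2 / (2 * n)) : ℝ) : ℂ) := by
    push_cast; ring
  rw [this, norm_exp_two_pi]

lemma norm_char (N l : ℕ) (t : ℤ) :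
    ‖Complex.exp (2 * Real.pi * Complex.I * (l : ℂ) * (t : ℂ) / N)‖ = 1 := by
  have : (2 * Real.pi * Complex.I * (l : ℂ) * (t : ℂ) / N) =
      2 * Real.pi * Complex.I * (((l : ℝ) * t / N : ℝ) : ℂ) := by
    push_cast; ring
  rw [this, norm_exp_two_pi]

/-- transform of the inverse chirp -/
noncomputable def Hf (n N l : ℕ) : ℂ :=
  (∑ t ∈ Finset.range (2 * n), chirpInv n ((t : ℤ) - n) *
    Complex.exp (2 * Real.pi * Complex.I * (l : ℂ) * (((t : ℤ) - n : ℤ) : ℂ) / N)) / N

lemma norm_Hf {n N : ℕ} (hN : 2 * n ≤ N) (l : ℕ) : ‖Hf n N l‖ ≤ 1 := by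
  unfold Hf
  rw [norm_div]
  rcases Nat.eq_zero_or_pos N with h0 | h0
  · subst h0
    simp only [Int.cast_sub, Int.cast_natCast, CharP.cast_eq_zero, div_zero, Complex.exp_zero, mul_one, norm_zero, zero_le_one]
  have hN' : (0 : ℝ) < N := by exact_mod_cast h0
  rw [Complex.norm_natCast, div_le_one hN']
  refine (norm_sum_le _ _).trans ?_
  have : ∀ t ∈ Finset.range (2 * n), ‖chirpInv n ((t : ℤ) - n) *
    Complex.exp (2 * Real.pi * Complex.I * (l : ℂ) * (((t : ℤ) - n : ℤ) : ℂ) / N)‖ = 1 := by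
    intro t _
    rw [norm_mul, norm_chirpInv, norm_char, one_mul]
  rw [Finset.sum_congr rfl this]
  simp only [Finset.sum_const, Finset.card_range, nsmul_eq_mul, Nat.cast_mul, Nat.cast_ofNat, mul_one, ge_iff_le]
  exact_mod_cast hN

lemma key_scalar {n N : ℕ} (hn : 0 < n) (hN : 2 * n ≤ N) {j k : ℕ} (hj : j < n) (hk : k < n)
    (k' : ℕ) (q : ℤ) (hk' : (k' : ℤ) = -k + N * q) :
    chirp n k * (∑ l ∈ Finset.range N,
      Complex.exp (2 * Real.pi * Complex.I * (k' : ℂ) * (l : ℂ) / N) * (Hf n N l *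
        (Complex.exp (2 * Real.pi * Complex.I * (l : ℂ) * (j : ℂ) / N) * chirp n j))) =
      Complex.exp (2 * Real.pi * Complex.I * (k : ℂ) * (j : ℂ) / n) := by
  have hN0 : 0 < N := by omega
  have hN' : (N : ℂ) ≠ 0 := by exact_mod_cast hN0.ne'
  have hn' : (n : ℂ) ≠ 0 := by exact_mod_cast hn.ne'
  have hkc : (k' : ℂ) = -(k : ℂ) + N * (q : ℂ) := by exact_mod_cast congrArg (Int.cast (R := ℂ)) hk'
  have h1 : ∀ l ∈ Finset.range N,
      Complex.exp (2 * Real.pi * Complex.I * (k' : ℂ) * (l : ℂ) / N) * (Hf n N l *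
        (Complex.exp (2 * Real.pi * Complex.I * (l : ℂ) * (j : ℂ) / N) * chirp n j)) =
      ∑ t ∈ Finset.range (2 * n), (chirp n j / N * chirpInv n ((t : ℤ) - n)) *
        Complex.exp (2 * Real.pi * Complex.I * (l : ℂ) * (((t : ℤ) - n + j - k : ℤ) : ℂ) / N) := by
    intro l _
    unfold Hf
    rw [Finset.sum_div, Finset.sum_mul, Finset.mul_sum]
    apply Finset.sum_congr rfl
    intro t _
    have h2 : Complex.exp (2 * Real.pi * Complex.I * (l : ℂ) * (((t : ℤ) - n + j - k : ℤ) : ℂ) / N) =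
        Complex.exp (2 * Real.pi * Complex.I * (k' : ℂ) * (l : ℂ) / N) *
        (Complex.exp (2 * Real.pi * Complex.I * (l : ℂ) * (((t : ℤ) - n : ℤ) : ℂ) / N) *
        Complex.exp (2 * Real.pi * Complex.I * (l : ℂ) * (j : ℂ) / N)) := by
      rw [← Complex.exp_add, ← Complex.exp_add, hkc]
      have h3 : 2 * Real.pi * Complex.I * (-(k : ℂ) + N * (q : ℂ)) * (l : ℂ) / N +
          (2 * Real.pi * Complex.I * (l : ℂ) * (((t : ℤ) - n : ℤ) : ℂ) / N +
          2 * Real.pi * Complex.I * (l : ℂ) * (j : ℂ) / N) =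
          2 * Real.pi * Complex.I * (l : ℂ) * (((t : ℤ) - n + j - k : ℤ) : ℂ) / N +
          2 * Real.pi * Complex.I * ((q * l : ℤ) : ℂ) := by
        push_cast
        field_simp
        ring
      rw [h3, Complex.exp_add, exp_int_period, mul_one]
    rw [h2]
    ring
  rw [Finset.sum_congr rfl h1, Finset.sum_comm]
  have h4 : ∀ t ∈ Finset.range (2 * n), (∑ l ∈ Finset.range N,
      (chirp n j / N * chirpInv n ((t : ℤ) - n)) *
        Complex.exp (2 * Real.pi * Complex.I * (l : ℂ) * (((t : ℤ) - n + j - k : ℤ) : ℂ) / N)) =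
      if (t : ℤ) = n - j + k then chirp n j * chirpInv n ((k : ℤ) - j) else 0 := by
    intro t ht
    rw [← Finset.mul_sum, sum_exp_eq N hN0]
    · by_cases h5 : (t : ℤ) = n - j + k
      · rw [if_pos (by rw [h5]; ring), if_pos h5, h5]
        have : ((n : ℤ) - j + k - n) = (k : ℤ) - j := by ring
        rw [this]
        (clear * - hN'; field_simp)
      · rw [if_neg (by intro h6; apply h5; omega), if_neg h5, mul_zero]
    · have ht' := Finset.mem_range.mp ht
      rw [abs_lt]
      constructor <;> omega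
  rw [Finset.sum_congr rfl h4]
  have h7 : ∑ t ∈ Finset.range (2 * n), (if (t : ℤ) = n - j + k then
      chirp n j * chirpInv n ((k : ℤ) - j) else 0) = chirp n j * chirpInv n ((k : ℤ) - j) := by
    rw [Finset.sum_eq_single (n - j + k)]
    · rw [if_pos (by push_cast [hj.le]; ring)]
    · intro t _ ht
      rw [if_neg]
      intro h8
      apply ht
      (clear * - hj hk' h8; omega)
    · intro h8
      exact absurd (Finset.mem_range.mpr (by (clear * - hj hk hk'; omega))) h8
  rw [h7]
  unfold chirp chirpInv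
  rw [← Complex.exp_add, ← Complex.exp_add]
  congr 1
  push_cast
  field_simp
  ring

/-- Bluestein. -/
theorem DCost.bluestein {K : ℝ} (hK : 1 ≤ K) {n N D s : ℕ} (hn : 0 < n) (hN : 2 * n ≤ N)
    (h : DCost K N D s) : DCost K n (2 * D + 3) (2 * s + N + 2 * n) := by
  intro V _ _ A D0 x h0 hx
  -- step 1
  obtain ⟨B1, hB1, hB1'⟩ := iter (K := K) (fun j C => Has C (D0 + 1) (chirp n j • x j)) 1
    (fun i C C' hCC' h => h.mono hCC') A n
    (by
      intro j hj C hC
      apply reach_smul
      · rw [norm_chirp]; exact hK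
      · exact (hx j hj).mono hC)
  -- step 2
  have h01 := hB1.subset h0
  obtain ⟨B2, hB2, hB2'⟩ := h V B1 (D0 + 1) (fun j => if j < n then chirp n j • x j else 0) h01
    (by
      intro j hj
      by_cases hjn : j < n
      · simp only [hjn, if_true]
        exact hB1' j hjn
      · simp only [hjn, if_false]
        exact ⟨0, Nat.zero_le _, h01⟩)
  -- step 3
  obtain ⟨B3, hB3, hB3'⟩ := iter (K := K) (fun l C => Has C (D0 + 1 + D + 1) (Hf n N l •
      dft N (fun j => if j < n then chirp n j • x j else 0) l)) 1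
    (fun i C C' hCC' h => h.mono hCC') B2 N
    (by
      intro l hl C hC
      apply reach_smul
      · exact (norm_Hf hN l).trans hK
      · exact (hB2' l hl).mono hC)
  have h03 := hB3.subset (hB2.subset h01)
  -- step 4
  obtain ⟨B4, hB4, hB4'⟩ := h V B3 (D0 + 1 + D + 1) (fun l => Hf n N l •
      dft N (fun j => if j < n then chirp n j • x j else 0) l) h03 hB3'
  -- step 5
  have hk' : ∀ k < n, ∃ k' : ℕ, k' < N ∧ ∃ q : ℤ, (k' : ℤ) = -k + N * q := by
    intro k hk
    rcases Nat.eq_zero_or_pos k with h0 | h0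
    · exact ⟨0, by omega, 0, by subst h0; simp⟩
    · exact ⟨N - k, by omega, 1, by push_cast [show k ≤ N by omega]; ring⟩
  obtain ⟨B5, hB5, hB5'⟩ := iter (K := K) (fun k C => Has C (D0 + (2 * D + 3)) (dft n x k)) 1
    (fun i C C' hCC' h => h.mono hCC') B4 n
    (by
      intro k hk C hC
      obtain ⟨k', hk'N, q, hq⟩ := hk' k hk
      obtain ⟨E, hE, hE'⟩ := reach_smul (K := K) (chirp n k) (by rw [norm_chirp]; exact hK)
        ((hB4' k' hk'N).mono hC)
      refine ⟨E, hE, ?_⟩
      have h6 : D0 + (2 * D + 3) = D0 + 1 + D + 1 + D + 1 := by ring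
      rw [h6]
      convert hE' using 1
      unfold dft
      have h7 : ∀ l : ℕ, (∑ j ∈ Finset.range N,
          Complex.exp (2 * Real.pi * Complex.I * (l : ℂ) * (j : ℂ) / N) •
            (if j < n then chirp n j • x j else 0)) =
          ∑ j ∈ Finset.range n, (Complex.exp (2 * Real.pi * Complex.I * (l : ℂ) * (j : ℂ) / N) *
            chirp n j) • x j := by
        intro l
        rw [← Finset.sum_subset (Finset.range_mono (show n ≤ N by (clear * - hn hN; omega)))]
        · apply Finset.sum_congr rfl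
          intro j hj
          rw [if_pos (Finset.mem_range.mp hj), smul_smul]
        · intro j _ hj
          rw [if_neg (by simpa only [not_lt, Finset.mem_range] using hj), smul_zero]
      simp only [h7, Finset.smul_sum, smul_smul]
      rw [Finset.sum_comm]
      apply Finset.sum_congr rfl
      intro j hj
      rw [← Finset.sum_smul, ← Finset.mul_sum]
      congr 1
      exact (key_scalar hn hN (Finset.mem_range.mp hj) hk k' q hq).symm)
  refine ⟨B5, ?_, hB5'⟩
  refine ((((hB1.trans hB2).trans hB3).trans hB4).trans hB5).mono le_rfl ?_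
  omega

end Vale.Agent.P344.Amp
end

section

namespace Vale.Agent.P344.Amp

open Vale.Agent.P344

variable {V W : Type*} [AddCommGroup V] [Module ℂ V] [AddCommGroup W] [Module ℂ W]

/-- value of a gate over a module -/
noncomputable def gval : Gate → List V → V
  | Gate.add i j, v => v.getD i 0 + v.getD j 0
  | Gate.sub i j, v => v.getD i 0 - v.getD j 0
  | Gate.smul c i, v => c • v.getD i 0

/-- run over a module -/
noncomputable def grun : List Gate → List V → List V
  | [], v => v
  | g :: P, v => grun P (v ++ [gval g v])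

lemma getD_map_lin (φ : V →ₗ[ℂ] W) (v : List V) (i : ℕ) :
    (v.map φ).getD i 0 = φ (v.getD i 0) := by
  have h := List.getD_map (l := v) (n := i) (d := (0 : V)) (f := φ)
  rw [map_zero] at h
  exact h

lemma gval_map (φ : V →ₗ[ℂ] W) (g : Gate) (v : List V) : gval g (v.map φ) = φ (gval g v) := by
  cases g with
  | add i j => simp only [gval, getD_map_lin, map_add]
  | sub i j => simp only [gval, getD_map_lin, map_sub]
  | smul c i => simp only [gval, getD_map_lin, map_smul]

lemma grun_map (φ : V →ₗ[ℂ] W) (P : List Gate) (v : List V) :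
    grun P (v.map φ) = (grun P v).map φ := by
  induction P generalizing v with
  | nil => rfl
  | cons g P ih =>
    simp only [grun]
    rw [← ih, List.map_append, List.map_cons, List.map_nil, gval_map]

lemma gval_eq (g : Gate) (v : List ℂ) : gval g v = g.val v := by
  cases g <;> rfl

lemma grun_eq (P : List Gate) (v : List ℂ) : grun P v = run P v := by
  induction P generalizing v with
  | nil => rfl
  | cons g P ih =>
    show grun P (v ++ [gval g v]) = run P (v ++ [g.val v])
    rw [ih, gval_eq]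

lemma grun_append (P Q : List Gate) (v : List V) : grun (P ++ Q) v = grun Q (grun P v) := by
  induction P generalizing v with
  | nil => rfl
  | cons g P ih => simp only [List.cons_append, grun, ih]

lemma depths_append (P Q : List Gate) (v : List ℕ) :
    depths (P ++ Q) v = depths Q (depths P v) := by
  induction P generalizing v with
  | nil => rfl
  | cons g P ih => simp only [List.cons_append, depths, ih]

lemma grun_length (P : List Gate) (v : List V) : (grun P v).length = v.length + P.length := by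
  induction P generalizing v with
  | nil => rfl
  | cons g P ih => simp only [grun, ih, List.length_append, List.length_cons, List.length_nil]; ring

lemma depths_length (P : List Gate) (v : List ℕ) : (depths P v).length = v.length + P.length := by
  induction P generalizing v with
  | nil => rfl
  | cons g P ih =>
    simp only [depths, ih, List.length_append, List.length_cons, List.length_nil]; ring

/-- the linear form with coefficients `x` -/
noncomputable def comb {n : ℕ} (x : Fin n → V) : (Fin n → ℂ) →ₗ[ℂ] V where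
  toFun w := ∑ k, w k • x k
  map_add' w w' := by simp [add_smul, Finset.sum_add_distrib]
  map_smul' c w := by simp [smul_smul, Finset.smul_sum]

lemma comb_single {n : ℕ} (x : Fin n → V) (k : Fin n) : comb x (Pi.single k 1) = x k := by
  show ∑ i, (Pi.single k (1 : ℂ) : Fin n → ℂ) i • x i = x k
  rw [Finset.sum_eq_single k]
  · simp
  · intro b _ hb; simp [Pi.single_eq_of_ne hb]
  · intro h; exact absurd (Finset.mem_univ k) h

/-- list of unit vectors -/
noncomputable def units (n : ℕ) : List (Fin n → ℂ) :=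
  List.ofFn (fun k : Fin n => (Pi.single k (1 : ℂ) : Fin n → ℂ))

lemma units_map {n : ℕ} (x : Fin n → V) : (units n).map (comb x) = List.ofFn x := by
  unfold units
  rw [List.map_ofFn]
  congr 1
  funext k
  exact comb_single x k

lemma grun_ofFn {n : ℕ} (P : List Gate) (x : Fin n → V) :
    grun P (List.ofFn x) = (grun P (units n)).map (comb x) := by
  rw [← grun_map, units_map]

/-- coefficients of the outputs -/
lemma computes_coeff {n : ℕ} {P : List Gate} {out : Fin n → ℕ}
    (h : ∀ x : Fin n → ℂ, ∀ j : Fin n, (run P (List.ofFn x)).getD (out j) 0 =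
      ∑ k : Fin n, Complex.exp (2 * Real.pi * Complex.I * (j : ℕ) * (k : ℕ) / n) * x k)
    (j k : Fin n) : (grun P (units n)).getD (out j) 0 k =
      Complex.exp (2 * Real.pi * Complex.I * (j : ℕ) * (k : ℕ) / n) := by
  have h1 := h (Pi.single k 1) j
  rw [← grun_eq, grun_ofFn, getD_map_lin] at h1
  have h2 : comb (Pi.single k (1 : ℂ) : Fin n → ℂ) ((grun P (units n)).getD (out j) 0) =
      (grun P (units n)).getD (out j) 0 k := by
    show ∑ i, (grun P (units n)).getD (out j) 0 i • (Pi.single k (1 : ℂ) : Fin n → ℂ) i = _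
    rw [Finset.sum_eq_single k]
    · simp only [List.getD_eq_getElem?_getD, Pi.single_eq_same, smul_eq_mul, mul_one]
    · intro b _ hb; simp only [List.getD_eq_getElem?_getD, Pi.single_eq_of_ne hb, smul_eq_mul, mul_zero]
    · intro h; exact absurd (Finset.mem_univ k) h
  rw [h2] at h1
  rw [h1, Finset.sum_eq_single k]
  · simp only [Pi.single_eq_same, mul_one]
  · intro b _ hb; simp only [Pi.single_eq_of_ne hb, mul_zero]
  · intro h; exact absurd (Finset.mem_univ k) h

/-- simulate a circuit -/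
lemma simulate {K : ℝ} (P : List Gate) (hP : ∀ (a : ℂ) (i : ℕ), Gate.smul a i ∈ P → ‖a‖ ≤ K)
    (v : List V) (A : Set (V × ℕ)) (D : ℕ) (h0 : ((0 : V), 0) ∈ A)
    (hv : ∀ i, Has A D (v.getD i 0)) :
    ∃ B, Reach K A P.length B ∧ ∀ i, Has B (D + P.length) ((grun P v).getD i 0) := by
  induction P generalizing v A D with
  | nil => exact ⟨A, Reach.refl _ _ _, hv⟩
  | cons g P ih =>
    have h1 : ∃ B, Reach K A 1 B ∧ Has B (D + 1) (gval g v) := by
      cases g with
      | add i j => exact reach_add (hv i) (hv j)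
      | sub i j =>
        obtain ⟨d, hd, hm⟩ := hv i
        obtain ⟨d', hd', hm'⟩ := hv j
        refine ⟨_, ⟨1, le_rfl, Der.sub Der.refl hm hm'⟩, max d d' + 1, ?_, Set.mem_insert _ _⟩
        have : max d d' ≤ D := max_le hd hd'
        omega
      | smul c i => exact reach_smul c (hP c i (List.mem_cons_self)) (hv i)
    obtain ⟨B, hB, hB'⟩ := h1
    obtain ⟨C, hC, hC'⟩ := ih (fun a i hi => hP a i (List.mem_cons_of_mem _ hi))
      (v ++ [gval g v]) B (D + 1) (hB.subset h0) (by
        intro i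
        rcases lt_trichotomy i v.length with h | h | h
        · rw [List.getD_append _ _ _ _ h]
          exact ((hv i).mono hB.subset).mono' (by omega)
        · rw [List.getD_append_right _ _ _ _ (by omega)]
          subst h
          simpa only [tsub_self, List.getD_eq_getElem?_getD, List.length_cons, List.length_nil, zero_add,     Order.lt_one_iff, getElem?_pos, List.getElem_cons_zero, Option.getD_some] using hB'
        · rw [List.getD_eq_default _ _ (by simp only [List.length_append, List.length_cons, List.length_nil, zero_add, Order.add_one_le_iff]; omega)]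
          exact ⟨0, Nat.zero_le _, hB.subset h0⟩)
    refine ⟨C, ?_, ?_⟩
    · refine (hB.trans hC).mono le_rfl ?_
      simp only [List.length_cons]; omega
    · intro i
      refine (hC' i).mono' ?_
      simp only [List.length_cons]; omega

lemma exists_bound (P : List Gate) :
    ∃ K : ℝ, 1 ≤ K ∧ ∀ (a : ℂ) (i : ℕ), Gate.smul a i ∈ P → ‖a‖ ≤ K := by
  induction P with
  | nil => exact ⟨1, le_rfl, fun a i h => absurd h (List.not_mem_nil)⟩
  | cons g P ih =>
    obtain ⟨K, hK, h⟩ := ih
    cases g with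
    | add i j =>
      refine ⟨K, hK, fun a k hk => h a k ?_⟩
      rcases List.mem_cons.mp hk with h1 | h1
      · cases h1
      · exact h1
    | sub i j =>
      refine ⟨K, hK, fun a k hk => h a k ?_⟩
      rcases List.mem_cons.mp hk with h1 | h1
      · cases h1
      · exact h1
    | smul c i =>
      refine ⟨max K ‖c‖, hK.trans (le_max_left _ _), fun a k hk => ?_⟩
      rcases List.mem_cons.mp hk with h1 | h1
      · cases h1; exact le_max_right _ _
      · exact (h a k h1).trans (le_max_left _ _)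

/-- from circuits to costs -/
theorem dcost_of_circuit {m : ℕ} {P : List Gate} (h : ComputesDFT m P) :
    ∃ K : ℝ, 1 ≤ K ∧ ∃ D, DCost K m D P.length := by
  obtain ⟨K, hK, hP⟩ := exists_bound P
  obtain ⟨out, hout⟩ := h
  refine ⟨K, hK, P.length, ?_⟩
  intro V _ _ A D0 x h0 hx
  obtain ⟨B, hB, hB'⟩ := simulate P hP (List.ofFn (fun k : Fin m => x k)) A D0 h0 (by
    intro i
    by_cases hi : i < m
    · rw [List.getD_eq_getElem _ _ (by simpa using hi)]
      rw [List.getElem_ofFn]
      exact hx i hi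
    · rw [List.getD_eq_default _ _ (by simpa only [List.length_ofFn, not_lt] using hi)]
      exact ⟨0, Nat.zero_le _, h0⟩)
  refine ⟨B, hB, ?_⟩
  intro k hk
  have h1 := hB' (out ⟨k, hk⟩)
  rw [grun_ofFn, getD_map_lin] at h1
  convert h1 using 1
  show dft m x k = ∑ j : Fin m, (grun P (units m)).getD (out ⟨k, hk⟩) 0 j • x j
  simp only [computes_coeff hout]
  unfold dft
  rw [Finset.sum_range]

/-- pruning -/
lemma Der.prune {K : ℝ} {A B : Set (V × ℕ)} {s : ℕ} (h : Der K A s B) (T : ℕ)
    (hA : ∀ p ∈ A, p.2 ≤ T) :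
    ∃ s' ≤ s, ∃ B', Der K A s' B' ∧ (∀ p ∈ B', p.2 ≤ T) ∧ ∀ p ∈ B, p.2 ≤ T → p ∈ B' := by
  induction h with
  | refl => exact ⟨0, le_rfl, A, Der.refl, hA, fun p hp _ => hp⟩
  | @add s B u v h hu hv ih =>
    obtain ⟨s', hs, B', hB, h1, h2⟩ := ih
    by_cases hT : max u.2 v.2 + 1 ≤ T
    · have hu' : u ∈ B' := h2 u hu (le_trans (le_max_left _ _) (by omega : max u.2 v.2 ≤ T))
      have hv' : v ∈ B' := h2 v hv (le_trans (le_max_right _ _) (by omega : max u.2 v.2 ≤ T))
      refine ⟨s' + 1, by omega, _, Der.add hB hu' hv', ?_, ?_⟩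
      · intro p hp
        rcases Set.mem_insert_iff.mp hp with h3 | h3
        · rw [h3]; exact hT
        · exact h1 p h3
      · intro p hp hpT
        rcases Set.mem_insert_iff.mp hp with h3 | h3
        · rw [h3]; exact Set.mem_insert _ _
        · exact Set.mem_insert_of_mem _ (h2 p h3 hpT)
    · refine ⟨s', by omega, B', hB, h1, ?_⟩
      intro p hp hpT
      rcases Set.mem_insert_iff.mp hp with h3 | h3
      · rw [h3] at hpT; exact absurd hpT hT
      · exact h2 p h3 hpT
  | @sub s B u v h hu hv ih =>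
    obtain ⟨s', hs, B', hB, h1, h2⟩ := ih
    by_cases hT : max u.2 v.2 + 1 ≤ T
    · have hu' : u ∈ B' := h2 u hu (le_trans (le_max_left _ _) (by omega : max u.2 v.2 ≤ T))
      have hv' : v ∈ B' := h2 v hv (le_trans (le_max_right _ _) (by omega : max u.2 v.2 ≤ T))
      refine ⟨s' + 1, by omega, _, Der.sub hB hu' hv', ?_, ?_⟩
      · intro p hp
        rcases Set.mem_insert_iff.mp hp with h3 | h3
        · rw [h3]; exact hT
        · exact h1 p h3
      · intro p hp hpT
        rcases Set.mem_insert_iff.mp hp with h3 | h3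
        · rw [h3]; exact Set.mem_insert _ _
        · exact Set.mem_insert_of_mem _ (h2 p h3 hpT)
    · refine ⟨s', by omega, B', hB, h1, ?_⟩
      intro p hp hpT
      rcases Set.mem_insert_iff.mp hp with h3 | h3
      · rw [h3] at hpT; exact absurd hpT hT
      · exact h2 p h3 hpT
  | @smul s B u c hc h hu ih =>
    obtain ⟨s', hs, B', hB, h1, h2⟩ := ih
    by_cases hT : u.2 + 1 ≤ T
    · have hu' : u ∈ B' := h2 u hu (by (clear * - hT; omega))
      refine ⟨s' + 1, by (clear * - hs; omega), _, Der.smul c hc hB hu', ?_, ?_⟩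
      · intro p hp
        rcases Set.mem_insert_iff.mp hp with h3 | h3
        · rw [h3]; exact hT
        · exact h1 p h3
      · intro p hp hpT
        rcases Set.mem_insert_iff.mp hp with h3 | h3
        · rw [h3]; exact Set.mem_insert _ _
        · exact Set.mem_insert_of_mem _ (h2 p h3 hpT)
    · refine ⟨s', by omega, B', hB, h1, ?_⟩
      intro p hp hpT
      rcases Set.mem_insert_iff.mp hp with h3 | h3
      · rw [h3] at hpT; exact absurd hpT hT
      · exact h2 p h3 hpT

end Vale.Agent.P344.Amp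
end

section

namespace Vale.Agent.P344.Sym

open Vale.Agent.P344 Vale.Agent.P344.Amp

variable {V : Type*} [AddCommGroup V] [Module ℂ V]

/-- differences of two computed non-eigenvectors (up to the group action) that are
eigenvectors with eigenvalue `ψ` -/
def entr (T : Module.End ℂ V) (d : ℕ) (S : Set V) (ψ : ℂ) : Set V :=
  {w | (T ^ d) w = ψ • w ∧ ∃ u ∈ S, ∃ v ∈ S, ¬ Eig T d u ∧ ¬ Eig T d v ∧
    ∃ c : ℂ, c ≠ 0 ∧ ∃ j : ℕ, w = u - c • (T ^ j) v}

/-- an eigenvector plus a non-eigenvector -/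
lemma good_mixed {T : Module.End ℂ V} {N : ℕ} (hN : 0 < N) (hT : T ^ N = 1) {d : ℕ} {S : Set V}
    {ψ : ℂ} {x y : V} (hy : y ∈ S) {α β : ℂ} (hβ : β ≠ 0) (hEx : Eig T d x) (hEy : ¬ Eig T d y)
    (h : (T ^ d) (α • x + β • y) = ψ • (α • x + β • y)) :
    α • x + β • y ∈ Submodule.span ℂ (entr T d S ψ) := by
  obtain ⟨ψ', hψ'⟩ := hEx
  have hEy' : ∀ z : ℂ, (T ^ d) (β • y) = z • (β • y) → False := by
    intro z hz
    apply hEy
    refine ⟨z, ?_⟩
    rw [map_smul, smul_comm z β] at hz
    exact smul_right_injective V hβ hz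
  by_cases hx0 : α • x = 0
  · rw [hx0, zero_add] at h
    exact absurd h (hEy' ψ)
  have hne : ψ' ≠ ψ := by
    intro he
    subst he
    apply hEy' ψ'
    rw [map_add, smul_add, (T ^ d).map_smul α x, hψ', smul_comm α ψ' x] at h
    exact add_left_cancel h
  have hψ0 : ψ' ≠ 0 := by
    intro h0
    rw [h0, zero_smul] at hψ'
    apply hx0
    have : (T ^ d) x = (T ^ d) 0 := by rw [hψ', map_zero]
    rw [pow_injective hN hT d this, smul_zero]
  set w := α • x + β • y with hw
  have hTd : (T ^ d) w = ψ' • (α • x) + β • (T ^ d) y := by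
    rw [hw, map_add, map_smul, map_smul, hψ', smul_comm α ψ']
  have h1 : β • (y - ψ'⁻¹ • (T ^ d) y) = (1 - ψ'⁻¹ * ψ) • w := by
    have h2 : β • (T ^ d) y = ψ • w - ψ' • (α • x) := by rw [← h, hTd]; abel
    rw [smul_sub, smul_comm β, h2, smul_sub, smul_smul, smul_smul, inv_mul_cancel₀ hψ0, one_smul,
      sub_smul, one_smul, hw]
    abel
  have h3 : (1 - ψ'⁻¹ * ψ) ≠ 0 := by
    intro h4
    apply hne
    field_simp at h4
    linear_combination h4
  have h5 : w = ((1 - ψ'⁻¹ * ψ)⁻¹ * β) • (y - ψ'⁻¹ • (T ^ d) y) := by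
    rw [mul_smul, h1, smul_smul, inv_mul_cancel₀ h3, one_smul]
  rw [h5]
  apply Submodule.smul_mem
  apply Submodule.subset_span
  refine ⟨?_, y, hy, y, hy, hEy, hEy, ψ'⁻¹, inv_ne_zero hψ0, d, rfl⟩
  have h6 : y - ψ'⁻¹ • (T ^ d) y = (β⁻¹ * (1 - ψ'⁻¹ * ψ)) • w := by
    rw [mul_smul, ← h1, smul_smul, inv_mul_cancel₀ hβ, one_smul]
  rw [h6, map_smul, h, smul_comm]

lemma good_comb {T : Module.End ℂ V} {N : ℕ} (hN : 0 < N) (hT : T ^ N = 1) {d : ℕ} {S : Set V}
    {ψ : ℂ} {x y : V} (hx : x ∈ S) (hy : y ∈ S)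
    (gx : (T ^ d) x = ψ • x → x ∈ Submodule.span ℂ (entr T d S ψ))
    (gy : (T ^ d) y = ψ • y → y ∈ Submodule.span ℂ (entr T d S ψ)) (α β : ℂ)
    (h : (T ^ d) (α • x + β • y) = ψ • (α • x + β • y)) :
    α • x + β • y ∈ Submodule.span ℂ (entr T d S ψ) := by
  have cancel : ∀ (γ : ℂ) (z : V), γ ≠ 0 → (T ^ d) (γ • z) = ψ • (γ • z) →
      (T ^ d) z = ψ • z := by
    intro γ z hγ hz
    rw [map_smul, smul_comm ψ γ] at hz
    exact smul_right_injective V hγ hz
  by_cases hα : α = 0
  · subst hα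
    rw [zero_smul, zero_add] at h ⊢
    by_cases hβ : β = 0
    · subst hβ; rw [zero_smul]; exact Submodule.zero_mem _
    · exact Submodule.smul_mem _ _ (gy (cancel β y hβ h))
  by_cases hβ : β = 0
  · subst hβ
    rw [zero_smul, add_zero] at h ⊢
    exact Submodule.smul_mem _ _ (gx (cancel α x hα h))
  by_cases hEx : Eig T d x
  · by_cases hEy : Eig T d y
    · obtain ⟨ψ₁, h₁⟩ := hEx
      obtain ⟨ψ₂, h₂⟩ := hEy
      have h1' : (T ^ d) (α • x) = ψ₁ • (α • x) := by rw [map_smul, h₁, smul_comm]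
      have h2' : (T ^ d) (β • y) = ψ₂ • (β • y) := by rw [map_smul, h₂, smul_comm]
      by_cases e1 : (T ^ d) x = ψ • x
      · have e2 : (T ^ d) (β • y) = ψ • (β • y) := by
          rw [map_add, smul_add, (T ^ d).map_smul α x, e1, smul_comm α ψ x] at h
          exact add_left_cancel h
        exact Submodule.add_mem _ (Submodule.smul_mem _ _ (gx e1))
          (Submodule.smul_mem _ _ (gy (cancel β y hβ e2)))
      · -- then the sum vanishes
        have hne : ψ₁ ≠ ψ := fun he => e1 (he ▸ h₁)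
        have g1 : (ψ₁ - ψ) • (α • x) + (ψ₂ - ψ) • (β • y) = 0 := by
          rw [map_add, h1', h2', smul_add] at h
          rw [sub_smul, sub_smul]
          have : ψ₁ • α • x + ψ₂ • β • y - (ψ • α • x + ψ • β • y) = 0 := sub_eq_zero.mpr h
          rw [← this]; abel
        have g2 : (ψ₁ - ψ) • ψ₁ • (α • x) + (ψ₂ - ψ) • ψ₂ • (β • y) = 0 := by
          have := congrArg (T ^ d) g1
          rw [map_add, (T ^ d).map_smul (ψ₁ - ψ), (T ^ d).map_smul (ψ₂ - ψ), h1', h2', map_zero] at this
          exact this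
        have g3 : ((ψ₁ - ψ) * (ψ₁ - ψ₂)) • (α • x) = 0 := by
          have g4 : (ψ₁ - ψ) • ψ₁ • (α • x) + (ψ₂ - ψ) • ψ₂ • (β • y) -
              ψ₂ • ((ψ₁ - ψ) • (α • x) + (ψ₂ - ψ) • (β • y)) = 0 := by
            rw [g1, g2, smul_zero, sub_zero]
          rw [← g4]
          module
        rcases smul_eq_zero.mp g3 with g5 | g5
        · have g6 : ψ₁ = ψ₂ := by
            rcases mul_eq_zero.mp g5 with g7 | g7
            · exact absurd (sub_eq_zero.mp g7) hne
            · exact sub_eq_zero.mp g7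
          rw [← g6, ← smul_add] at g1
          rcases smul_eq_zero.mp g1 with g7 | g7
          · exact absurd (sub_eq_zero.mp g7) hne
          · rw [g7]; exact Submodule.zero_mem _
        · rw [g5, zero_add] at h ⊢
          exact Submodule.smul_mem _ _ (gy (cancel β y hβ h))
    · exact good_mixed hN hT hy hβ hEx hEy h
  · by_cases hEy : Eig T d y
    · rw [add_comm] at h ⊢
      exact good_mixed hN hT hx hα hEy hEx h
    · have h1 : α • x + β • y = α • (x - (-(α⁻¹ * β)) • (T ^ 0) y) := by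
        rw [smul_sub, smul_smul, pow_zero, Module.End.one_apply]
        have : α * -(α⁻¹ * β) = -β := by field_simp
        rw [this, neg_smul, sub_neg_eq_add]
      rw [h1]
      apply Submodule.smul_mem
      apply Submodule.subset_span
      refine ⟨?_, x, hx, y, hy, hEx, hEy, -(α⁻¹ * β),
        neg_ne_zero.mpr (mul_ne_zero (inv_ne_zero hα) hβ), 0, rfl⟩
      apply cancel α _ hα
      rw [← h1]; exact h

lemma mem_grun_of_mem (P : List Gate) (v : List V) {x : V} (hx : x ∈ v) : x ∈ grun P v := by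
  induction P generalizing v with
  | nil => exact hx
  | cons g P ih => exact ih _ (List.mem_append_left _ hx)

omit [Module ℂ V] in
lemma getD_mem_or (v : List V) (i : ℕ) : v.getD i 0 = 0 ∨ v.getD i 0 ∈ v := by
  by_cases h : i < v.length
  · right
    rw [List.getD_eq_getElem _ _ h]
    exact List.getElem_mem h
  · left
    exact List.getD_eq_default _ _ (by omega)

/-- a property stable under linear combinations of computed vectors -/
lemma closure_grun (Q : V → Prop) (S : Set V) (hS0 : (0 : V) ∈ S) (hQ0 : Q 0)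
    (h : ∀ x ∈ S, ∀ y ∈ S, Q x → Q y → ∀ α β : ℂ, Q (α • x + β • y)) (P : List Gate)
    (v : List V) (hv : ∀ x ∈ v, Q x) (hS : ∀ x ∈ grun P v, x ∈ S) : ∀ x ∈ grun P v, Q x := by
  induction P generalizing v with
  | nil => exact hv
  | cons g P ih =>
    apply ih _ _ hS
    intro x hx
    rcases List.mem_append.mp hx with hx | hx
    · exact hv x hx
    · have hx' := List.mem_singleton.mp hx
      have hQg : ∀ i, Q (v.getD i 0) := by
        intro i
        rcases getD_mem_or v i with h1 | h1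
        · rw [h1]; exact hQ0
        · exact hv _ h1
      have hSg : ∀ i, v.getD i 0 ∈ S := by
        intro i
        rcases getD_mem_or v i with h1 | h1
        · rw [h1]; exact hS0
        · exact hS _ (mem_grun_of_mem (g :: P) v h1)
      rw [hx']
      cases g with
      | add i j =>
        have := h _ (hSg i) _ (hSg j) (hQg i) (hQg j) 1 1
        simpa only [gval, List.getD_eq_getElem?_getD, one_smul] using this
      | sub i j =>
        have := h _ (hSg i) _ (hSg j) (hQg i) (hQg j) 1 (-1)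
        simpa only [gval, List.getD_eq_getElem?_getD, sub_eq_add_neg, one_smul, neg_smul] using this
      | smul c i =>
        have := h _ (hSg i) _ (hSg i) (hQg i) (hQg i) c 0
        simpa only [gval, List.getD_eq_getElem?_getD, zero_smul, add_zero] using this

/-- choosing independent vectors out of a spanning set -/
lemma pick [FiniteDimensional ℂ V] (S : Set V) {m : ℕ} (v : Fin m → V)
    (hv : LinearIndependent ℂ v) (h : ∀ r, v r ∈ Submodule.span ℂ S) :
    ∃ f : Fin m → V, (∀ r, f r ∈ S) ∧ LinearIndependent ℂ f := by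
  classical
  obtain ⟨b, hbS, hspan, hli⟩ := exists_linearIndependent ℂ S
  have hfin : Finite b := hli.finite
  have : Fintype b := Fintype.ofFinite b
  have h1 : Module.finrank ℂ (Submodule.span ℂ b) = Fintype.card b := by
    have := finrank_span_eq_card hli
    rw [Subtype.range_coe] at this
    exact this
  have h2 : m ≤ Fintype.card b := by
    rw [← h1, hspan]
    have hv' : LinearIndependent ℂ (fun r : Fin m => (⟨v r, h r⟩ : Submodule.span ℂ S)) := by
      apply LinearIndependent.of_comp (Submodule.span ℂ S).subtype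
      exact hv
    have := hv'.fintype_card_le_finrank
    simpa only [ge_iff_le, Fintype.card_fin] using this
  obtain ⟨e⟩ : Nonempty (Fin m ↪ b) :=
    Function.Embedding.nonempty_of_card_le (by simpa only [Fintype.card_fin, Set.fintypeCard_eq_ncard] using h2)
  exact ⟨fun r => (e r : V), fun r => hbS (e r).2, hli.comp _ e.injective⟩

end Vale.Agent.P344.Sym
end

section

namespace Vale.Agent.P344.Sym

open Vale.Agent.P344 Vale.Agent.P344.Amp

/-- shift operator: `(shOp n a v) k = v (k + a)` -/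
noncomputable def shOp (n a : ℕ) : Module.End ℂ (Fin n → ℂ) :=
  LinearMap.funLeft ℂ ℂ (fun k : Fin n => (⟨(k + a) % n, Nat.mod_lt _ k.pos⟩ : Fin n))

lemma shOp_apply (n a : ℕ) (v : Fin n → ℂ) (k : Fin n) :
    shOp n a v k = v ⟨(k + a) % n, Nat.mod_lt _ k.pos⟩ := rfl

lemma shOp_pow (n a j : ℕ) (v : Fin n → ℂ) (k : Fin n) :
    (shOp n a ^ j) v k = v ⟨(k + a * j) % n, Nat.mod_lt _ k.pos⟩ := by
  induction j generalizing v with
  | zero =>
    simp only [pow_zero, Module.End.one_apply, Nat.mul_zero, Nat.add_zero]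
    congr 1
    apply Fin.ext
    exact (Nat.mod_eq_of_lt k.isLt).symm
  | succ j ih =>
    rw [pow_succ, Module.End.mul_apply, ih, shOp_apply]
    congr 1
    apply Fin.ext
    show ((k + a * j) % n + a) % n = (k + a * (j + 1)) % n
    rw [Nat.mod_add_mod]
    congr 1
    ring

/-- characters -/
noncomputable def chr (n k : ℕ) : Fin n → ℂ :=
  fun l => Complex.exp (2 * Real.pi * Complex.I * (k : ℂ) * (l : ℕ) / n)

lemma chr_mod (n k a : ℕ) (hn : 0 < n) :
    Complex.exp (2 * Real.pi * Complex.I * (k : ℂ) * ((a % n : ℕ) : ℂ) / n) =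
      Complex.exp (2 * Real.pi * Complex.I * (k : ℂ) * (a : ℂ) / n) := by
  have hn' : (n : ℂ) ≠ 0 := by exact_mod_cast hn.ne'
  have h1 : (a : ℂ) = ((a % n : ℕ) : ℂ) + n * ((a / n : ℕ) : ℂ) := by
    have := Nat.mod_add_div a n
    exact_mod_cast this.symm
  conv_rhs => rw [h1]
  have h2 : 2 * Real.pi * Complex.I * (k : ℂ) * (((a % n : ℕ) : ℂ) + n * ((a / n : ℕ) : ℂ)) / n =
      2 * Real.pi * Complex.I * (k : ℂ) * ((a % n : ℕ) : ℂ) / n +
      2 * Real.pi * Complex.I * ((k * (a / n) : ℕ) : ℤ) := by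
    generalize a / n = b
    push_cast
    field_simp
  rw [h2, Complex.exp_add, exp_int_period, mul_one]

lemma chr_ne_zero {n : ℕ} (hn : 0 < n) (k : ℕ) : chr n k ≠ 0 := by
  intro h
  have := congrFun h ⟨0, hn⟩
  exact Complex.exp_ne_zero _ this

lemma shOp_chr {n : ℕ} (hn : 0 < n) (a k : ℕ) :
    shOp n a (chr n k) = Complex.exp (2 * Real.pi * Complex.I * (k : ℂ) * (a : ℂ) / n) •
      chr n k := by
  have hn' : (n : ℂ) ≠ 0 := by exact_mod_cast hn.ne'
  funext l
  rw [shOp_apply, Pi.smul_apply, smul_eq_mul]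
  show Complex.exp (2 * Real.pi * Complex.I * (k : ℂ) * (((l + a) % n : ℕ) : ℂ) / n) = _
  rw [chr_mod n k _ hn]
  unfold chr
  rw [← Complex.exp_add]
  congr 1
  push_cast
  ring

lemma chr_linearIndependent {n : ℕ} (hn : 0 < n) :
    LinearIndependent ℂ (fun k : Fin n => chr n k) := by
  have hprim := Complex.isPrimitiveRoot_exp n hn.ne'
  apply Module.End.eigenvectors_linearIndependent' (shOp n 1)
    (fun k : Fin n => Complex.exp (2 * Real.pi * Complex.I / n) ^ (k : ℕ))
  · intro k k' h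
    exact Fin.ext (hprim.pow_inj k.isLt k'.isLt h)
  · intro k
    refine Module.End.hasEigenvector_iff.mpr ⟨?_, chr_ne_zero hn _⟩
    rw [Module.End.mem_eigenspace_iff, shOp_chr hn]
    congr 1
    rw [← Complex.exp_nat_mul]
    congr 1
    push_cast
    ring

section
variable {n p A : ℕ}

/-- the symmetry -/
noncomputable def TT (n N : ℕ) : Module.End ℂ (Fin n → ℂ) := shOp n (n - n / N)

lemma TT_pow {N : ℕ} (hn : 0 < n) (hN : N ∣ n) : TT n N ^ N = 1 := by
  obtain ⟨t, rfl⟩ := hN
  have hN0 : 0 < N := Nat.pos_of_mul_pos_right hn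
  have ht : N * t / N = t := Nat.mul_div_cancel_left t hN0
  apply LinearMap.ext
  intro v
  funext k
  rw [Module.End.one_apply]
  unfold TT
  rw [shOp_pow]
  congr 1
  apply Fin.ext
  show (k + (N * t - N * t / N) * N) % (N * t) = k
  rw [ht]
  obtain ⟨M, rfl⟩ : ∃ M, N = M + 1 := ⟨N - 1, by omega⟩
  have h1 : (M + 1) * t - t = M * t := by
    have : (M + 1) * t = M * t + t := by ring
    omega
  rw [h1]
  have h2 : M * t * (M + 1) = (M + 1) * t * M := by ring
  rw [h2, Nat.add_mul_mod_self_left]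
  exact Nat.mod_eq_of_lt k.isLt

lemma TT_chr {N : ℕ} (hn : 0 < n) (hN : N ∣ n) (k : ℕ) :
    TT n N (chr n k) = (Complex.exp (2 * Real.pi * Complex.I / N) ^ k)⁻¹ • chr n k := by
  have hn' : (n : ℂ) ≠ 0 := by exact_mod_cast hn.ne'
  have hN0 : 0 < N := Nat.pos_of_dvd_of_pos hN hn
  have hN' : (N : ℂ) ≠ 0 := by exact_mod_cast hN0.ne'
  unfold TT
  rw [shOp_chr hn]
  congr 1
  rw [← Complex.exp_nat_mul, ← Complex.exp_neg]
  have h1 : ((n - n / N : ℕ) : ℂ) = n - n / N := by
    rw [Nat.cast_sub (Nat.div_le_self _ _), Nat.cast_div hN hN']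
  rw [h1]
  have h2 : 2 * Real.pi * Complex.I * (k : ℂ) * ((n : ℂ) - n / N) / n =
      -((k : ℂ) * (2 * Real.pi * Complex.I / N)) + 2 * Real.pi * Complex.I * ((k : ℤ) : ℂ) := by
    push_cast
    field_simp
    ring
  rw [h2, Complex.exp_add, exp_int_period, mul_one]

/-- unit vectors are not eigenvectors -/
lemma unit_not_eig (hp : p.Prime) (hn : 0 < n) (hpA : p ^ A ∣ n) {i : ℕ} (hi1 : 1 ≤ i)
    (hiA : i ≤ A) (k : Fin n) :
    ¬ Eig (TT n (p ^ A)) (p ^ (A - i)) (Pi.single k (1 : ℂ) : Fin n → ℂ) := by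
  rintro ⟨ψ, hψ⟩
  obtain ⟨t, ht⟩ := hpA
  have hN0 : 0 < p ^ A := Nat.pow_pos hp.pos
  have ht0 : 0 < t := by
    rcases Nat.eq_zero_or_pos t with h | h
    · rw [h, Nat.mul_zero] at ht; omega
    · exact h
  have hdiv : n / p ^ A = t := by rw [ht]; exact Nat.mul_div_cancel_left t hN0
  have h1 := congrFun hψ k
  unfold TT at h1
  rw [shOp_pow, hdiv, Pi.smul_apply, Pi.single_eq_same, smul_eq_mul, mul_one] at h1
  have h2 : (⟨(k + (n - t) * p ^ (A - i)) % n, Nat.mod_lt _ k.pos⟩ : Fin n) ≠ k := by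
    intro h
    have h3 : (k + (n - t) * p ^ (A - i)) % n = k := congrArg Fin.val h
    have h4 : n ∣ (n - t) * p ^ (A - i) := by
      have h5 : (k + (n - t) * p ^ (A - i)) % n = (k + 0) % n := by
        rw [h3, Nat.add_zero, Nat.mod_eq_of_lt k.isLt]
      have h6 : (n - t) * p ^ (A - i) ≡ 0 [MOD n] := Nat.ModEq.add_left_cancel' _ h5
      exact (Nat.modEq_zero_iff_dvd).mp h6
    have h7 : n ∣ t * p ^ (A - i) := by
      have h8 : t ≤ n := by rw [ht]; exact Nat.le_mul_of_pos_left t hN0
      have h9 : (n - t) * p ^ (A - i) + t * p ^ (A - i) = n * p ^ (A - i) := by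
        rw [← Nat.add_mul, Nat.sub_add_cancel h8]
      exact (Nat.dvd_add_right h4).mp (h9 ▸ Nat.dvd_mul_right n _)
    rw [ht, Nat.mul_comm] at h7
    have h10 : p ^ A ∣ p ^ (A - i) := Nat.dvd_of_mul_dvd_mul_left ht0 h7
    have h11 := Nat.le_of_dvd (Nat.pow_pos hp.pos) h10
    have h12 : p ^ (A - i) < p ^ A := Nat.pow_lt_pow_right hp.one_lt (by (clear * - hi1 hiA; omega))
    omega
  rw [Pi.single_eq_of_ne h2] at h1
  rw [← h1, zero_smul] at hψ
  have h3 : (Pi.single k (1 : ℂ) : Fin n → ℂ) = 0 := by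
    apply pow_injective hN0 (TT_pow hn ⟨t, ht⟩) (p ^ (A - i))
    rw [hψ, map_zero]
  have h4 := congrFun h3 k
  rw [Pi.single_eq_same] at h4
  exact one_ne_zero h4

/-- the level count for circuits computing the discrete Fourier transform -/
theorem level (hp : p.Prime) (hn : 0 < n) (hpA : p ^ A ∣ n) {i : ℕ} (hi1 : 1 ≤ i)
    (hiA : i ≤ A) (P : List Gate)
    (hout : ∀ k : Fin n, chr n k ∈ grun P (units n)) (hN : 0 < p ^ A)
    (hT : TT n (p ^ A) ^ (p ^ A) = 1) :
    n ≤ 2 * p ^ (A - i) * Nat.card (Quotient (orbS (TT n (p ^ A)) hN hT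
      (fun k : Fin (grun P (units n)).length => (grun P (units n)).get k) (p ^ (A - i)))) := by
  classical
  set T := TT n (p ^ A) with hTdef
  set Lst := grun P (units n) with hL
  set S : Set (Fin n → ℂ) := {x | x = 0 ∨ x ∈ Lst} with hS
  set ζ : ℂ := Complex.exp (2 * Real.pi * Complex.I / ((p ^ A : ℕ) : ℂ)) with hζ
  have hprim : IsPrimitiveRoot ζ (p ^ A) := Complex.isPrimitiveRoot_exp (p ^ A) hN.ne'
  have hprim' : IsPrimitiveRoot (ζ ^ (p ^ (A - i))) (p ^ i) := by
    apply hprim.pow hN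
    rw [← pow_add, Nat.sub_add_cancel hiA]
  obtain ⟨m, hm⟩ := hpA
  set κ : Fin (p ^ i) → ℂ := fun l => (ζ ^ (l : ℕ))⁻¹ with hκ
  set ψ : Fin (p ^ i) → ℂ := fun l => κ l ^ (p ^ (A - i)) with hψ
  have hκ1 : ∀ l, κ l ^ (p ^ A) = 1 := by
    intro l
    rw [hκ]
    simp only
    rw [inv_pow, ← pow_mul, mul_comm, pow_mul, hprim.pow_eq_one, one_pow, inv_one]
  have hκ0 : ∀ l, κ l ≠ 0 := fun l =>
    inv_ne_zero (pow_ne_zero _ (hprim.ne_zero hN.ne'))
  have hψi : Function.Injective ψ := by
    intro l l' h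
    simp only [hψ, hκ, inv_pow] at h
    rw [inv_inj, ← pow_mul, ← pow_mul, mul_comm, mul_comm (l' : ℕ), pow_mul, pow_mul] at h
    exact Fin.ext (hprim'.pow_inj l.isLt l'.isLt h)
  have hple : p ^ i ≤ p ^ A := Nat.pow_le_pow_right hp.pos hiA
  have hidx : ∀ (l : Fin (p ^ i)) (r : Fin m), (l : ℕ) + p ^ A * r < n := by
    intro l r
    rw [hm]
    calc (l : ℕ) + p ^ A * r < p ^ A + p ^ A * r := by
          have := l.isLt; (clear * - hple this; omega)
      _ = p ^ A * (r + 1) := by ring
      _ ≤ p ^ A * m := Nat.mul_le_mul_left _ r.isLt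
  have hTchr : ∀ (l : Fin (p ^ i)) (r : Fin m), T (chr n ((l : ℕ) + p ^ A * r)) =
      κ l • chr n ((l : ℕ) + p ^ A * r) := by
    intro l r
    rw [hTdef, TT_chr hn ⟨m, hm⟩]
    congr 2
    rw [← hζ, pow_add, pow_mul, hprim.pow_eq_one, one_pow, mul_one]
  -- everything computed in an eigenspace is spanned by entrances
  have hspan : ∀ l : Fin (p ^ i), ∀ x ∈ Lst, (T ^ (p ^ (A - i))) x = ψ l • x →
      x ∈ Submodule.span ℂ (entr T (p ^ (A - i)) S (ψ l)) := by
    intro l
    apply closure_grun (fun x => (T ^ (p ^ (A - i))) x = ψ l • x →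
      x ∈ Submodule.span ℂ (entr T (p ^ (A - i)) S (ψ l))) S (Or.inl rfl)
      (fun _ => Submodule.zero_mem _) _ P (units n) _ (fun x hx => Or.inr hx)
    · intro x hx y hy gx gy α β h
      exact good_comb hN hT hx hy gx gy α β h
    · intro x hx h
      exfalso
      unfold units at hx
      rw [List.mem_ofFn] at hx
      obtain ⟨k, rfl⟩ := hx
      exact unit_not_eig hp hn ⟨m, hm⟩ hi1 hiA k ⟨_, h⟩
  -- independent entrances
  have hpick : ∀ l : Fin (p ^ i), ∃ w : Fin m → (Fin n → ℂ),
      (∀ r, w r ∈ entr T (p ^ (A - i)) S (ψ l)) ∧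
      LinearIndependent ℂ (fun r => prj T (p ^ A) (κ l) (w r)) := by
    intro l
    have hli : LinearIndependent ℂ (fun r : Fin m => chr n ((l : ℕ) + p ^ A * r)) := by
      have h1 := (chr_linearIndependent hn).comp
        (fun r : Fin m => (⟨(l : ℕ) + p ^ A * r, hidx l r⟩ : Fin n)) (by
          intro r r' h
          have h2 : (l : ℕ) + p ^ A * r = (l : ℕ) + p ^ A * r' := congrArg Fin.val h
          have h3 := Nat.add_left_cancel h2
          exact Fin.ext (Nat.eq_of_mul_eq_mul_left hN h3))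
      exact h1
    obtain ⟨f, hf1, hf2⟩ := pick
      ((prj T (p ^ A) (κ l)) '' (entr T (p ^ (A - i)) S (ψ l))) _ hli (by
        intro r
        rw [Submodule.span_image]
        refine ⟨chr n ((l : ℕ) + p ^ A * r), ?_, prj_self hN (hκ0 l) (hTchr l r)⟩
        apply hspan l _ (hout ⟨_, hidx l r⟩)
        exact eig_pow (hTchr l r) _)
    choose w hw1 hw2 using hf1
    refine ⟨w, hw1, ?_⟩
    simp only [hw2]
    exact hf2
  choose w hw hwli using hpick
  -- endpoints
  have hend : ∀ e : Fin (p ^ i) × Fin m, ∃ a b : {k : Fin Lst.length //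
      ¬ Eig T (p ^ (A - i)) (Lst.get k)}, ∃ c : ℂ, c ≠ 0 ∧ ∃ j : ℕ,
      w e.1 e.2 = Lst.get a.1 - c • (T ^ j) (Lst.get b.1) := by
    intro e
    obtain ⟨_, u, hu, v, hv, hEu, hEv, c, hc, j, h⟩ := hw e.1 e.2
    have hmem : ∀ x ∈ S, ¬ Eig T (p ^ (A - i)) x → ∃ a : {k : Fin Lst.length //
        ¬ Eig T (p ^ (A - i)) (Lst.get k)}, Lst.get a.1 = x := by
      intro x hx hEx
      rcases hx with hx | hx
      · exact absurd ⟨0, by rw [hx]; simp⟩ hEx
      · obtain ⟨k, hk⟩ := List.get_of_mem hx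
        exact ⟨⟨k, by rw [hk]; exact hEx⟩, hk⟩
    obtain ⟨a, ha⟩ := hmem u hu hEu
    obtain ⟨b, hb⟩ := hmem v hv hEv
    exact ⟨a, b, c, hc, j, by rw [ha, hb]; exact h⟩
  choose a b c hc j hwe using hend
  have hmain := orbit_count hp hiA hT
    (fun k : {k : Fin Lst.length // ¬ Eig T (p ^ (A - i)) (Lst.get k)} => Lst.get k.1)
    (orbS T hN hT (fun k => Lst.get k) (p ^ (A - i))) (fun x y => Iff.rfl) ψ κ hψi hκ1
    (fun l => rfl) a b c hc j (by
      intro e
      rw [← hwe e]
      exact (hw e.1 e.2).1) (by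
      intro l
      have := hwli l
      simp only [hwe (l, _)] at this
      convert this using 2)
  calc n = p ^ (A - i) * (p ^ i * m) := by
        rw [← mul_assoc, ← pow_add, Nat.sub_add_cancel hiA]; exact hm
    _ ≤ p ^ (A - i) * (2 * Nat.card _) := Nat.mul_le_mul_left _ hmain
    _ = _ := by ring

end

end Vale.Agent.P344.Sym
end

section

namespace Vale.Agent.P344.Sym

open Vale.Agent.P344 Vale.Agent.P344.Amp

lemma comb_eq {n : ℕ} (x w : Fin n → ℂ) : comb x w = ∑ k, w k * x k := rfl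

/-- symmetry in terms of coefficient vectors -/
lemma closed_of_shiftInvariant {n N : ℕ} (hn : 0 < n) (hN : N ∣ n) {P : List Gate}
    (h : ShiftInvariant n (n / N) P) (i : ℕ) : ∃ i' : ℕ, ∃ c : ℂ, c ≠ 0 ∧
      TT n N ((grun P (units n)).getD i 0) = c • (grun P (units n)).getD i' 0 := by
  obtain ⟨i', c, hc, hx⟩ := h i
  refine ⟨i', c, hc, ?_⟩
  set C := grun P (units n) with hC
  have h1 : ∀ x : Fin n → ℂ, comb (shiftInput (n / N) x) (C.getD i 0) =
      c * comb x (C.getD i' 0) := by
    intro x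
    have := hx x
    rw [← grun_eq, ← grun_eq, grun_ofFn, grun_ofFn, getD_map_lin, getD_map_lin] at this
    exact this
  have htn : n / N ≤ n := Nat.div_le_self _ _
  funext l
  have h2 := h1 (Pi.single l 1)
  rw [comb_eq, comb_eq] at h2
  have h3 : ∑ k, (C.getD i' 0) k * (Pi.single l (1 : ℂ) : Fin n → ℂ) k = (C.getD i' 0) l := by
    rw [Finset.sum_eq_single l]
    · simp only [List.getD_eq_getElem?_getD, Pi.single_eq_same, mul_one]
    · intro b _ hb; rw [Pi.single_eq_of_ne hb, mul_zero]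
    · intro h; exact absurd (Finset.mem_univ l) h
  rw [h3] at h2
  rw [Pi.smul_apply, smul_eq_mul, ← h2]
  unfold TT
  rw [shOp_apply]
  set l' : Fin n := ⟨(l + (n - n / N)) % n, Nat.mod_lt _ l.pos⟩ with hl'
  have h4 : (⟨(l' + n / N) % n, Nat.mod_lt _ l'.pos⟩ : Fin n) = l := by
    apply Fin.ext
    show ((l + (n - n / N)) % n + n / N) % n = l
    rw [Nat.mod_add_mod, Nat.add_assoc, Nat.sub_add_cancel htn, Nat.add_mod_right]
    exact Nat.mod_eq_of_lt l.isLt
  rw [Finset.sum_eq_single l']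
  · show C.getD i 0 l' = C.getD i 0 l' * (Pi.single l (1 : ℂ) : Fin n → ℂ)
      ⟨(l' + n / N) % n, Nat.mod_lt _ l'.pos⟩
    rw [h4, Pi.single_eq_same, mul_one]
  · intro b _ hb
    show C.getD i 0 b * (Pi.single l (1 : ℂ) : Fin n → ℂ)
      ⟨(b + n / N) % n, Nat.mod_lt _ b.pos⟩ = 0
    rw [Pi.single_eq_of_ne, mul_zero]
    intro h5
    apply hb
    have h6 : (b + n / N) % n = (l' + n / N) % n := by
      have g1 : (b + n / N) % n = (l : ℕ) := congrArg Fin.val h5
      have g2 : (l' + n / N) % n = (l : ℕ) := congrArg Fin.val h4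
      rw [g1, g2]
    have h7 : (b : ℕ) ≡ l' [MOD n] := Nat.ModEq.add_right_cancel' (n / N) h6
    exact Fin.ext (Nat.ModEq.eq_of_lt_of_lt h7 b.isLt l'.isLt)
  · intro h; exact absurd (Finset.mem_univ l') h

theorem main {n p A : ℕ} (hp : p.Prime) (hn : 0 < n) (hpA : p ^ A ∣ n) {P : List Gate}
    (hP : ComputesDFT n P) (hS : ShiftInvariant n (n / p ^ A) P) :
    (p - 1) * A * n ≤ 2 * P.length := by
  classical
  have hN : 0 < p ^ A := Nat.pow_pos hp.pos
  have hT := TT_pow hn hpA
  set Lst := grun P (units n) with hL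
  obtain ⟨out, hout⟩ := hP
  have hlen : Lst.length = n + P.length := by
    rw [hL, grun_length]; simp [units]
  have hget : ∀ j : Fin n, Lst.getD (out j) 0 = chr n j := by
    intro j
    funext k
    rw [computes_coeff hout]
    rfl
  have hmem : ∀ j : Fin n, chr n j ∈ Lst := by
    intro j
    rcases getD_mem_or Lst (out j) with h | h
    · rw [hget] at h; exact absurd h (chr_ne_zero hn j)
    · rwa [hget] at h
  have htot := total_count (n := n) hp hN hT (fun k : Fin Lst.length => Lst.get k) (by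
    intro k
    obtain ⟨i', c, hc, h⟩ := closed_of_shiftInvariant hn hpA hS k
    have hk : Lst.getD k 0 = Lst.get k := by
      rw [List.getD_eq_getElem _ _ k.isLt]; rfl
    rw [← hL, hk] at h
    by_cases hi : i' < Lst.length
    · refine ⟨⟨i', hi⟩, c, hc, ?_⟩
      rw [h, List.getD_eq_getElem _ _ hi]; rfl
    · rw [List.getD_eq_default _ _ (by omega), smul_zero] at h
      refine ⟨k, 1, one_ne_zero, ?_⟩
      have h0 : Lst.get k = 0 := by
        apply pow_injective hN hT 1
        rw [pow_one, h, map_zero]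
      rw [h, h0, smul_zero])
    (fun i hi1 hiA => level hp hn hpA hi1 hiA P hmem hN hT)
  have hE : n ≤ Nat.card {k : Fin Lst.length // Eig (TT n (p ^ A)) 1 (Lst.get k)} := by
    have hex : ∀ j : Fin n, ∃ k : {k : Fin Lst.length // Eig (TT n (p ^ A)) 1 (Lst.get k)},
        Lst.get k.1 = chr n j := by
      intro j
      obtain ⟨k, hk⟩ := List.get_of_mem (hmem j)
      refine ⟨⟨k, ?_⟩, hk⟩
      rw [hk]
      exact ⟨_, by rw [pow_one]; exact TT_chr hn hpA _⟩
    choose f hf using hex
    have hinj : Function.Injective f := by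
      intro j j' h
      have h1 : chr n j = chr n j' := by rw [← hf j, ← hf j', h]
      exact (chr_linearIndependent hn).injective h1
    have := Nat.card_le_card_of_injective f hinj
    simpa only [List.get_eq_getElem, Nat.card_eq_fintype_card, ge_iff_le, Fintype.card_fin] using this
  have hsum : Nat.card {k : Fin Lst.length // Eig (TT n (p ^ A)) 1 (Lst.get k)} +
      Nat.card {k : Fin Lst.length // ¬ Eig (TT n (p ^ A)) 1 (Lst.get k)} = Lst.length := by
    rw [Nat.card_eq_fintype_card, Nat.card_eq_fintype_card]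
    have := Fintype.card_subtype_compl (fun k : Fin Lst.length =>
      Eig (TT n (p ^ A)) 1 (Lst.get k))
    rw [this, Fintype.card_fin]
    have h2 := Fintype.card_subtype_le (fun k : Fin Lst.length =>
      Eig (TT n (p ^ A)) 1 (Lst.get k))
    rw [Fintype.card_fin] at h2
    (clear * - h2; omega)
  omega

end Vale.Agent.P344.Sym
end

section

namespace Vale.Agent.P344.Amp

open Vale.Agent.P344

/-- invariant of the translation of derivations to circuits -/
def Inv (K : ℝ) (n s : ℕ) (B : Set ((Fin n → ℂ) × ℕ)) (P : List Gate) : Prop :=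
  P.length = s ∧ (∀ (a : ℂ) (i : ℕ), Gate.smul a i ∈ P → ‖a‖ ≤ K) ∧
  (∀ p ∈ B, p = (0, 0) ∨ ∃ i < n + s, (grun P (units n)).getD i 0 = p.1 ∧
    (depths P (List.replicate n 0)).getD i 0 = p.2) ∧
  (∀ d ∈ depths P (List.replicate n 0), ∃ p ∈ B, p.2 = d)

lemma units_length (n : ℕ) : (units n).length = n := by simp [units]

lemma Inv.pos {K : ℝ} {n s : ℕ} {B : Set ((Fin n → ℂ) × ℕ)} {P : List Gate}
    (h : Inv K n s B P) {p : (Fin n → ℂ) × ℕ} (hp : p ∈ B) :
    ∃ i, (grun P (units n)).getD i 0 = p.1 ∧ (depths P (List.replicate n 0)).getD i 0 = p.2 := by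
  obtain ⟨h1, h2, h3, h4⟩ := h
  rcases h3 p hp with h5 | ⟨i, hi, h5⟩
  · refine ⟨n + s, ?_, ?_⟩
    · rw [List.getD_eq_default _ _ (by rw [grun_length, units_length, h1]), h5]
    · rw [List.getD_eq_default _ _ (by rw [depths_length, List.length_replicate, h1]), h5]
  · exact ⟨i, h5⟩

lemma Inv.extend {K : ℝ} {n s : ℕ} {B : Set ((Fin n → ℂ) × ℕ)} {P : List Gate}
    (h : Inv K n s B P) (g : Gate) (hg : ∀ (a : ℂ) (i : ℕ), Gate.smul a i = g → ‖a‖ ≤ K)
    (w : Fin n → ℂ) (e : ℕ) (hw : gval g (grun P (units n)) = w)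
    (he : g.depth (depths P (List.replicate n 0)) = e) :
    Inv K n (s + 1) (insert (w, e) B) (P ++ [g]) := by
  obtain ⟨h1, h2, h3, h4⟩ := h
  have h5 : grun (P ++ [g]) (units n) = grun P (units n) ++ [w] := by
    rw [grun_append]; simp only [grun]; rw [hw]
  have h6 : depths (P ++ [g]) (List.replicate n 0) = depths P (List.replicate n 0) ++ [e] := by
    rw [depths_append]; simp only [depths]; rw [he]
  have l5 : (grun P (units n)).length = n + s := by rw [grun_length, units_length, h1]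
  have l6 : (depths P (List.replicate n 0)).length = n + s := by
    rw [depths_length, List.length_replicate, h1]
  refine ⟨by simp [h1], ?_, ?_, ?_⟩
  · intro a i hi
    rcases List.mem_append.mp hi with h7 | h7
    · exact h2 a i h7
    · exact hg a i (by simpa using h7)
  · intro p hp
    rw [h5, h6]
    rcases Set.mem_insert_iff.mp hp with h7 | h7
    · right
      refine ⟨n + s, by omega, ?_, ?_⟩
      · rw [List.getD_append_right _ _ _ _ (by omega), l5, h7]; simp
      · rw [List.getD_append_right _ _ _ _ (by omega), l6, h7]; simp only [tsub_self, List.getD_eq_getElem?_getD, List.length_cons, List.length_nil, zero_add, Order.lt_one_iff, getElem?_pos, List.getElem_cons_zero, Option.getD_some]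
    · rcases h3 p h7 with h8 | ⟨i, hi, h8, h9⟩
      · left; exact h8
      · right
        refine ⟨i, by (clear * - l5 l6 hi; omega), ?_, ?_⟩
        · rw [List.getD_append _ _ _ _ (by omega)]; exact h8
        · rw [List.getD_append _ _ _ _ (by omega)]; exact h9
  · intro d hd
    rw [h6] at hd
    rcases List.mem_append.mp hd with h7 | h7
    · obtain ⟨p, hp, hpd⟩ := h4 d h7
      exact ⟨p, Set.mem_insert_of_mem _ hp, hpd⟩
    · refine ⟨(w, e), Set.mem_insert _ _, ?_⟩
      exact (List.mem_singleton.mp h7).symm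

/-- starting set -/
def start (n : ℕ) : Set ((Fin n → ℂ) × ℕ) :=
  {p | p = (0, 0) ∨ ∃ k : Fin n, p = (Pi.single k 1, 0)}

lemma Der.inv {K : ℝ} {n s : ℕ} {B : Set ((Fin n → ℂ) × ℕ)} (h : Der K (start n) s B) :
    ∃ P, Inv K n s B P := by
  induction h with
  | refl =>
    refine ⟨[], rfl, fun a i h => absurd h (List.not_mem_nil), ?_, ?_⟩
    · intro p hp
      rcases hp with h1 | ⟨k, h1⟩
      · left; exact h1
      · right
        refine ⟨k, by omega, ?_, ?_⟩
        · rw [h1]
          show (units n).getD k 0 = Pi.single k 1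
          unfold units
          rw [List.getD_eq_getElem _ _ (by simp), List.getElem_ofFn]
        · rw [h1]
          show (List.replicate n 0).getD k 0 = 0
          simp
    · intro d hd
      refine ⟨(0, 0), Or.inl rfl, ?_⟩
      have : d ∈ List.replicate n 0 := hd
      rw [List.mem_replicate] at this
      exact this.2.symm
  | @add s B u v _ hu hv ih =>
    obtain ⟨P, hP⟩ := ih
    obtain ⟨i, hi, hi'⟩ := hP.pos hu
    obtain ⟨j, hj, hj'⟩ := hP.pos hv
    refine ⟨_, hP.extend (Gate.add i j) (fun a i h => by cases h) _ _ ?_ ?_⟩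
    · simp only [gval, hi, hj]
    · simp only [Gate.depth, hi', hj']
  | @sub s B u v _ hu hv ih =>
    obtain ⟨P, hP⟩ := ih
    obtain ⟨i, hi, hi'⟩ := hP.pos hu
    obtain ⟨j, hj, hj'⟩ := hP.pos hv
    refine ⟨_, hP.extend (Gate.sub i j) (fun a i h => by cases h) _ _ ?_ ?_⟩
    · simp only [gval, hi, hj]
    · simp only [Gate.depth, hi', hj']
  | @smul s B u c hc _ hu ih =>
    obtain ⟨P, hP⟩ := ih
    obtain ⟨i, hi, hi'⟩ := hP.pos hu
    refine ⟨_, hP.extend (Gate.smul c i) (fun a i h => by cases h; exact hc) _ _ ?_ ?_⟩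
    · simp only [gval, hi]
    · simp only [Gate.depth, hi']

/-- from costs to circuits -/
theorem circuit_of_dcost {K : ℝ} {n D s : ℕ} (h : DCost K n D s) :
    ∃ P : List Gate, P.length ≤ s ∧ ComputesDFT n P ∧
      (∀ (a : ℂ) (i : ℕ), Gate.smul a i ∈ P → ‖a‖ ≤ K) ∧
      ∀ d ∈ depths P (List.replicate n 0), d ≤ D := by
  obtain ⟨B, ⟨s', hs', hB⟩, hout⟩ := h (Fin n → ℂ) (start n) 0
    (fun k => if hk : k < n then (Pi.single (⟨k, hk⟩ : Fin n) 1 : Fin n → ℂ) else 0)
    (Or.inl rfl) (by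
      intro j hj
      refine ⟨0, le_rfl, Or.inr ⟨⟨j, hj⟩, ?_⟩⟩
      simp only [hj, dif_pos])
  obtain ⟨s'', hs'', B', hB', hT, hkeep⟩ := hB.prune D (by
    intro p hp
    rcases hp with h1 | ⟨k, h1⟩
    · rw [h1]; exact Nat.zero_le _
    · rw [h1]; exact Nat.zero_le _)
  obtain ⟨P, hP⟩ := hB'.inv
  refine ⟨P, by rw [hP.1]; omega, ?_, hP.2.1, ?_⟩
  · have h1 : ∀ j : Fin n, ∃ i, (grun P (units n)).getD i 0 =
        dft n (fun k => if hk : k < n then (Pi.single (⟨k, hk⟩ : Fin n) 1 : Fin n → ℂ) else 0)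
          j := by
      intro j
      obtain ⟨d, hd, hm⟩ := hout j j.isLt
      obtain ⟨i, hi, _⟩ := hP.pos (hkeep _ hm (by simpa only [zero_add] using hd))
      exact ⟨i, hi⟩
    choose out hout' using h1
    refine ⟨out, fun x j => ?_⟩
    rw [← grun_eq, grun_ofFn, getD_map_lin, hout']
    unfold dft
    rw [map_sum, Finset.sum_range]
    apply Finset.sum_congr rfl
    intro k _
    rw [map_smul]
    simp only [Fin.is_lt, dif_pos, Fin.eta, comb_single, smul_eq_mul]
  · intro d hd
    obtain ⟨p, hp, hpd⟩ := hP.2.2.2 d hd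
    rw [← hpd]
    exact hT p hp

end Vale.Agent.P344.Amp
end

section

namespace Vale.Agent.P344.Sym

open Vale.Agent.P344 Vale.Agent.P344.Amp

section
variable {V : Type*} [AddCommGroup V] [Module ℂ V] {G : Set V}

end

end Vale.Agent.P344.Sym
end

section

namespace Vale.Agent.P344.Sym

open Vale.Agent.P344 Vale.Agent.P344.Amp

end Vale.Agent.P344.Sym
end
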