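import Vale.Agent.P344.Comb.Defs
import Vale.Agent.P344.Bdl.B2
import Vale.Agent.P344.Bdl.B3
import Vale.Agent.P344.Defs
import Vale.Agent.P344.Amp.CStar
import Vale.Agent.P344.HB.Defs

section

namespace Vale.Agent.P344.Comb

open Vale.Agent.P344 Finset

/-- translation of gates -/
def tr : Gate → Stable.Gate
  | Gate.add i j => Stable.Gate.add i j
  | Gate.sub i j => Stable.Gate.sub i j
  | Gate.smul a i => Stable.Gate.smul a i

/-- translation of circuits -/
def trC (n : ℕ) (P : List Gate) (out : Fin n → ℕ) : Stable.Circuit n where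
  size := P.length
  gate := fun t => tr (P.getD t (Gate.smul 0 0))
  out := out

variable {n : ℕ}

lemma run_append (P Q : List Gate) (v : List ℂ) : run (P ++ Q) v = run Q (run P v) := by
  rw [← Amp.grun_eq, Amp.grun_append, Amp.grun_eq, Amp.grun_eq]

lemma run_length (P : List Gate) (v : List ℂ) : (run P v).length = v.length + P.length := by
  rw [← Amp.grun_eq, Amp.grun_length]

lemma mem_eq (P : List Gate) (out : Fin n → ℕ) (x : Fin n → ℂ) (t : ℕ) (ht : t ≤ P.length)
    (i : ℕ) : (trC n P out).mem x 0 t i = (run (P.take t) (List.ofFn x)).getD i 0 := by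
  induction t generalizing i with
  | zero =>
    rw [Stable.Circuit.mem_zero_apply, List.take_zero]
    show _ = (List.ofFn x).getD i 0
    split_ifs with h
    · rw [List.getD_eq_getElem _ _ (by simpa only [List.length_ofFn] using h)]
      simp
    · rw [List.getD_eq_default _ _ (by simpa only [List.length_ofFn] using not_lt.mp h)]
  | succ t ih =>
    have ht' : t < P.length := ht
    rw [Stable.Circuit.mem_succ]
    have h1 : P.take (t + 1) = P.take t ++ [P.getD t (Gate.smul 0 0)] := by
      rw [List.take_add_one, List.getElem?_eq_getElem ht', List.getD_eq_getElem _ _ ht']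
      rfl
    rw [h1, run_append]
    have h2 : (run (P.take t) (List.ofFn x)).length = n + t := by
      rw [run_length, List.length_ofFn, List.length_take, min_eq_left ht'.le]
    have h3 : (trC n P out).gate t = tr (P.getD t (Gate.smul 0 0)) := rfl
    have ih' : (trC n P out).mem x 0 t = fun i => (run (P.take t) (List.ofFn x)).getD i 0 :=
      funext (fun i => ih ht'.le i)
    rw [h3, ih']
    generalize P.getD t (Gate.smul 0 0) = g
    generalize run (P.take t) (List.ofFn x) = v at h2
    have h4 : run [g] v = v ++ [g.val v] := rfl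
    rw [h4]
    split_ifs with h
    · rw [h, List.getD_append_right _ _ _ _ (by omega), h2]
      have h6 : ([g.val v] : List ℂ).getD (n + t - (n + t)) 0 = g.val v := by
        rw [Nat.sub_self]; rfl
      rw [h6, show ((0 : ℕ → ℂ) t) = 0 from rfl, add_zero]
      cases g <;> rfl
    · show v.getD i 0 = (v ++ [g.val v]).getD i 0
      rcases lt_or_ge i (n + t) with h5 | h5
      · rw [List.getD_append _ _ _ _ (by omega)]
      · have h6 : (v ++ [g.val v]).length ≤ i := by
          rw [List.length_append, List.length_singleton]; omega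
        rw [List.getD_eq_default v _ (by omega), List.getD_eq_default _ _ h6]

lemma coeffs_eq (P : List Gate) (out : Fin n → ℕ) (t : ℕ) (ht : t ≤ P.length) (i : ℕ) :
    Cancel.coeffs (trC n P out) t i = form n (P.take t) i := by
  funext k
  exact mem_eq P out _ t ht i

lemma cancel_eq (P : List Gate) (out : Fin n → ℕ) (t : ℕ) (ht : t < P.length) :
    Cancel.cancel (trC n P out) t = cancellation (n := n) norm P t := by
  have h3 : (trC n P out).gate t = tr P[t] := by
    show tr (P.getD t (Gate.smul 0 0)) = _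
    rw [List.getD_eq_getElem _ _ ht]
  unfold Cancel.cancel cancellation
  rw [h3, List.getElem?_eq_getElem ht]
  cases hg : P[t] with
  | add i j => simp only [tr, coeffs_eq P out t ht.le, coeffs_eq P out (t + 1) ht]
  | sub i j => simp only [tr, coeffs_eq P out t ht.le, coeffs_eq P out (t + 1) ht]
  | smul a i => simp only [tr]

lemma additions_eq (P : List Gate) (out : Fin n → ℕ) :
    Cancel.additions (trC n P out) = additions P := by
  classical
  ext t
  rw [Cancel.mem_additions]
  unfold additions
  rw [mem_filter, mem_range]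
  constructor
  · rintro ⟨h1, h2⟩
    have h1' : t < P.length := h1
    refine ⟨h1, ?_⟩
    have h3 : (trC n P out).gate t = tr P[t] := by
      show tr (P.getD t (Gate.smul 0 0)) = _
      rw [List.getD_eq_getElem _ _ h1']
    rw [List.getElem?_eq_getElem h1']
    cases hg : P[t] with
    | add i j => exact ⟨i, j, Or.inl rfl⟩
    | sub i j => exact ⟨i, j, Or.inr rfl⟩
    | smul a i => exact absurd (by rw [h3, hg]; rfl) (h2 a i)
  · rintro ⟨h1, i, j, h2⟩
    refine ⟨h1, ?_⟩
    have h3 : (trC n P out).gate t = tr P[t] := by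
      show tr (P.getD t (Gate.smul 0 0)) = _
      rw [List.getD_eq_getElem _ _ h1]
    rw [List.getElem?_eq_getElem h1] at h2
    intro a k
    rw [h3]
    rcases h2 with h2 | h2
    · rw [Option.some.inj h2]; simp [tr]
    · rw [Option.some.inj h2]; simp [tr]

lemma computes_eq {P : List Gate} {out : Fin n → ℕ}
    (h : ∀ x : Fin n → ℂ, ∀ j : Fin n, (run P (List.ofFn x)).getD (out j) 0 =
      ∑ k : Fin n, Complex.exp (2 * Real.pi * Complex.I * (j : ℕ) * (k : ℕ) / n) * x k) :
    Cancel.ComputesDFT (trC n P out) 1 := by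
  intro x k
  have h1 : (trC n P out).size = P.length := rfl
  have h2 : (trC n P out).out k = out k := rfl
  rw [h1, h2, mem_eq P out x P.length le_rfl, List.take_length, h x k, one_mul]
  refine Finset.sum_congr rfl (fun j _ => ?_)
  congr 2
  ring

/-- the cancellation bound for lists of gates -/
theorem cancel_bound {n : ℕ} (hn : n ≠ 0) {P : List Gate} (hP : ComputesDFT n P)
    (W : Finset ℕ) (hW : W.card ≤ n) :
    (((n : ℝ) - W.card) * Real.logb 2 n - Real.logb 2 (n.choose W.card)) / 2 ≤
      ∑ t ∈ additions P \ W, Real.logb 2 (cancellation (n := n) norm P t) := by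
  obtain ⟨out, hout⟩ := hP
  have h := Cancel.cancel_logb hn one_ne_zero (computes_eq hout) W hW
  rw [additions_eq] at h
  refine h.trans (le_of_eq (Finset.sum_congr rfl fun t ht => ?_))
  have h1 : t ∈ additions P := (mem_sdiff.mp ht).1
  have h2 : t < P.length := by
    rw [← additions_eq P out] at h1
    exact (Cancel.mem_additions.mp h1).1
  rw [cancel_eq P out t h2]

end Vale.Agent.P344.Comb
end

section

namespace Vale.Agent.P344

open Finset

section generic

variable {V W : Type*} [AddCommGroup V] [Module ℂ V] [AddCommGroup W] [Module ℂ W]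

/-- Value of a gate over an arbitrary complex vector space. -/
def Gate.valV : Gate → List V → V
  | Gate.add i j, v => v.getD i 0 + v.getD j 0
  | Gate.sub i j, v => v.getD i 0 - v.getD j 0
  | Gate.smul c i, v => c • v.getD i 0

/-- Run a list of gates over an arbitrary complex vector space. -/
def runV : List Gate → List V → List V
  | [], v => v
  | g :: P, v => runV P (v ++ [g.valV v])

@[simp] theorem runV_nil (v : List V) : runV [] v = v := rfl

@[simp] theorem runV_cons (g : Gate) (P : List Gate) (v : List V) :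
    runV (g :: P) v = runV P (v ++ [g.valV v]) := rfl

theorem run_eq_runV (P : List Gate) (v : List ℂ) : run P v = runV P v := by
  induction P generalizing v with
  | nil => rfl
  | cons g P ih =>
    have : g.val v = g.valV v := by cases g <;> rfl
    simp only [run, this, ih, runV_cons]

theorem runV_append (P Q : List Gate) (v : List V) : runV (P ++ Q) v = runV Q (runV P v) := by
  induction P generalizing v with
  | nil => rfl
  | cons g P ih => simp [ih]

theorem getD_map_zero (φ : V →ₗ[ℂ] W) (v : List V) (i : ℕ) :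
    (v.map φ).getD i 0 = φ (v.getD i 0) := by
  have := List.getD_map (f := φ) (l := v) (d := 0) (n := i)
  rw [map_zero] at this
  exact this

theorem map_valV (φ : V →ₗ[ℂ] W) (g : Gate) (v : List V) :
    g.valV (v.map φ) = φ (g.valV v) := by
  cases g <;> simp only [Gate.valV, getD_map_zero, map_add, map_sub, map_smul]

theorem map_runV (φ : V →ₗ[ℂ] W) (P : List Gate) (v : List V) :
    (runV P v).map φ = runV P (v.map φ) := by
  induction P generalizing v with
  | nil => rfl
  | cons g P ih =>
    simp only [runV_cons]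
    rw [ih, List.map_append, map_valV]
    rfl

end generic

/-- The list of the coordinate forms. -/
def forms (n : ℕ) : List (Fin n → ℂ) := List.ofFn fun k : Fin n => Pi.single k (1 : ℂ)

/-- The discrete Fourier matrix. -/
noncomputable def dftRow (n : ℕ) (j k : Fin n) : ℂ :=
  Complex.exp (2 * Real.pi * Complex.I * (j : ℕ) * (k : ℕ) / n)

/-- Evaluation of a form at `x`. -/
def evalAt {n : ℕ} (x : Fin n → ℂ) : (Fin n → ℂ) →ₗ[ℂ] ℂ where
  toFun u := ∑ k, u k * x k
  map_add' u v := by simp [add_mul, sum_add_distrib]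
  map_smul' c u := by simp [mul_sum, mul_assoc]

theorem map_forms {n : ℕ} (x : Fin n → ℂ) : (forms n).map (evalAt x) = List.ofFn x := by
  rw [forms, List.map_ofFn]
  congr 1
  funext k
  simp only [evalAt, LinearMap.coe_mk, AddHom.coe_mk, Function.comp_apply, Pi.single_apply, ite_mul, one_mul, zero_mul, sum_ite_eq', mem_univ, ↓reduceIte]

theorem computesDFT_iff {n : ℕ} (P : List Gate) :
    ComputesDFT n P ↔ ∃ out : Fin n → ℕ, ∀ j, (runV P (forms n)).getD (out j) 0 = dftRow n j := by
  constructor
  · rintro ⟨out, h⟩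
    refine ⟨out, fun j => ?_⟩
    funext k
    have h1 := h (Pi.single k 1) j
    rw [run_eq_runV, ← map_forms, ← map_runV, getD_map_zero] at h1
    simp only [evalAt, Pi.single_apply, mul_ite, mul_one, mul_zero, sum_ite_eq', mem_univ, if_true, LinearMap.coe_mk, AddHom.coe_mk] at h1
    exact h1
  · rintro ⟨out, h⟩
    refine ⟨out, fun x j => ?_⟩
    rw [run_eq_runV, ← map_forms, ← map_runV, getD_map_zero, h]
    rfl

end Vale.Agent.P344
end

section

namespace Vale.Agent.P344

/-- Number of additions and subtractions. -/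
def addCount : List Gate → ℕ
  | [] => 0
  | Gate.add _ _ :: P => addCount P + 1
  | Gate.sub _ _ :: P => addCount P + 1
  | Gate.smul _ _ :: P => addCount P

/-- Number of scalar multiplications. -/
def mulCount : List Gate → ℕ
  | [] => 0
  | Gate.add _ _ :: P => mulCount P
  | Gate.sub _ _ :: P => mulCount P
  | Gate.smul _ _ :: P => mulCount P + 1

end Vale.Agent.P344
end

section

namespace Vale.Agent.P344

open Finset Submodule

section lines

variable {n : ℕ}

/-- Restriction of a form to the coordinates in `I`. -/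
def res (I : Finset (Fin n)) : (Fin n → ℂ) →ₗ[ℂ] (Fin n → ℂ) where
  toFun u := fun k => if k ∈ I then u k else 0
  map_add' u v := by funext k; by_cases h : k ∈ I <;> simp [h]
  map_smul' c u := by funext k; by_cases h : k ∈ I <;> simp [h]

theorem res_apply (I : Finset (Fin n)) (u : Fin n → ℂ) (k : Fin n) :
    res I u k = if k ∈ I then u k else 0 := rfl

theorem res_erase_res (I : Finset (Fin n)) (i : Fin n) (u : Fin n → ℂ) :
    res (I.erase i) (res I u) = res (I.erase i) u := by
  funext k
  simp only [res_apply, mem_erase]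
  by_cases h1 : k = i <;> by_cases h2 : k ∈ I <;> simp [h1, h2]

/-- The coordinate form. -/
def ev (k : Fin n) : Fin n → ℂ := Pi.single k 1

theorem res_ev_mem {I : Finset (Fin n)} {k : Fin n} (h : k ∈ I) : res I (ev k) = ev k := by
  funext l
  simp only [res_apply, ev, Pi.single_apply]
  by_cases hl : l = k
  · subst hl; simp [h]
  · simp [hl]

theorem res_ev_notMem {I : Finset (Fin n)} {k : Fin n} (h : k ∉ I) : res I (ev k) = 0 := by
  funext l
  simp only [res_apply, ev, Pi.single_apply, Pi.zero_apply]
  by_cases hl : l = k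
  · subst hl; simp [h]
  · simp [hl]

/-- The line spanned by a restricted form. -/
def ln (I : Finset (Fin n)) (u : Fin n → ℂ) : Submodule ℂ (Fin n → ℂ) := span ℂ {res I u}

/-- The coordinate line. -/
def cl (k : Fin n) : Submodule ℂ (Fin n → ℂ) := span ℂ {ev k}

theorem span_le_span_singleton {V : Type*} [AddCommGroup V] [Module ℂ V] {u v : V}
    (h : span ℂ {u} ≤ span ℂ {v}) : span ℂ {u} = ⊥ ∨ span ℂ {u} = span ℂ {v} := by
  have h1 : u ∈ span ℂ {v} := h (mem_span_singleton_self u)
  obtain ⟨c, hc⟩ := mem_span_singleton.1 h1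
  by_cases hc0 : c = 0
  · left
    rw [span_singleton_eq_bot, ← hc, hc0, zero_smul]
  · right
    rw [← hc]
    exact span_singleton_smul_eq (IsUnit.mk0 c hc0) v

open Classical in
/-- The trivial lines: zero and the coordinate lines in `I`. -/
noncomputable def base (I : Finset (Fin n)) : Finset (Submodule ℂ (Fin n → ℂ)) :=
  insert ⊥ (I.image cl)

open Classical in
/-- The nontrivial lines of a list of forms, restricted to `I`. -/
noncomputable def S (I : Finset (Fin n)) (U : List (Fin n → ℂ)) :
    Finset (Submodule ℂ (Fin n → ℂ)) :=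
  (U.map (ln I)).toFinset \ base I

theorem mem_base {I : Finset (Fin n)} {l : Submodule ℂ (Fin n → ℂ)} :
    l ∈ base I ↔ l = ⊥ ∨ ∃ k ∈ I, cl k = l := by
  simp only [base, mem_insert, mem_image]

theorem mem_S {I : Finset (Fin n)} {U : List (Fin n → ℂ)} {l : Submodule ℂ (Fin n → ℂ)} :
    l ∈ S I U ↔ (∃ u ∈ U, ln I u = l) ∧ l ∉ base I := by
  simp only [S, mem_sdiff, List.mem_toFinset, List.mem_map]

theorem ln_zero (I : Finset (Fin n)) : ln I 0 = ⊥ := by
  rw [ln, map_zero, span_zero_singleton]

theorem ln_mem {I : Finset (Fin n)} {U : List (Fin n → ℂ)} (i : ℕ) :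
    ln I (U.getD i 0) ∈ S I U ∨ ln I (U.getD i 0) ∈ base I := by
  by_cases hb : ln I (U.getD i 0) ∈ base I
  · exact Or.inr hb
  · left
    rw [mem_S]
    refine ⟨?_, hb⟩
    by_cases hi : i < U.length
    · refine ⟨U.getD i 0, ?_, rfl⟩
      rw [List.getD_eq_getElem _ _ hi]
      exact List.getElem_mem hi
    · exfalso
      apply hb
      rw [List.getD_eq_default _ _ (not_lt.1 hi), ln_zero, mem_base]
      exact Or.inl rfl

open Classical in
/-- Chains of lines together with the sets of lines having a given coordinate line as a parent. -/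
inductive Chain (I : Finset (Fin n)) :
    Finset (Submodule ℂ (Fin n → ℂ)) → (Fin n → Finset (Submodule ℂ (Fin n → ℂ))) → Prop
  | nil : Chain I ∅ (fun _ => ∅)
  | cons {T : Finset (Submodule ℂ (Fin n → ℂ))} {K : Fin n → Finset (Submodule ℂ (Fin n → ℂ))}
      (h : Chain I T K) (u v w : Fin n → ℂ) (hu : ln I u ∉ T) (hub : ln I u ∉ base I)
      (hv : ln I v ∈ T ∨ ln I v ∈ base I) (hw : ln I w ∈ T ∨ ln I w ∈ base I)
      (hle : ln I u ≤ ln I v ⊔ ln I w) :
      Chain I (insert (ln I u) T)
        (fun i => if ln I v = cl i ∨ ln I w = cl i then insert (ln I u) (K i) else K i)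

theorem Chain.sub {I : Finset (Fin n)} {T K} (h : Chain I T K) (i : Fin n) : K i ⊆ T := by
  classical
  induction h with
  | nil => simp
  | cons h u v w hu hub hv hw hle ih =>
    beta_reduce
    split_ifs
    · exact insert_subset_insert _ ih
    · exact ih.trans (subset_insert _ _)

theorem ln_smul_le (I : Finset (Fin n)) (c : ℂ) (u : Fin n → ℂ) : ln I (c • u) ≤ ln I u := by
  rw [ln, ln, map_smul, span_singleton_le_iff_mem]
  exact smul_mem _ _ (mem_span_singleton_self _)

theorem ln_add_le (I : Finset (Fin n)) (u v : Fin n → ℂ) : ln I (u + v) ≤ ln I u ⊔ ln I v := by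
  rw [ln, ln, ln, map_add, span_singleton_le_iff_mem]
  exact add_mem_sup (mem_span_singleton_self _) (mem_span_singleton_self _)

theorem ln_sub_le (I : Finset (Fin n)) (u v : Fin n → ℂ) : ln I (u - v) ≤ ln I u ⊔ ln I v := by
  rw [ln, ln, ln, map_sub, span_singleton_le_iff_mem]
  exact sub_mem_sup (mem_span_singleton_self _) (mem_span_singleton_self _)

theorem ln_of_le {I : Finset (Fin n)} {u v : Fin n → ℂ} (h : ln I u ≤ ln I v) :
    ln I u = ⊥ ∨ ln I u = ln I v := span_le_span_singleton h

theorem exists_chain (I : Finset (Fin n)) (P : List Gate) :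
    ∃ K, Chain I (S I (runV P (forms n))) K := by
  classical
  induction P using List.reverseRecOn with
  | nil =>
    refine ⟨fun _ => ∅, ?_⟩
    have : S I (runV [] (forms n)) = ∅ := by
      rw [Finset.eq_empty_iff_forall_notMem]
      intro l hl
      rw [mem_S] at hl
      obtain ⟨⟨u, hu, rfl⟩, hb⟩ := hl
      apply hb
      rw [runV_nil, forms, List.mem_ofFn] at hu
      obtain ⟨k, rfl⟩ := hu
      rw [mem_base]
      by_cases hk : k ∈ I
      · right
        refine ⟨k, hk, ?_⟩
        rw [ln, cl]
        congr 2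
        exact (res_ev_mem hk).symm
      · left
        rw [ln, show res I (Pi.single k (1 : ℂ)) = 0 from res_ev_notMem hk, span_zero_singleton]
    rw [this]
    exact Chain.nil
  | append_singleton P g ih =>
    obtain ⟨K, hK⟩ := ih
    set U := runV P (forms n) with hU
    have hrun : runV (P ++ [g]) (forms n) = U ++ [g.valV U] := by
      rw [runV_append, ← hU]; rfl
    rw [hrun]
    have hS : S I (U ++ [g.valV U]) =
        if ln I (g.valV U) ∈ base I then S I U else insert (ln I (g.valV U)) (S I U) := by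
      ext l
      split_ifs with hb
      · simp only [mem_S, List.mem_append, List.mem_singleton]
        constructor
        · rintro ⟨⟨u, hu | hu, rfl⟩, h2⟩
          · exact ⟨⟨u, hu, rfl⟩, h2⟩
          · subst hu; exact absurd hb h2
        · rintro ⟨⟨u, hu, rfl⟩, h2⟩
          exact ⟨⟨u, Or.inl hu, rfl⟩, h2⟩
      · simp only [mem_insert, mem_S, List.mem_append, List.mem_singleton]
        constructor
        · rintro ⟨⟨u, hu | hu, rfl⟩, h2⟩
          · exact Or.inr ⟨⟨u, hu, rfl⟩, h2⟩
          · subst hu; exact Or.inl rfl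
        · rintro (rfl | ⟨⟨u, hu, rfl⟩, h2⟩)
          · exact ⟨⟨_, Or.inr rfl, rfl⟩, hb⟩
          · exact ⟨⟨u, Or.inl hu, rfl⟩, h2⟩
    rw [hS]
    split_ifs with hb
    · exact ⟨K, hK⟩
    · by_cases hm : ln I (g.valV U) ∈ S I U
      · rw [insert_eq_of_mem hm]; exact ⟨K, hK⟩
      · cases g with
        | add i j => exact ⟨_, hK.cons _ _ _ hm hb (ln_mem i) (ln_mem j) (ln_add_le I _ _)⟩
        | sub i j => exact ⟨_, hK.cons _ _ _ hm hb (ln_mem i) (ln_mem j) (ln_sub_le I _ _)⟩
        | smul c i =>
          exfalso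
          rcases ln_of_le (ln_smul_le I c (U.getD i 0)) with h | h
          · exact hb (mem_base.2 (Or.inl h))
          · rcases ln_mem (I := I) (U := U) i with h1 | h1
            · exact hm (by rw [Gate.valV, h]; exact h1)
            · exact hb (by rw [Gate.valV, h]; exact h1)

theorem addCount_add_mulCount (P : List Gate) : addCount P + mulCount P = P.length := by
  induction P with
  | nil => rfl
  | cons g P ih => cases g <;> simp only [addCount, mulCount, List.length_cons, ← ih] <;> omega

theorem addCount_append (P Q : List Gate) : addCount (P ++ Q) = addCount P + addCount Q := by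
  induction P with
  | nil => simp [addCount]
  | cons g P ih => cases g <;> simp only [List.cons_append, addCount, ih] <;> omega

theorem card_S_le (I : Finset (Fin n)) (P : List Gate) :
    (S I (runV P (forms n))).card ≤ addCount P := by
  classical
  induction P using List.reverseRecOn with
  | nil =>
    have : S I (runV [] (forms n)) = ∅ := by
      rw [Finset.eq_empty_iff_forall_notMem]
      intro l hl
      rw [mem_S] at hl
      obtain ⟨⟨u, hu, rfl⟩, hb⟩ := hl
      apply hb
      rw [runV_nil, forms, List.mem_ofFn] at hu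
      obtain ⟨k, rfl⟩ := hu
      rw [mem_base]
      by_cases hk : k ∈ I
      · right
        refine ⟨k, hk, ?_⟩
        rw [ln, cl]
        congr 2
        exact (res_ev_mem hk).symm
      · left
        rw [ln, show res I (Pi.single k (1 : ℂ)) = 0 from res_ev_notMem hk, span_zero_singleton]
    rw [this]
    simp
  | append_singleton P g ih =>
    set U := runV P (forms n) with hU
    have hrun : runV (P ++ [g]) (forms n) = U ++ [g.valV U] := by
      rw [runV_append, ← hU]; rfl
    rw [hrun, addCount_append]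
    have hsub : S I (U ++ [g.valV U]) ⊆ insert (ln I (g.valV U)) (S I U) := by
      intro l
      simp only [mem_insert, mem_S, List.mem_append, List.mem_singleton]
      rintro ⟨⟨u, hu | hu, rfl⟩, h2⟩
      · exact Or.inr ⟨⟨u, hu, rfl⟩, h2⟩
      · subst hu; exact Or.inl rfl
    cases g with
    | add i j =>
      calc _ ≤ _ := card_le_card hsub
        _ ≤ (S I U).card + 1 := card_insert_le _ _
        _ ≤ _ := by simpa only [addCount, zero_add, add_le_add_iff_right] using ih
    | sub i j =>
      calc _ ≤ _ := card_le_card hsub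
        _ ≤ (S I U).card + 1 := card_insert_le _ _
        _ ≤ _ := by simpa [addCount] using ih
    | smul c i =>
      have hsub2 : S I (U ++ [(Gate.smul c i).valV U]) ⊆ S I U := by
        intro l hl
        have h1 := hsub hl
        rw [mem_insert] at h1
        rcases h1 with h1 | h1
        · rcases ln_of_le (ln_smul_le I c (U.getD i 0)) with h | h
          · exfalso
            rw [mem_S] at hl
            apply hl.2
            rw [h1, mem_base]
            exact Or.inl h
          · rw [mem_S] at hl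
            rcases ln_mem (I := I) (U := U) i with h3 | h3
            · rw [h1, Gate.valV, h]; exact h3
            · exfalso
              apply hl.2
              rw [h1, Gate.valV, h]; exact h3
        · exact h1
      calc _ ≤ _ := card_le_card hsub2
        _ ≤ _ := by simpa only [addCount, add_zero] using ih

/-- Removing a coordinate: the image of every line is the image of a line that does not have this
coordinate as a parent, or trivial. -/
theorem Chain.image_erase {I : Finset (Fin n)} {T K} (h : Chain I T K) (i : Fin n) (u : Fin n → ℂ)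
    (hu : ln I u ∈ T ∨ ln I u ∈ base I) :
    (∃ v : Fin n → ℂ, ln I v ∈ T ∧ ln I v ∉ K i ∧ ln (I.erase i) u = ln (I.erase i) v) ∨
      ln (I.erase i) u ∈ base (I.erase i) := by
  classical
  have key : ∀ u v : Fin n → ℂ, ln I u = ln I v → ln (I.erase i) u = ln (I.erase i) v := by
    intro u v huv
    have := congrArg (Submodule.map (res (I.erase i))) huv
    simpa only [ln, map_span, Set.image_singleton, res_erase_res] using this
  have keyle : ∀ u v w : Fin n → ℂ, ln I u ≤ ln I v ⊔ ln I w →
      ln (I.erase i) u ≤ ln (I.erase i) v ⊔ ln (I.erase i) w := by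
    intro u v w huv
    have := Submodule.map_mono (f := res (I.erase i)) huv
    simpa only [Submodule.map_sup, ln, map_span, Set.image_singleton, res_erase_res] using this
  have keycl : ∀ u : Fin n → ℂ, ln I u = cl i → ln (I.erase i) u = ⊥ := by
    intro u huv
    have := congrArg (Submodule.map (res (I.erase i))) huv
    rw [ln, cl, map_span, map_span, Set.image_singleton, Set.image_singleton, res_erase_res,
      res_ev_notMem (notMem_erase i I), span_zero_singleton] at this
    exact this
  have keybase : ∀ u : Fin n → ℂ, ln I u ∈ base I → ln (I.erase i) u ∈ base (I.erase i) := by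
    intro u hu
    rw [mem_base] at hu
    rcases hu with hu | ⟨k, hk, hku⟩
    · rw [mem_base]
      left
      have := congrArg (Submodule.map (res (I.erase i))) hu
      simpa only [ln, map_span, Set.image_singleton, res_erase_res, Submodule.map_bot] using this
    · by_cases hki : k = i
      · rw [mem_base]; left; subst hki; exact keycl u hku.symm
      · rw [mem_base]; right
        refine ⟨k, mem_erase.2 ⟨hki, hk⟩, ?_⟩
        have := congrArg (Submodule.map (res (I.erase i))) hku
        rw [ln, cl, map_span, map_span, Set.image_singleton, Set.image_singleton, res_erase_res,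
          res_ev_mem (mem_erase.2 ⟨hki, hk⟩)] at this
        exact this
  induction h generalizing u with
  | nil =>
    rcases hu with hu | hu
    · simp at hu
    · exact Or.inr (keybase u hu)
  | @cons T K h u0 v w hu0 hub hv hw hle ih =>
    rcases hu with hu | hu
    swap
    · exact Or.inr (keybase u hu)
    have hsub := h.sub i
    -- lift of the induction hypothesis
    have lift : ∀ x : Fin n → ℂ, (ln I x ∈ T ∨ ln I x ∈ base I) →
        (∃ v' : Fin n → ℂ, ln I v' ∈ insert (ln I u0) T ∧
          ln I v' ∉ (if ln I v = cl i ∨ ln I w = cl i then insert (ln I u0) (K i) else K i) ∧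
          ln (I.erase i) x = ln (I.erase i) v') ∨
        ln (I.erase i) x ∈ base (I.erase i) := by
      intro x hx
      rcases ih x hx with ⟨v', h1, h2, h3⟩ | h1
      · left
        refine ⟨v', mem_insert_of_mem h1, ?_, h3⟩
        split_ifs
        · rw [mem_insert, not_or]
          exact ⟨fun h4 => hu0 (h4 ▸ h1), h2⟩
        · exact h2
      · exact Or.inr h1
    rw [mem_insert] at hu
    rcases hu with hu | hu
    · -- the new line
      by_cases hp : ln I v = cl i ∨ ln I w = cl i
      · have hle2 := keyle u0 v w hle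
        rw [key u u0 hu]
        rcases hp with hp | hp
        · rw [keycl v hp, bot_sup_eq] at hle2
          rcases span_le_span_singleton hle2 with h5 | h5
          · right; rw [mem_base]; left; exact h5
          · change ln (I.erase i) u0 = ln (I.erase i) w at h5
            rw [h5]
            exact lift w hw
        · rw [keycl w hp, sup_bot_eq] at hle2
          rcases span_le_span_singleton hle2 with h5 | h5
          · right; rw [mem_base]; left; exact h5
          · change ln (I.erase i) u0 = ln (I.erase i) v at h5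
            rw [h5]
            exact lift v hv
      · left
        refine ⟨u0, mem_insert_self _ _, ?_, key u u0 hu⟩
        beta_reduce
        rw [if_neg hp]
        exact fun h6 => hu0 (hsub h6)
    · exact lift u (Or.inl hu)

end lines

end Vale.Agent.P344
end

section

namespace Vale.Agent.P344

open Finset Submodule

section lines

variable {n : ℕ}

/-- The functional `β u_i - α u_k`. -/
def fn (i k : Fin n) (α β : ℂ) : (Fin n → ℂ) →ₗ[ℂ] ℂ :=
  β • LinearMap.proj i - α • LinearMap.proj k

theorem fn_apply (i k : Fin n) (α β : ℂ) (u : Fin n → ℂ) :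
    fn i k α β u = β * u i - α * u k := rfl

theorem cl_le_ker {i k l : Fin n} (α β : ℂ) (hi : l ≠ i) (hk : l ≠ k) :
    cl l ≤ LinearMap.ker (fn i k α β) := by
  rw [cl, span_singleton_le_iff_mem, LinearMap.mem_ker, fn_apply]
  simp [ev, hi.symm, hk.symm]

/-- A nonempty chain either has two lines with a common coordinate parent, or all its lines lie in
the kernel of a functional. -/
theorem Chain.two_or_ker {I : Finset (Fin n)} {T K} (h : Chain I T K) (hT : T.Nonempty) :
    (∃ i ∈ I, 2 ≤ (K i).card) ∨
      ∃ i ∈ I, ∃ k ∈ I, i ≠ k ∧ ∃ α β : ℂ, α ≠ 0 ∧ β ≠ 0 ∧ ∀ l ∈ T, l ≤ LinearMap.ker (fn i k α β) := by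
  classical
  -- stronger statement for the induction
  have key : (∃ i ∈ I, 2 ≤ (K i).card) ∨
      ∃ i ∈ I, ∃ k ∈ I, i ≠ k ∧ (∃ l1 ∈ T, l1 ∈ K i ∧ l1 ∈ K k) ∧
        ∃ α β : ℂ, α ≠ 0 ∧ β ≠ 0 ∧ ∀ l ∈ T, l ≤ LinearMap.ker (fn i k α β) := by
    induction h with
    | nil => simp at hT
    | @cons T K h u v w hu hub hv hw hle ih =>
      beta_reduce
      by_cases hTe : T.Nonempty
      · rcases ih hTe with ⟨i, hi, h2⟩ | ⟨i, hi, k, hk, hik, ⟨l1, hl1T, hl1i, hl1k⟩, α, β, hα, hβ, hker⟩
        · left
          refine ⟨i, hi, h2.trans (card_le_card ?_)⟩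
          split_ifs
          · exact subset_insert _ _
          · exact Subset.refl _
        · have two : ∀ m : Fin n, l1 ∈ K m → (ln I v = cl m ∨ ln I w = cl m) →
              2 ≤ (insert (ln I u) (K m)).card := by
            intro m hm _
            have hnot : ln I u ∉ K m := fun h6 => hu (h.sub m h6)
            rw [card_insert_of_notMem hnot]
            have : 0 < (K m).card := card_pos.2 ⟨l1, hm⟩
            omega
          by_cases hpi : ln I v = cl i ∨ ln I w = cl i
          · left
            refine ⟨i, hi, ?_⟩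
            rw [if_pos hpi]
            exact two i hl1i hpi
          by_cases hpk : ln I v = cl k ∨ ln I w = cl k
          · left
            refine ⟨k, hk, ?_⟩
            rw [if_pos hpk]
            exact two k hl1k hpk
          right
          refine ⟨i, hi, k, hk, hik, ⟨l1, mem_insert_of_mem hl1T, ?_, ?_⟩, α, β, hα, hβ, ?_⟩
          · rw [if_neg hpi]; exact hl1i
          · rw [if_neg hpk]; exact hl1k
          · have par : ∀ x : Fin n → ℂ, (ln I x ∈ T ∨ ln I x ∈ base I) → ln I x ≠ cl i →
                ln I x ≠ cl k → ln I x ≤ LinearMap.ker (fn i k α β) := by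
              intro x hx hxi hxk
              rcases hx with hx | hx
              · exact hker _ hx
              · rw [mem_base] at hx
                rcases hx with hx | ⟨l, hl, hx⟩
                · rw [hx]; exact bot_le
                · rw [← hx]
                  apply cl_le_ker
                  · rintro rfl; exact hxi hx.symm
                  · rintro rfl; exact hxk hx.symm
            intro l hl
            rw [mem_insert] at hl
            rcases hl with rfl | hl
            · refine hle.trans (sup_le (par v hv ?_ ?_) (par w hw ?_ ?_))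
              · exact fun h6 => hpi (Or.inl h6)
              · exact fun h6 => hpk (Or.inl h6)
              · exact fun h6 => hpi (Or.inr h6)
              · exact fun h6 => hpk (Or.inr h6)
            · exact hker l hl
      · -- the first line
        rw [Finset.not_nonempty_iff_eq_empty] at hTe
        subst hTe
        have hv' : ln I v ∈ base I := by simpa using hv
        have hw' : ln I w ∈ base I := by simpa using hw
        have nb : ln I u ≠ ⊥ := fun h6 => hub (mem_base.2 (Or.inl h6))
        rw [mem_base] at hv' hw'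
        rcases hv' with hv' | ⟨i, hi, hvi⟩
        · exfalso
          rw [hv', bot_sup_eq] at hle
          rcases ln_of_le hle with h6 | h6
          · exact nb h6
          · exact hub (h6 ▸ mem_base.2 hw')
        rcases hw' with hw' | ⟨k, hk, hwk⟩
        · exfalso
          rw [hw', sup_bot_eq] at hle
          rcases ln_of_le hle with h6 | h6
          · exact nb h6
          · exact hub (h6 ▸ mem_base.2 (Or.inr ⟨i, hi, hvi⟩))
        have hik : i ≠ k := by
          rintro rfl
          rw [← hvi, ← hwk, sup_idem] at hle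
          have h7 : ln I u ≤ ln I v := hvi ▸ hle
          rcases ln_of_le h7 with h6 | h6
          · exact nb h6
          · exact hub (h6 ▸ mem_base.2 (Or.inr ⟨i, hi, hvi⟩))
        right
        -- coefficients
        have hmem : res I u ∈ span ℂ {ev i} ⊔ span ℂ {ev k} := by
          have h8 : res I u ∈ ln I u := mem_span_singleton_self _
          have h9 := hle h8
          rw [← hvi, ← hwk] at h9
          exact h9
        rw [Submodule.mem_sup] at hmem
        obtain ⟨y, hy, z, hz, hyz⟩ := hmem
        obtain ⟨α, rfl⟩ := mem_span_singleton.1 hy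
        obtain ⟨β, rfl⟩ := mem_span_singleton.1 hz
        have hlnu : ln I u = span ℂ {α • ev i + β • ev k} := by rw [ln, hyz]
        have hα : α ≠ 0 := by
          rintro rfl
          rw [zero_smul, zero_add] at hlnu
          by_cases hβ : β = 0
          · rw [hβ, zero_smul, span_zero_singleton] at hlnu
            exact nb hlnu
          · rw [span_singleton_smul_eq (IsUnit.mk0 β hβ)] at hlnu
            exact hub (mem_base.2 (Or.inr ⟨k, hk, hlnu.symm⟩))
        have hβ : β ≠ 0 := by
          rintro rfl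
          rw [zero_smul, add_zero, span_singleton_smul_eq (IsUnit.mk0 α hα)] at hlnu
          exact hub (mem_base.2 (Or.inr ⟨i, hi, hlnu.symm⟩))
        refine ⟨i, hi, k, hk, hik, ⟨ln I u, mem_insert_self _ _, ?_, ?_⟩, α, β, hα, hβ, ?_⟩
        · rw [if_pos (Or.inl hvi.symm)]; exact mem_insert_self _ _
        · rw [if_pos (Or.inr hwk.symm)]; exact mem_insert_self _ _
        · intro l hl
          rw [mem_insert] at hl
          rcases hl with rfl | hl
          · rw [hlnu, span_singleton_le_iff_mem, LinearMap.mem_ker, fn_apply]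
            simp [ev, hik, hik.symm]
            ring
          · simp at hl
  rcases key with h | ⟨i, hi, k, hk, hik, _, α, β, hα, hβ, hker⟩
  · exact Or.inl h
  · exact Or.inr ⟨i, hi, k, hk, hik, α, β, hα, hβ, hker⟩

end lines

section outputs

variable {n : ℕ}

open Classical in
/-- The lines of the rows of the discrete Fourier matrix, restricted to `I`. -/
noncomputable def O (I : Finset (Fin n)) : Finset (Submodule ℂ (Fin n → ℂ)) :=
  univ.image fun j : Fin n => ln I (dftRow n j)

theorem dftRow_ne_zero (j k : Fin n) : dftRow n j k ≠ 0 := Complex.exp_ne_zero _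

theorem row_mem {P : List Gate} (hP : ComputesDFT n P) (j : Fin n) :
    dftRow n j ∈ runV P (forms n) := by
  obtain ⟨out, h⟩ := (computesDFT_iff P).1 hP
  have hj := h j
  by_cases hlt : out j < (runV P (forms n)).length
  · rw [List.getD_eq_getElem _ _ hlt] at hj
    rw [← hj]
    exact List.getElem_mem hlt
  · exfalso
    rw [List.getD_eq_default _ _ (not_lt.1 hlt)] at hj
    exact dftRow_ne_zero j j (congrFun hj j).symm

theorem ln_row_notMem_base {I : Finset (Fin n)} (hI : 2 ≤ I.card) (j : Fin n) :
    ln I (dftRow n j) ∉ base I := by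
  rw [mem_base, not_or]
  constructor
  · intro h
    rw [ln, span_singleton_eq_bot] at h
    obtain ⟨k, hk⟩ := card_pos.1 (show 0 < I.card by omega)
    have := congrFun h k
    rw [res_apply, if_pos hk] at this
    exact dftRow_ne_zero j k this
  · rintro ⟨k, hk, h⟩
    obtain ⟨l, hl, hlk⟩ := exists_mem_ne (show 1 < I.card by omega) k
    have h1 : res I (dftRow n j) ∈ cl k := by
      rw [h]; exact mem_span_singleton_self _
    obtain ⟨c, hc⟩ := mem_span_singleton.1 h1
    have := congrFun hc l
    rw [res_apply, if_pos hl] at this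
    simp only [ev, Pi.smul_apply, Pi.single_apply, if_neg hlk, smul_zero] at this
    exact dftRow_ne_zero j l this.symm

theorem O_subset_S {P : List Gate} (hP : ComputesDFT n P) {I : Finset (Fin n)}
    (hI : 2 ≤ I.card) : O I ⊆ S I (runV P (forms n)) := by
  intro l hl
  rw [O, mem_image] at hl
  obtain ⟨j, -, rfl⟩ := hl
  rw [mem_S]
  exact ⟨⟨_, row_mem hP j, rfl⟩, ln_row_notMem_base hI j⟩

/-- The removal step: a coordinate of `I` whose removal loses two lines. -/
theorem exists_erase {P : List Gate} (hP : ComputesDFT n P) {I : Finset (Fin n)}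
    (hI : 2 ≤ I.card) :
    ∃ i ∈ I, (S (I.erase i) (runV P (forms n))).card + 2 ≤ (S I (runV P (forms n))).card := by
  classical
  set U := runV P (forms n) with hU
  obtain ⟨K, hK⟩ := exists_chain I P
  rw [← hU] at hK
  obtain ⟨k0, hk0⟩ := card_pos.1 (show 0 < I.card by omega)
  have hne : (S I U).Nonempty := ⟨_, O_subset_S hP hI (mem_image_of_mem _ (mem_univ k0))⟩
  have main : ∃ i ∈ I, 2 ≤ (K i).card := by
    rcases hK.two_or_ker hne with h | ⟨i, hi, k, hk, hik, α, β, hα, hβ, hker⟩
    · exact h
    · exfalso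
      have hn : 2 ≤ n := by
        have := card_le_univ I
        rw [Fintype.card_fin] at this
        omega
      have h0 : ∀ j : Fin n, β * dftRow n j i - α * dftRow n j k = 0 := by
        intro j
        have h1 := hker _ (O_subset_S hP hI (mem_image_of_mem _ (mem_univ j)))
        rw [ln, span_singleton_le_iff_mem, LinearMap.mem_ker, fn_apply, res_apply, res_apply,
          if_pos hi, if_pos hk] at h1
        exact h1
      have e0 := h0 ⟨0, by omega⟩
      have e1 := h0 ⟨1, by omega⟩
      simp only [dftRow, Nat.cast_zero, mul_zero, zero_mul, zero_div, Complex.exp_zero,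
        Nat.cast_one, mul_one] at e0 e1
      have hαβ : β = α := by linear_combination e0
      rw [hαβ, ← mul_sub, mul_eq_zero, or_iff_right hα, sub_eq_zero] at e1
      rw [Complex.exp_eq_exp_iff_exists_int] at e1
      obtain ⟨m, hm⟩ := e1
      have hn0 : (n : ℂ) ≠ 0 := by exact_mod_cast (show n ≠ 0 by omega)
      have hpi : (2 * Real.pi * Complex.I : ℂ) ≠ 0 := Complex.two_pi_I_ne_zero
      have h2 : ((i : ℕ) : ℂ) = (k : ℕ) + m * n := by
        field_simp at hm
        have h3 : (2 * Real.pi * Complex.I : ℂ) * ((i : ℕ) - ((k : ℕ) + m * n)) = 0 := by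
          linear_combination (2 * Real.pi * Complex.I : ℂ) * hm
        rcases mul_eq_zero.1 h3 with h4 | h4
        · exact absurd h4 hpi
        · linear_combination h4
      have h5 : ((i : ℕ) : ℤ) = (k : ℕ) + m * n := by exact_mod_cast h2
      have hi1 := i.2
      have hk1 := k.2
      have hm0 : m = 0 := by
        by_contra hne0
        rcases lt_or_gt_of_ne hne0 with h6 | h6
        · have : m * (n : ℤ) ≤ -n := by nlinarith only [h6]
          omega
        · have : (n : ℤ) ≤ m * n := by nlinarith only [h6]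
          omega
      rw [hm0, zero_mul, add_zero] at h5
      exact hik (Fin.ext (by exact_mod_cast h5))
  obtain ⟨i, hi, h2⟩ := main
  refine ⟨i, hi, ?_⟩
  -- the lines in `S (I.erase i)` are images of lines in `S I \ K i`
  have himg : S (I.erase i) U ⊆ (S I U \ K i).image (Submodule.map (res (I.erase i))) := by
    intro l hl
    rw [mem_S] at hl
    obtain ⟨⟨u, hu, rfl⟩, hb⟩ := hl
    have hor : ln I u ∈ S I U ∨ ln I u ∈ base I := by
      by_cases hbI : ln I u ∈ base I
      · exact Or.inr hbI
      · exact Or.inl (mem_S.2 ⟨⟨u, hu, rfl⟩, hbI⟩)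
    rcases hK.image_erase i u hor with ⟨v, hv1, hv2, hv3⟩ | h6
    · rw [mem_image]
      refine ⟨ln I v, mem_sdiff.2 ⟨hv1, hv2⟩, ?_⟩
      rw [hv3]
      simp only [ln, map_span, Set.image_singleton, res_erase_res]
    · exact absurd h6 hb
  have hc1 := card_le_card himg
  have hc2 : ((S I U \ K i).image (Submodule.map (res (I.erase i)))).card ≤ (S I U \ K i).card :=
    card_image_le
  have hc3 : (S I U \ K i).card = (S I U).card - (K i).card := card_sdiff_of_subset (hK.sub i)
  have hc4 := card_le_card (hK.sub i)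
  (clear * - h2 hc1 hc2 hc3 hc4; omega)

theorem map_O (I : Finset (Fin n)) (i : Fin n) :
    O (I.erase i) = (O I).image (Submodule.map (res (I.erase i))) := by
  classical
  rw [O, O, image_image]
  apply image_congr
  intro j _
  simp only [Function.comp, ln, map_span, Set.image_singleton, res_erase_res]

/-- The number of non-output lines does not increase. -/
theorem card_sdiff_le {P : List Gate} {I : Finset (Fin n)} (i : Fin n) :
    (S (I.erase i) (runV P (forms n)) \ O (I.erase i)).card ≤
      (S I (runV P (forms n)) \ O I).card := by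
  classical
  set U := runV P (forms n) with hU
  have himg : S (I.erase i) U \ O (I.erase i) ⊆
      (S I U \ O I).image (Submodule.map (res (I.erase i))) := by
    intro l hl
    rw [mem_sdiff, mem_S] at hl
    obtain ⟨⟨⟨u, hu, rfl⟩, hb⟩, hO⟩ := hl
    have heq : Submodule.map (res (I.erase i)) (ln I u) = ln (I.erase i) u := by
      simp only [ln, map_span, Set.image_singleton, res_erase_res]
    rw [mem_image]
    refine ⟨ln I u, ?_, heq⟩
    rw [mem_sdiff, mem_S]
    refine ⟨⟨⟨u, hu, rfl⟩, ?_⟩, ?_⟩
    · intro hb2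
      apply hb
      rw [mem_base] at hb2 ⊢
      rcases hb2 with hb2 | ⟨k, hk, hb2⟩
      · left; rw [← heq, hb2, Submodule.map_bot]
      · by_cases hki : k = i
        · left
          rw [← heq, ← hb2, cl, map_span, Set.image_singleton, hki,
            res_ev_notMem (notMem_erase i I), span_zero_singleton]
        · right
          refine ⟨k, mem_erase.2 ⟨hki, hk⟩, ?_⟩
          rw [← heq, ← hb2, cl, map_span, Set.image_singleton,
            res_ev_mem (mem_erase.2 ⟨hki, hk⟩)]
    · intro hO2
      apply hO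
      rw [map_O, ← heq]
      exact mem_image_of_mem _ hO2
  exact (card_le_card himg).trans card_image_le

end outputs

end Vale.Agent.P344
end

section

namespace Vale.Agent.P344

open Finset Submodule

section index

variable {n : ℕ}

/-- Rows indexed by integers. -/
noncomputable def zrow (n : ℕ) (j : ℤ) (k : Fin n) : ℂ :=
  Complex.exp (2 * Real.pi * Complex.I * j * (k : ℕ) / n)

theorem zrow_coe (j : Fin n) : zrow n ((j : ℕ) : ℤ) = dftRow n j := by
  funext k
  simp only [zrow, Int.cast_natCast, dftRow]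

theorem zrow_sub (j j' : ℤ) (k : Fin n) :
    zrow n j k = Complex.exp (2 * Real.pi * Complex.I * (j - j' : ℤ) * (k : ℕ) / n) * zrow n j' k := by
  rw [zrow, zrow, ← Complex.exp_add]
  congr 1
  push_cast
  ring

/-- Differences of row indices whose restricted rows are proportional. -/
def H (I : Finset (Fin n)) : AddSubgroup ℤ where
  carrier := {d | ∀ a ∈ I, ∀ b ∈ I, (n : ℤ) ∣ d * (((a : ℕ) : ℤ) - ((b : ℕ) : ℤ))}
  add_mem' := by
    intro x y hx hy a ha b hb
    rw [add_mul]
    exact dvd_add (hx a ha b hb) (hy a ha b hb)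
  zero_mem' := by intro a _ b _; simp
  neg_mem' := by
    intro x hx a ha b hb
    rw [neg_mul]
    exact (hx a ha b hb).neg_right

theorem exp_eq_iff_dvd (hn : n ≠ 0) (d : ℤ) (a b : ℕ) :
    Complex.exp (2 * Real.pi * Complex.I * d * a / n) =
      Complex.exp (2 * Real.pi * Complex.I * d * b / n) ↔ (n : ℤ) ∣ d * ((a : ℤ) - (b : ℤ)) := by
  have hn0 : (n : ℂ) ≠ 0 := by exact_mod_cast hn
  have hpi : (2 * Real.pi * Complex.I : ℂ) ≠ 0 := Complex.two_pi_I_ne_zero
  rw [Complex.exp_eq_exp_iff_exists_int]
  constructor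
  · rintro ⟨m, hm⟩
    refine ⟨m, ?_⟩
    have h1 : (2 * Real.pi * Complex.I : ℂ) * ((d : ℂ) * (a - b) - n * m) = 0 := by
      have : (2 * Real.pi * Complex.I : ℂ) * d * a = 2 * Real.pi * Complex.I * d * b +
          m * (2 * Real.pi * Complex.I) * n := by
        field_simp at hm
        linear_combination (2 * Real.pi * Complex.I : ℂ) * hm
      linear_combination this
    rcases mul_eq_zero.1 h1 with h2 | h2
    · exact absurd h2 hpi
    · have h3 : (d : ℂ) * (a - b) = n * m := by linear_combination h2
      exact_mod_cast h3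
  · rintro ⟨m, hm⟩
    refine ⟨m, ?_⟩
    have h3 : (d : ℂ) * (a - b) = n * m := by exact_mod_cast hm
    field_simp
    linear_combination h3

theorem ln_zrow_eq_iff (hn : n ≠ 0) {I : Finset (Fin n)} (hI : I.Nonempty) (j j' : ℤ) :
    ln I (zrow n j) = ln I (zrow n j') ↔ j - j' ∈ H I := by
  constructor
  · intro h a ha b hb
    have h1 : res I (zrow n j) ∈ span ℂ {res I (zrow n j')} := by
      rw [ln, ln] at h
      rw [← h]; exact mem_span_singleton_self _
    obtain ⟨c, hc⟩ := mem_span_singleton.1 h1
    have ca : ∀ a ∈ I, c = Complex.exp (2 * Real.pi * Complex.I * (j - j' : ℤ) * (a : ℕ) / n) := by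
      intro a ha
      have h2 := congrFun hc a
      rw [Pi.smul_apply, res_apply, res_apply, if_pos ha, if_pos ha, smul_eq_mul,
        zrow_sub j j' a] at h2
      exact mul_right_cancel₀ (Complex.exp_ne_zero _) h2
    rw [← exp_eq_iff_dvd hn, ← ca a ha, ← ca b hb]
  · intro h
    obtain ⟨a0, ha0⟩ := hI
    have h1 : res I (zrow n j) =
        Complex.exp (2 * Real.pi * Complex.I * (j - j' : ℤ) * (a0 : ℕ) / n) • res I (zrow n j') := by
      funext k
      rw [Pi.smul_apply, res_apply, res_apply]
      by_cases hk : k ∈ I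
      · rw [if_pos hk, if_pos hk, smul_eq_mul, zrow_sub j j' k,
          (exp_eq_iff_dvd hn _ _ _).2 (h a0 ha0 k hk)]
      · rw [if_neg hk, if_neg hk, smul_zero]
    rw [ln, ln, h1]
    exact span_singleton_smul_eq (IsUnit.mk0 _ (Complex.exp_ne_zero _)) _

theorem mem_O_iff (hn : n ≠ 0) {I : Finset (Fin n)} (hI : I.Nonempty)
    {l : Submodule ℂ (Fin n → ℂ)} : l ∈ O I ↔ ∃ j : ℤ, ln I (zrow n j) = l := by
  classical
  rw [O, mem_image]
  constructor
  · rintro ⟨j, -, rfl⟩
    exact ⟨((j : ℕ) : ℤ), by rw [zrow_coe]⟩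
  · rintro ⟨j, rfl⟩
    have hn' : (n : ℤ) ≠ 0 := by exact_mod_cast hn
    have h1 := Int.emod_nonneg j hn'
    have h2 := Int.emod_lt_of_pos j (show (0 : ℤ) < n by omega)
    refine ⟨⟨(j % n).toNat, by omega⟩, mem_univ _, ?_⟩
    rw [← zrow_coe]
    have h3 : (((j % n).toNat : ℕ) : ℤ) = j % n := Int.toNat_of_nonneg h1
    change ln I (zrow n (((j % n).toNat : ℕ) : ℤ)) = _
    rw [h3, ln_zrow_eq_iff hn hI]
    intro a _ b _
    refine Dvd.dvd.mul_right ?_ _
    rw [Int.emod_def]
    exact ⟨-(j / n), by ring⟩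

theorem card_O (hn : n ≠ 0) {I : Finset (Fin n)} (hI : I.Nonempty) :
    (O I).card = (H I).index := by
  classical
  let f : ℤ → {l // l ∈ O I} := fun j => ⟨ln I (zrow n j), (mem_O_iff hn hI).2 ⟨j, rfl⟩⟩
  have hf : Function.Surjective f := by
    rintro ⟨l, hl⟩
    obtain ⟨j, hj⟩ := (mem_O_iff hn hI).1 hl
    exact ⟨j, Subtype.ext hj⟩
  have hker : Setoid.ker f = QuotientAddGroup.leftRel (H I) := by
    ext a b
    rw [Setoid.ker_def, QuotientAddGroup.leftRel_apply]

    rw [Subtype.ext_iff]
    change ln I (zrow n a) = ln I (zrow n b) ↔ _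
    rw [eq_comm, ln_zrow_eq_iff hn hI, show -a + b = b - a by ring]
  have e := Setoid.quotientKerEquivOfSurjective f hf
  rw [hker] at e
  have h1 := Nat.card_congr e
  rw [AddSubgroup.index]
  change _ = Nat.card (Quotient (QuotientAddGroup.leftRel (H I)))
  rw [h1, Nat.card_eq_fintype_card, Fintype.card_coe]

theorem card_O_erase (hn : n ≠ 0) {I : Finset (Fin n)} (i : Fin n) (hI : (I.erase i).Nonempty) :
    (O (I.erase i)).card = (O I).card ∨ 2 * (O (I.erase i)).card ≤ (O I).card := by
  have hI' : I.Nonempty := hI.mono (erase_subset _ _)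
  rw [card_O hn hI, card_O hn hI']
  have hle : H I ≤ H (I.erase i) := by
    intro d hd a ha b hb
    exact hd a (mem_of_mem_erase ha) b (mem_of_mem_erase hb)
  have h1 := AddSubgroup.relIndex_mul_index hle
  have h2 : (H I).index ≠ 0 := by
    rw [← card_O hn hI']
    obtain ⟨k, hk⟩ := hI'
    exact (card_pos.2 ⟨_, mem_image_of_mem _ (mem_univ k)⟩).ne'
  rcases Nat.lt_or_ge ((H I).relIndex (H (I.erase i))) 2 with h3 | h3
  · left
    have h4 : (H I).relIndex (H (I.erase i)) ≠ 0 := by
      intro h5; rw [h5, zero_mul] at h1; exact h2 h1.symm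
    have h5 : (H I).relIndex (H (I.erase i)) = 1 := by omega
    rw [h5, one_mul] at h1
    exact h1
  · right
    rw [← h1]
    exact Nat.mul_le_mul_right _ h3

theorem card_O_univ (hn : 2 ≤ n) : (O (univ : Finset (Fin n))).card = n := by
  classical
  rw [O, card_image_of_injective _ ?_, card_univ, Fintype.card_fin]
  intro j j' h
  have hn0 : n ≠ 0 := by omega
  simp only [← zrow_coe] at h
  rw [ln_zrow_eq_iff hn0 ⟨⟨0, by omega⟩, mem_univ _⟩] at h
  have h1 := h ⟨1, by omega⟩ (mem_univ _) ⟨0, by omega⟩ (mem_univ _)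
  simp only [Nat.cast_one, Nat.cast_zero, sub_zero, mul_one] at h1
  have hj := j.2
  have hj' := j'.2
  obtain ⟨m, hm⟩ := h1
  have hm0 : m = 0 := by
    by_contra hne0
    rcases lt_or_gt_of_ne hne0 with h6 | h6
    · have : (n : ℤ) * m ≤ -n := by nlinarith only [h6]
      omega
    · have : (n : ℤ) ≤ n * m := by nlinarith only [h6]
      omega
  rw [hm0, mul_zero] at hm
  exact Fin.ext (by omega)

/-- The elimination argument. -/
theorem elimination {P : List Gate} (hP : ComputesDFT n P) (m : ℕ) :
    ∀ I : Finset (Fin n), I.card = m + 2 →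
      2 * m ≤ (S I (runV P (forms n)) \ O I).card + 2 * Nat.log 2 (O I).card := by
  induction m with
  | zero => intro I _; omega
  | succ m ih =>
    intro I hI
    have hn : n ≠ 0 := by
      have := card_le_univ I
      rw [Fintype.card_fin] at this
      omega
    obtain ⟨i, hi, hdrop⟩ := exists_erase hP (show 2 ≤ I.card by omega)
    have hcard : (I.erase i).card = m + 2 := by rw [card_erase_of_mem hi]; omega
    have ih1 := ih (I.erase i) hcard
    have hne : (I.erase i).Nonempty := card_pos.1 (by omega)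
    have hmono := card_sdiff_le (P := P) (I := I) i
    have s1 : (S I (runV P (forms n)) \ O I).card = (S I (runV P (forms n))).card - (O I).card :=
      card_sdiff_of_subset (O_subset_S hP (by omega))
    have s2 : (S (I.erase i) (runV P (forms n)) \ O (I.erase i)).card =
        (S (I.erase i) (runV P (forms n))).card - (O (I.erase i)).card :=
      card_sdiff_of_subset (O_subset_S hP (by omega))
    have s3 := card_le_card (O_subset_S hP (I := I) (by omega))
    have s4 := card_le_card (O_subset_S hP (I := I.erase i) (by omega))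
    rcases card_O_erase hn i hne with h1 | h1
    · rw [h1] at ih1 s2 s4
      omega
    · have hpos : 0 < (O (I.erase i)).card := by
        obtain ⟨k, hk⟩ := hne
        exact card_pos.2 ⟨_, mem_image_of_mem _ (mem_univ k)⟩
      have hlog : Nat.log 2 (O (I.erase i)).card + 1 ≤ Nat.log 2 (O I).card := by
        rw [← Nat.log_mul_base (by norm_num) hpos.ne']
        exact Nat.log_mono_right (by (clear * - h1; omega))
      omega

/-- At least `3n - 4 - 2 log n` additions and subtractions. -/
theorem addCount_ge {P : List Gate} (hn : 2 ≤ n) (hP : ComputesDFT n P) :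
    3 * n ≤ addCount P + 2 * Nat.log 2 n + 4 := by
  obtain ⟨m, hm⟩ : ∃ m, n = m + 2 := ⟨n - 2, by omega⟩
  have h1 := elimination hP m univ (by rw [card_univ, Fintype.card_fin, hm])
  have h2 := card_S_le (univ : Finset (Fin n)) P
  have s1 : (S univ (runV P (forms n)) \ O univ).card =
      (S univ (runV P (forms n))).card - (O (univ : Finset (Fin n))).card :=
    card_sdiff_of_subset (O_subset_S hP (by rw [card_univ, Fintype.card_fin]; exact hn))
  have s3 := card_le_card (O_subset_S hP (I := univ) (by rw [card_univ, Fintype.card_fin]; exact hn))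
  rw [card_O_univ hn] at h1 s1 s3
  omega

end index

end Vale.Agent.P344
end

section

namespace Vale.Agent.P344

open Finset Submodule

section scalars

variable {n : ℕ}

/-- The form `u` as a rational linear map on rational inputs. -/
def evQ (u : Fin n → ℂ) : (Fin n → ℚ) →ₗ[ℚ] ℂ where
  toFun x := ∑ k, u k * (x k : ℂ)
  map_add' x y := by simp [mul_add, sum_add_distrib]
  map_smul' c x := by
    simp only [Pi.smul_apply, smul_eq_mul, Rat.cast_mul, RingHom.id_apply]
    rw [Algebra.smul_def, mul_sum]
    refine sum_congr rfl fun k _ => ?_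
    simp only [eq_ratCast]
    ring

theorem evQ_apply (u : Fin n → ℂ) (x : Fin n → ℚ) : evQ u x = ∑ k, u k * (x k : ℂ) := rfl

theorem evQ_add (u v : Fin n → ℂ) (x : Fin n → ℚ) : evQ (u + v) x = evQ u x + evQ v x := by
  simp only [evQ_apply, Pi.add_apply, add_mul, sum_add_distrib]

theorem evQ_sub (u v : Fin n → ℂ) (x : Fin n → ℚ) : evQ (u - v) x = evQ u x - evQ v x := by
  simp only [evQ_apply, Pi.sub_apply, sub_mul, sum_sub_distrib]

theorem evQ_smul (c : ℂ) (u : Fin n → ℂ) (x : Fin n → ℚ) : evQ (c • u) x = c * evQ u x := by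
  simp only [evQ_apply, Pi.smul_apply, smul_eq_mul, mul_assoc, mul_sum]

/-- A rational-linear map with rational values comes from a rational functional. -/
theorem exists_rat_functional {E : Type*} [AddCommGroup E] [Module ℚ E] (φ : E →ₗ[ℚ] ℂ)
    (h : ∀ x, ∃ q : ℚ, φ x = q) : ∃ ψ : E →ₗ[ℚ] ℚ, ∀ x, φ x = ψ x := by
  choose q hq using h
  refine ⟨{ toFun := q, map_add' := ?_, map_smul' := ?_ }, hq⟩
  · intro x y
    have := hq (x + y)
    rw [map_add, hq x, hq y] at this
    exact_mod_cast this.symm
  · intro c x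
    have := hq (c • x)
    rw [map_smul, hq x, Algebra.smul_def, eq_ratCast] at this
    simp only [smul_eq_mul, RingHom.id_apply]
    exact_mod_cast this.symm

/-- Rational inputs on which all computed values are rational. -/
theorem exists_rational_subspace (P : List Gate) :
    ∃ E : Submodule ℚ (Fin n → ℚ), n ≤ Module.finrank ℚ E + mulCount P ∧
      ∀ x ∈ E, ∀ u ∈ runV P (forms n), ∃ q : ℚ, evQ u x = q := by
  induction P using List.reverseRecOn with
  | nil =>
    refine ⟨⊤, ?_, ?_⟩
    · rw [finrank_top]; simp only [Module.finrank_fintype_fun_eq_card, Fintype.card_fin, mulCount, add_zero, Std.le_refl]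
    · intro x _ u hu
      rw [runV_nil, forms, List.mem_ofFn] at hu
      obtain ⟨k, rfl⟩ := hu
      exact ⟨x k, by simp only [evQ_apply, Pi.single_apply, ite_mul, one_mul, zero_mul, sum_ite_eq', mem_univ, ↓reduceIte]⟩
  | append_singleton P g ih =>
    obtain ⟨E, hE, hrat⟩ := ih
    set U := runV P (forms n) with hU
    have hrun : runV (P ++ [g]) (forms n) = U ++ [g.valV U] := by
      rw [runV_append, ← hU]; rfl
    rw [hrun]
    have hget : ∀ x ∈ E, ∀ i, ∃ q : ℚ, evQ (U.getD i 0) x = q := by
      intro x hx i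
      by_cases hi : i < U.length
      · rw [List.getD_eq_getElem _ _ hi]
        exact hrat x hx _ (List.getElem_mem hi)
      · rw [List.getD_eq_default _ _ (not_lt.1 hi)]
        exact ⟨0, by simp only [evQ_apply, Pi.zero_apply, zero_mul, sum_const_zero, Rat.cast_zero]⟩
    have hmul : ∀ (P Q : List Gate), mulCount (P ++ Q) = mulCount P + mulCount Q := by
      intro P Q
      induction P with
      | nil => simp [mulCount]
      | cons g P ih =>
        cases g
        · simp [mulCount, ih]
        · simp [mulCount, ih]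
        · simp only [List.cons_append, mulCount, ih]; omega
    cases g with
    | add i j =>
      refine ⟨E, ?_, ?_⟩
      · rw [hmul]; simpa only [mulCount, add_zero] using hE
      · intro x hx u hu
        rw [List.mem_append, List.mem_singleton] at hu
        rcases hu with hu | rfl
        · exact hrat x hx u hu
        · obtain ⟨p, hp⟩ := hget x hx i
          obtain ⟨q, hq⟩ := hget x hx j
          exact ⟨p + q, by rw [Gate.valV, evQ_add, hp, hq]; push_cast; rfl⟩
    | sub i j =>
      refine ⟨E, ?_, ?_⟩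
      · rw [hmul]; simpa only [mulCount, add_zero] using hE
      · intro x hx u hu
        rw [List.mem_append, List.mem_singleton] at hu
        rcases hu with hu | rfl
        · exact hrat x hx u hu
        · obtain ⟨p, hp⟩ := hget x hx i
          obtain ⟨q, hq⟩ := hget x hx j
          exact ⟨p - q, by rw [Gate.valV, evQ_sub, hp, hq]; push_cast; rfl⟩
    | smul c i =>
      obtain ⟨ψ, hψ⟩ := exists_rat_functional ((evQ (U.getD i 0)).comp E.subtype)
        (fun x => hget x x.2 i)
      refine ⟨(LinearMap.ker ψ).map E.subtype, ?_, ?_⟩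
      · rw [hmul]
        have h1 : Module.finrank ℚ ((LinearMap.ker ψ).map E.subtype) =
            Module.finrank ℚ (LinearMap.ker ψ) :=
          Submodule.finrank_map_subtype_eq E (LinearMap.ker ψ)
        have h2 := LinearMap.finrank_range_add_finrank_ker ψ
        have h3 : Module.finrank ℚ (LinearMap.range ψ) ≤ 1 := by
          calc _ ≤ Module.finrank ℚ ℚ := Submodule.finrank_le _
            _ = 1 := Module.finrank_self ℚ
        rw [h1]
        simp only [mulCount]
        omega
      · intro x hx u hu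
        rw [Submodule.mem_map] at hx
        obtain ⟨y, hy, rfl⟩ := hx
        rw [LinearMap.mem_ker] at hy
        rw [List.mem_append, List.mem_singleton] at hu
        rcases hu with hu | rfl
        · exact hrat _ y.2 u hu
        · refine ⟨0, ?_⟩
          rw [Gate.valV, evQ_smul]
          have := hψ y
          rw [hy, LinearMap.comp_apply] at this
          rw [this]
          simp

theorem dftRow_eq_pow (j k : Fin n) :
    dftRow n j k = Complex.exp (2 * Real.pi * Complex.I / n) ^ ((j : ℕ) * (k : ℕ)) := by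
  rw [dftRow, ← Complex.exp_nat_mul]
  congr 1
  push_cast
  ring

open Polynomial in
/-- A rational polynomial vanishing at one root of unity of each order dividing `n` vanishes at all
`n`-th roots of unity. -/
theorem aeval_eq_zero_of_divisors (hn : n ≠ 0) (f : ℚ[X]) {ζ : ℂ} (hζ : IsPrimitiveRoot ζ n)
    (h : ∀ d ∈ n.divisors, aeval (ζ ^ d) f = 0) (j : ℕ) : aeval (ζ ^ j) f = 0 := by
  have hg : Nat.gcd n j ∣ n := Nat.gcd_dvd_left n j
  have hg0 : Nat.gcd n j ≠ 0 := fun h0 => hn (Nat.eq_zero_of_gcd_eq_zero_left h0)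
  have h1 : IsPrimitiveRoot (ζ ^ Nat.gcd n j) (n / Nat.gcd n j) := hζ.pow_of_dvd hg0 hg
  have hd0 : 0 < n / Nat.gcd n j := Nat.div_pos (Nat.le_of_dvd (Nat.pos_of_ne_zero hn) hg)
    (Nat.pos_of_ne_zero hg0)
  have h2 : IsPrimitiveRoot (ζ ^ j) (n / Nat.gcd n j) := by
    have hj : ζ ^ j = (ζ ^ Nat.gcd n j) ^ (j / Nat.gcd n j) := by
      rw [← pow_mul, Nat.mul_div_cancel' (Nat.gcd_dvd_right n j)]
    rw [hj]
    refine h1.pow_of_coprime _ ?_
    exact (Nat.coprime_div_gcd_div_gcd (Nat.pos_of_ne_zero hg0)).symm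
  have h3 := h _ (Nat.mem_divisors.2 ⟨hg, hn⟩)
  have h4 : cyclotomic (n / Nat.gcd n j) ℚ ∣ f := by
    rw [cyclotomic_eq_minpoly_rat h1 hd0]
    exact minpoly.dvd ℚ _ h3
  have h5 : aeval (ζ ^ j) (cyclotomic (n / Nat.gcd n j) ℚ) = 0 := by
    rw [cyclotomic_eq_minpoly_rat h2 hd0]
    exact minpoly.aeval ℚ _
  obtain ⟨g, hg⟩ := h4
  rw [hg, map_mul, h5, zero_mul]

open Polynomial in
theorem finrank_rational_le (hn : n ≠ 0) (E : Submodule ℚ (Fin n → ℚ))
    (hE : ∀ x ∈ E, ∀ j : Fin n, ∃ q : ℚ, evQ (dftRow n j) x = q) :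
    Module.finrank ℚ E ≤ n.divisors.card := by
  classical
  have hn1 : 0 < n := Nat.pos_of_ne_zero hn
  set ζ := Complex.exp (2 * Real.pi * Complex.I / n) with hζdef
  have hζ : IsPrimitiveRoot ζ n := Complex.isPrimitiveRoot_exp n hn
  -- the polynomial of an input
  let pol : (Fin n → ℚ) → ℚ[X] := fun x => ∑ k : Fin n, C (x k) * X ^ (k : ℕ)
  have hpol : ∀ x j, aeval (ζ ^ j) (pol x) = ∑ k : Fin n, ζ ^ (j * (k : ℕ)) * (x k : ℂ) := by
    intro x j
    simp only [pol, map_sum, map_mul, aeval_C, map_pow, aeval_X, eq_ratCast]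
    refine sum_congr rfl fun k _ => ?_
    rw [← pow_mul, mul_comm]
  have hval : ∀ x (j : Fin n), evQ (dftRow n j) x = aeval (ζ ^ (j : ℕ)) (pol x) := by
    intro x j
    rw [hpol, evQ_apply]
    refine sum_congr rfl fun k _ => ?_
    rw [dftRow_eq_pow]
  -- functionals indexed by divisors
  have hfun : ∀ d : n.divisors, ∃ ψ : E →ₗ[ℚ] ℚ, ∀ x : E,
      evQ (dftRow n ⟨(d : ℕ) % n, Nat.mod_lt _ hn1⟩) (x : Fin n → ℚ) = ψ x := by
    intro d
    obtain ⟨ψ, hψ⟩ := exists_rat_functional
      ((evQ (dftRow n ⟨(d : ℕ) % n, Nat.mod_lt _ hn1⟩)).comp E.subtype) (fun x => hE x x.2 _)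
    exact ⟨ψ, hψ⟩
  choose ψ hψ using hfun
  let Ψ : E →ₗ[ℚ] (n.divisors → ℚ) := LinearMap.pi ψ
  have hinj : Function.Injective Ψ := by
    rw [← LinearMap.ker_eq_bot, LinearMap.ker_eq_bot']
    intro x hx
    have h0 : ∀ d ∈ n.divisors, aeval (ζ ^ d) (pol x) = 0 := by
      intro d hd
      have h1 : ψ ⟨d, hd⟩ x = 0 := congrFun hx ⟨d, hd⟩
      have h2 := hψ ⟨d, hd⟩ x
      rw [h1, hval] at h2
      have h3 : ζ ^ (d % n) = ζ ^ d := by
        have h4 := pow_mod_orderOf ζ d
        rwa [← hζ.eq_orderOf] at h4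
      simp only [h3, Rat.cast_zero] at h2
      exact h2
    have h1 := aeval_eq_zero_of_divisors hn (pol x) hζ h0
    have hp0 : (pol x).map (algebraMap ℚ ℂ) = 0 := by
      refine eq_zero_of_natDegree_lt_card_of_eval_eq_zero _
        (f := fun j : Fin n => ζ ^ (j : ℕ)) ?_ ?_ ?_
      · intro i j hij
        exact Fin.ext (hζ.pow_inj i.2 j.2 hij)
      · intro j
        rw [eval_map_algebraMap]
        exact h1 j
      · rw [Fintype.card_fin]
        refine lt_of_le_of_lt natDegree_map_le ?_
        have : (pol x).natDegree ≤ n - 1 := by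
          refine natDegree_sum_le_of_forall_le _ _ fun k _ => ?_
          exact (natDegree_C_mul_X_pow_le _ _).trans (by omega)
        omega
    have hp1 : pol x = 0 := by
      apply Polynomial.map_injective (algebraMap ℚ ℂ) (algebraMap ℚ ℂ).injective
      rw [hp0, Polynomial.map_zero]
    apply Subtype.ext
    funext k
    have h2 := congrArg (fun p => coeff p (k : ℕ)) hp1
    simp only [pol, finsetSum_coeff, coeff_C_mul, coeff_X_pow, coeff_zero, mul_ite, mul_one,
      mul_zero] at h2
    rw [Finset.sum_eq_single k] at h2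
    · simpa only [ZeroMemClass.coe_zero, Pi.zero_apply, ↓reduceIte] using h2
    · intro b _ hb
      rw [if_neg]
      exact fun h => hb (Fin.ext h.symm)
    · intro h; exact absurd (mem_univ k) h
  calc Module.finrank ℚ E ≤ Module.finrank ℚ (n.divisors → ℚ) :=
        LinearMap.finrank_le_finrank_of_injective hinj
    _ = n.divisors.card := by simp only [Module.finrank_fintype_fun_eq_card, Nat.mem_divisors, ne_eq, Fintype.card_coe]

/-- At least `n - d(n)` scalar multiplications. -/
theorem mulCount_ge {P : List Gate} (hn : n ≠ 0) (hP : ComputesDFT n P) :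
    n ≤ mulCount P + n.divisors.card := by
  obtain ⟨E, hE, hrat⟩ := exists_rational_subspace (n := n) P
  have := finrank_rational_le hn E (fun x hx j => hrat x hx _ (row_mem hP j))
  omega

end scalars

end Vale.Agent.P344
end

section

namespace Vale.Agent.P344

open Finset

section

variable {V : Type*} [AddCommGroup V] [Module ℂ V]

theorem runV_prefix (Q : List Gate) (U : List V) : ∃ T, runV Q U = U ++ T := by
  induction Q generalizing U with
  | nil => exact ⟨[], by simp⟩
  | cons g Q ih =>
    obtain ⟨T, hT⟩ := ih (U ++ [g.valV U])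
    exact ⟨g.valV U :: T, by rw [runV_cons, hT]; simp⟩

theorem mem_runV_append {P Q : List Gate} {U : List V} {u : V} (h : u ∈ runV P U) :
    u ∈ runV (P ++ Q) U := by
  rw [runV_append]
  obtain ⟨T, hT⟩ := runV_prefix Q (runV P U)
  rw [hT]
  exact List.mem_append_left _ h

theorem exists_getD_of_mem {U : List V} {u : V} (h : u ∈ U) : ∃ i, U.getD i 0 = u := by
  obtain ⟨i, hi, rfl⟩ := List.mem_iff_getElem.1 h
  exact ⟨i, List.getD_eq_getElem _ _ hi⟩

theorem mem_runV_snoc (P : List Gate) (U : List V) (g : Gate) :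
    g.valV (runV P U) ∈ runV (P ++ [g]) U := by
  rw [runV_append]
  simp

end

theorem exists_sum_mem {n : ℕ} (t : Fin n → ℂ) (s : Finset (Fin n)) (P : List Gate) :
    ∃ Q, ∑ k ∈ s, t k • (Pi.single k 1 : Fin n → ℂ) ∈ runV (P ++ Q) (forms n) := by
  classical
  induction s using Finset.induction_on with
  | empty =>
    refine ⟨[Gate.smul 0 0], ?_⟩
    have := mem_runV_snoc P (forms n) (Gate.smul 0 0)
    simpa only [sum_empty, Gate.valV, List.getD_eq_getElem?_getD, zero_smul] using this
  | insert k s hk ih =>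
    obtain ⟨Q, hQ⟩ := ih
    have hek : (Pi.single k 1 : Fin n → ℂ) ∈ runV (P ++ Q) (forms n) := by
      obtain ⟨T, hT⟩ := runV_prefix (P ++ Q) (forms n)
      rw [hT]
      apply List.mem_append_left
      rw [forms, List.mem_ofFn]
      exact ⟨k, rfl⟩
    obtain ⟨i, hi⟩ := exists_getD_of_mem hek
    have h1 := mem_runV_snoc (P ++ Q) (forms n) (Gate.smul (t k) i)
    rw [Gate.valV, hi] at h1
    have h2 : ∑ k ∈ s, t k • (Pi.single k 1 : Fin n → ℂ) ∈
        runV (P ++ Q ++ [Gate.smul (t k) i]) (forms n) := mem_runV_append hQ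
    obtain ⟨a, ha⟩ := exists_getD_of_mem h1
    obtain ⟨b, hb⟩ := exists_getD_of_mem h2
    have h3 := mem_runV_snoc (P ++ Q ++ [Gate.smul (t k) i]) (forms n) (Gate.add a b)
    rw [Gate.valV, ha, hb] at h3
    refine ⟨Q ++ [Gate.smul (t k) i] ++ [Gate.add a b], ?_⟩
    rw [sum_insert hk]
    simpa only [List.append_assoc, List.cons_append, List.nil_append] using h3

theorem exists_computesDFT (n : ℕ) : ∃ P : List Gate, ComputesDFT n P := by
  classical
  have key : ∀ s : Finset (Fin n), ∃ P : List Gate, ∀ j ∈ s, dftRow n j ∈ runV P (forms n) := by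
    intro s
    induction s using Finset.induction_on with
    | empty => exact ⟨[], by simp⟩
    | insert k s hk ih =>
      obtain ⟨P, hP⟩ := ih
      obtain ⟨Q, hQ⟩ := exists_sum_mem (dftRow n k) univ P
      refine ⟨P ++ Q, fun j hj => ?_⟩
      rw [mem_insert] at hj
      rcases hj with rfl | hj
      · convert hQ using 1
        funext l
        simp only [Finset.sum_apply, Pi.smul_apply, Pi.single_apply, smul_eq_mul, mul_ite, mul_one, mul_zero, sum_ite_eq, mem_univ, ↓reduceIte]
      · exact mem_runV_append (hP j hj)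
  obtain ⟨P, hP⟩ := key univ
  refine ⟨P, (computesDFT_iff P).2 ?_⟩
  choose out hout using fun j => exists_getD_of_mem (hP j (mem_univ j))
  exact ⟨out, hout⟩

theorem exists_length_eq_L (n : ℕ) : ∃ P : List Gate, P.length = L n ∧ ComputesDFT n P := by
  obtain ⟨P, hP⟩ := exists_computesDFT n
  have : (L n) ∈ {s | ∃ P : List Gate, P.length = s ∧ ComputesDFT n P} :=
    Nat.sInf_mem ⟨P.length, P, rfl, hP⟩
  exact this

end Vale.Agent.P344
end

section

namespace Vale.Agent.P344

/-- `L n ≥ 4 n - 2 log₂ n - d(n) - 4`. -/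
theorem four_mul_le_L (n : ℕ) (hn : 2 ≤ n) :
    4 * n ≤ L n + 2 * Nat.log 2 n + n.divisors.card + 4 := by
  obtain ⟨P, hlen, hP⟩ := exists_length_eq_L n
  have h1 := addCount_ge hn hP
  have h2 := mulCount_ge (by omega) hP
  have h3 := addCount_add_mulCount P
  omega

end Vale.Agent.P344
end

section

namespace Vale.Agent.P344.Amp

open Vale.Agent.P344 Filter

theorem cost_smooth {K : ℝ} (hK : 1 ≤ K) {m D s : ℕ} (hm : 2 ≤ m) (h : DCost K m D s)
    (k r : ℕ) (hr : 0 < r) :
    DCost K (r * m ^ k) (k * (D + 1) + (r + 1) + 1)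
      (r * (k * (m ^ (k - 1) * (s + m))) + m ^ k * (2 * r ^ 2) + r * m ^ k) :=
  DCost.mul hK (Nat.pow_pos (by omega)) hr (DCost.pow hK (by omega) h k) (DCost.naive hK r)

/-- the choice of the smooth transform length -/
lemma choose_length {m R n : ℕ} (hm : 2 ≤ m) (hR : 1 ≤ R) (hn : R ≤ 2 * n) :
    ∃ k r : ℕ, 0 < r ∧ r ≤ m * R ∧ m ^ k ≤ 2 * n ∧ 2 * n ≤ r * m ^ k ∧
      R * (r * m ^ k) ≤ (R + 1) * (2 * n) := by
  set k := Nat.log m (2 * n / R) with hk
  have h1 : 2 * n / R ≠ 0 := by
    rw [Nat.div_ne_zero_iff]; omega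
  have h2 : m ^ k ≤ 2 * n / R := Nat.pow_log_le_self m h1
  have h3 : 2 * n / R < m ^ (k + 1) := Nat.lt_pow_succ_log_self (by omega) _
  have hmk : 0 < m ^ k := Nat.pow_pos (by omega)
  have h4 : m ^ k * R ≤ 2 * n := (Nat.le_div_iff_mul_le (by omega)).mp h2
  have h5 : 2 * n < m ^ (k + 1) * R := (Nat.div_lt_iff_lt_mul (by omega)).mp h3
  refine ⟨k, 2 * n / m ^ k + 1, Nat.succ_pos _, ?_, ?_, ?_, ?_⟩
  · have h6 : 2 * n / m ^ k < m * R := by
      rw [Nat.div_lt_iff_lt_mul hmk]
      calc 2 * n < m ^ (k + 1) * R := h5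
        _ = m * R * m ^ k := by rw [pow_succ]; ring
    omega
  · calc m ^ k = m ^ k * 1 := (Nat.mul_one _).symm
      _ ≤ m ^ k * R := Nat.mul_le_mul_left _ hR
      _ ≤ 2 * n := h4
  · have := Nat.lt_div_mul_add (a := 2 * n) hmk
    have h7 : (2 * n / m ^ k + 1) * m ^ k = 2 * n / m ^ k * m ^ k + m ^ k := by ring
    omega
  · have h7 : (2 * n / m ^ k) * m ^ k ≤ 2 * n := Nat.div_mul_le_self _ _
    calc R * ((2 * n / m ^ k + 1) * m ^ k) = R * (2 * n / m ^ k * m ^ k) + m ^ k * R := by ring
      _ ≤ R * (2 * n) + 2 * n := Nat.add_le_add (Nat.mul_le_mul_left _ h7) h4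
      _ = (R + 1) * (2 * n) := by ring

/-- the explicit estimate -/
theorem explicit {K : ℝ} (hK : 1 ≤ K) {m D s : ℕ} (hm : 2 ≤ m) (h : DCost K m D s)
    {R n : ℕ} (hR : 1 ≤ R) (hn : R ≤ 2 * n) (hn2 : 2 ≤ n) :
    ∃ D' s' : ℕ, DCost K n D' s' ∧
      (D' : ℝ) ≤ (4 * (D + 1) + 2 * (m * R) + 7) * Real.logb 2 n ∧
      (s' : ℝ) ≤ 4 * (1 + 1 / R) * (((s : ℝ) + m) / (m * Real.logb 2 m)) * (n * Real.logb 2 n) +
        (8 * (((s : ℝ) + m) / (m * Real.logb 2 m) + 2 * (m * R) + 1) + 6) * n := by
  obtain ⟨k, r, hr, hrm, hk, hN, hN'⟩ := choose_length hm hR hn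
  have h1 := cost_smooth hK hm h k r hr
  have h2 := DCost.bluestein hK (by omega : 0 < n) hN h1
  refine ⟨_, _, h2, ?_, ?_⟩
  all_goals
    have hm0 : (0 : ℝ) < m := by exact_mod_cast (by omega : 0 < m)
    have hn0 : (0 : ℝ) < n := by exact_mod_cast (by omega : 0 < n)
    have hR0 : (1 : ℝ) ≤ R := by exact_mod_cast hR
    have hm2 : (2 : ℝ) ≤ m := by exact_mod_cast hm
    have hn2' : (2 : ℝ) ≤ n := by exact_mod_cast hn2
    have hlm : 1 ≤ Real.logb 2 m := by
      rw [Real.le_logb_iff_rpow_le (by norm_num) hm0]; simpa only [Real.rpow_one, Nat.ofNat_le_cast] using hm2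
    have hln : 1 ≤ Real.logb 2 n := by
      rw [Real.le_logb_iff_rpow_le (by norm_num) hn0]; simpa only [Real.rpow_one, Nat.ofNat_le_cast] using hn2'
    have hklog : (k : ℝ) * Real.logb 2 m ≤ 1 + Real.logb 2 n := by
      have h3 : Real.logb 2 ((m : ℝ) ^ k) ≤ Real.logb 2 (2 * n) := by
        apply Real.logb_le_logb_of_le (by norm_num) (by positivity)
        exact_mod_cast hk
      rw [Real.logb_pow, Real.logb_mul (by norm_num) hn0.ne', Real.logb_self_eq_one (by norm_num)]
        at h3
      exact h3
    have hrm' : (r : ℝ) ≤ m * R := by exact_mod_cast hrm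
  · have hk1 : (k : ℝ) ≤ 1 + Real.logb 2 n := by
      have : (k : ℝ) * 1 ≤ k * Real.logb 2 m := mul_le_mul_of_nonneg_left hlm (Nat.cast_nonneg k)
      linarith only [hklog, this]
    push_cast
    have hD : (0 : ℝ) ≤ (D : ℝ) + 1 := by (clear * -; positivity)
    have h5 : (k : ℝ) * (D + 1) ≤ (2 * Real.logb 2 n) * (D + 1) :=
      mul_le_mul_of_nonneg_right (by linarith only [hln, hk1]) hD
    have h6 : (2 * ((m : ℝ) * R) + 7) * 1 ≤ (2 * (m * R) + 7) * Real.logb 2 n :=
      mul_le_mul_of_nonneg_left hln (by positivity)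
    linarith
  · set c0 : ℝ := ((s : ℝ) + m) / (m * Real.logb 2 m) with hc0
    have hc0' : 0 ≤ c0 := by (clear * - hm hlm; positivity)
    have hNr : ((r : ℝ) * (m : ℝ) ^ k) ≤ (1 + 1 / R) * (2 * n) := by
      have h7 : (R : ℝ) * (r * (m : ℝ) ^ k) ≤ (R + 1) * (2 * n) := by exact_mod_cast hN'
      have hR1 : (0 : ℝ) < R := by linarith only [hR0]
      have : (1 + 1 / (R : ℝ)) * (2 * n) = ((R + 1) * (2 * n)) / R := by
        field_simp
      rw [this, le_div_iff₀ hR1]
      linarith only [h7]
    have hmk : ((k : ℝ) * ((m : ℝ) ^ (k - 1) * (s + m))) = (m : ℝ) ^ k * (k * (s + m) / m) := by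
      rcases Nat.eq_zero_or_pos k with h0 | h0
      · subst h0; simp only [CharP.cast_eq_zero, zero_tsub, pow_zero, one_mul, zero_mul, zero_div, mul_zero]
      · have : (m : ℝ) ^ k = (m : ℝ) ^ (k - 1) * m := by
          rw [← pow_succ]; congr 1; omega
        rw [this]
        (clear * - hm h0; field_simp)
    have hkc : (k : ℝ) * (s + m) / m ≤ c0 * (1 + Real.logb 2 n) := by
      have h8 : (k : ℝ) * (s + m) / m = c0 * (k * Real.logb 2 m) := by
        rw [hc0]; (clear * - hlm hm; field_simp)
      rw [h8]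
      exact mul_le_mul_of_nonneg_left hklog hc0'
    have hS : ((2 * (r * (k * (m ^ (k - 1) * (s + m))) + m ^ k * (2 * r ^ 2) + r * m ^ k) +
        r * m ^ k + 2 * n : ℕ) : ℝ) =
        2 * (((r : ℝ) * (m : ℝ) ^ k) * (k * (s + m) / m + 2 * r + 1)) + (r : ℝ) * (m : ℝ) ^ k
          + 2 * n := by
      push_cast
      rw [hmk]
      ring
    rw [hS]
    have hpos : 0 ≤ (k : ℝ) * (s + m) / m + 2 * r + 1 := by (clear * - hm hr; positivity)
    have h9 : (k : ℝ) * (s + m) / m + 2 * r + 1 ≤
        c0 * (1 + Real.logb 2 n) + 2 * (m * R) + 1 := by linarith only [hrm', hkc]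
    have h10 : ((r : ℝ) * (m : ℝ) ^ k) * (k * (s + m) / m + 2 * r + 1) ≤
        ((1 + 1 / R) * (2 * n)) * (c0 * (1 + Real.logb 2 n) + 2 * (m * R) + 1) :=
      mul_le_mul hNr h9 hpos (by positivity)
    have h11 : (1 : ℝ) / R ≤ 1 := by
      rw [div_le_one (by linarith only [hR0])]; exact hR0
    have h12 : ((1 + 1 / (R : ℝ)) * (2 * n)) ≤ 4 * n := by nlinarith only [h11]
    have h13 : ((1 + 1 / (R : ℝ)) * (2 * n)) * (c0 + 2 * (m * R) + 1) ≤
        4 * n * (c0 + 2 * (m * R) + 1) := mul_le_mul_of_nonneg_right h12 (by (clear * - hm hlm hR; positivity))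
    have h14 : ((1 + 1 / (R : ℝ)) * (2 * n)) * (c0 * (1 + Real.logb 2 n) + 2 * (m * R) + 1) =
        (1 + 1 / (R : ℝ)) * 2 * c0 * (n * Real.logb 2 n) +
        ((1 + 1 / (R : ℝ)) * (2 * n)) * (c0 + 2 * (m * R) + 1) := by ring
    have h15 : 2 * ((r : ℝ) * (m : ℝ) ^ k * (k * (s + m) / m + 2 * r + 1)) ≤
        4 * (1 + 1 / R) * c0 * (n * Real.logb 2 n) + 8 * n * (c0 + 2 * (m * R) + 1) := by
      linarith only [h10, h13]
    linarith only [hNr, h10, h12, h13]

/-- **Amplification.** -/
theorem amplification {m : ℕ} (hm : 2 ≤ m) {P₀ : List Gate} (h : ComputesDFT m P₀)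
    {ε : ℝ} (hε : 0 < ε) :
    ∃ K : ℝ, ∀ᶠ n : ℕ in atTop, ∃ P : List Gate, Tame K n P ∧ ComputesDFT n P ∧
      (P.length : ℝ) ≤ (4 * (((P₀.length : ℝ) + m) / (m * Real.logb 2 m)) + ε) *
        (n * Real.logb 2 n) := by
  obtain ⟨K₀, hK₀, D, hD⟩ := dcost_of_circuit h
  set c0 : ℝ := ((P₀.length : ℝ) + m) / (m * Real.logb 2 m) with hc0
  have hm0 : (0 : ℝ) < m := by exact_mod_cast (by omega : 0 < m)
  have hm2 : (2 : ℝ) ≤ m := by exact_mod_cast hm
  have hlm : 1 ≤ Real.logb 2 m := by
    rw [Real.le_logb_iff_rpow_le (by norm_num) hm0]; simpa only [Real.rpow_one, Nat.ofNat_le_cast] using hm2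
  have hc0' : 0 ≤ c0 := by (clear * - hm hlm; positivity)
  obtain ⟨R, hR⟩ := exists_nat_gt (8 * c0 / ε)
  have hR1 : (0 : ℝ) < R := lt_of_le_of_lt (by (clear * - hm hlm hε; positivity)) hR
  have hR1' : 1 ≤ R := by
    have : 0 < R := by exact_mod_cast hR1
    omega
  have hR2 : 4 * c0 / R ≤ ε / 2 := by
    rw [div_le_iff₀ hR1]
    rw [div_lt_iff₀ hε] at hR
    linarith only [hR]
  set C : ℝ := 8 * (c0 + 2 * (m * R) + 1) + 6 with hC
  have hlog : Tendsto (fun n : ℕ => Real.logb 2 (n : ℝ)) atTop atTop :=
    (Real.tendsto_logb_atTop (by norm_num)).comp tendsto_natCast_atTop_atTop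
  refine ⟨max K₀ (4 * (D + 1) + 2 * (m * R) + 7), ?_⟩
  filter_upwards [hlog.eventually_ge_atTop (2 * C / ε), eventually_ge_atTop (max 2 R)] with n hn1 hn2
  have hn2' : 2 ≤ n := (le_max_left _ _).trans hn2
  have hn3' : R ≤ 2 * n := by
    have : R ≤ n := (le_max_right _ _).trans hn2
    omega
  obtain ⟨D', s', hcost, hD', hs'⟩ := explicit hK₀ hm hD hR1' hn3' hn2'
  obtain ⟨P, hP1, hP2, hP3, hP4⟩ := circuit_of_dcost hcost
  have hn0 : (0 : ℝ) < n := by exact_mod_cast (by omega : 0 < n)
  have hn2r : (2 : ℝ) ≤ n := by exact_mod_cast hn2'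
  have hln : 1 ≤ Real.logb 2 n := by
    rw [Real.le_logb_iff_rpow_le (by norm_num) hn0]; simpa only [Real.rpow_one, Nat.ofNat_le_cast] using hn2r
  refine ⟨P, ⟨fun a i hi => (hP3 a i hi).trans (le_max_left _ _), ?_⟩, hP2, ?_⟩
  · intro d hd
    have h1 : (d : ℝ) ≤ D' := by exact_mod_cast hP4 d hd
    refine (h1.trans hD').trans ?_
    exact mul_le_mul_of_nonneg_right (le_max_right _ _) (by linarith only [hln])
  · have h1 : (P.length : ℝ) ≤ s' := by exact_mod_cast hP1
    refine (h1.trans hs').trans ?_
    rw [← hc0, ← hC]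
    have h2 : C * n ≤ ε / 2 * (n * Real.logb 2 n) := by
      have h3 : C ≤ ε / 2 * Real.logb 2 n := by
        rw [div_le_iff₀ hε] at hn1
        linarith only [hn1]
      nlinarith only [h3]
    have h4 : 4 * (1 + 1 / (R : ℝ)) * c0 * (n * Real.logb 2 n) =
        4 * c0 * (n * Real.logb 2 n) + (4 * c0 / R) * (n * Real.logb 2 n) := by
      (clear * - hR1' hln hn2'; field_simp)
    have h5 : (4 * c0 / R) * (n * Real.logb 2 n) ≤ ε / 2 * (n * Real.logb 2 n) :=
      mul_le_mul_of_nonneg_right hR2 (by (clear * - hn2' hln; positivity))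
    rw [h4]
    nlinarith only [h2, h5]

end Vale.Agent.P344.Amp
end

section

namespace Vale.Agent.P344.Amp

open Vale.Agent.P344 Filter

lemma L_spec {n : ℕ} (hn : 0 < n) : ∃ P : List Gate, P.length = L n ∧ ComputesDFT n P := by
  have h1 : {s | ∃ P : List Gate, P.length = s ∧ ComputesDFT n P}.Nonempty := by
    obtain ⟨P, _, hP, _⟩ := circuit_of_dcost (DCost.naive (K := 1) le_rfl n)
    exact ⟨P.length, P, rfl, hP⟩
  exact Nat.sInf_mem h1

lemma L_le {n : ℕ} {P : List Gate} (h : ComputesDFT n P) : L n ≤ P.length :=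
  Nat.sInf_le ⟨P, rfl, h⟩

lemma two_le_log {n : ℕ} (hn : 2 ≤ n) : 1 ≤ Real.logb 2 n := by
  have hn0 : (0 : ℝ) < n := by exact_mod_cast (by omega : 0 < n)
  rw [Real.le_logb_iff_rpow_le (by norm_num) hn0]
  simpa only [Real.rpow_one, Nat.ofNat_le_cast] using (by exact_mod_cast hn : (2 : ℝ) ≤ n)

lemma bdd : BddBelow (Set.range fun m : ℕ =>
    ((L (m + 2) : ℝ) + (m + 2)) / ((m + 2) * Real.logb 2 (m + 2))) := by
  refine ⟨0, ?_⟩
  rintro _ ⟨m, rfl⟩
  have h1 : 1 ≤ Real.logb 2 ((m + 2 : ℕ) : ℝ) := two_le_log (by omega)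
  push_cast at h1
  positivity

lemma cStar_nonneg : 0 ≤ cStar := by
  apply Real.iInf_nonneg
  intro m
  have h1 : 1 ≤ Real.logb 2 ((m + 2 : ℕ) : ℝ) := two_le_log (by omega)
  push_cast at h1
  positivity

lemma cStar_le {n : ℕ} (hn : 2 ≤ n) : cStar ≤ ((L n : ℝ) + n) / (n * Real.logb 2 n) := by
  obtain ⟨m, rfl⟩ : ∃ m, n = m + 2 := ⟨n - 2, by omega⟩
  have := ciInf_le bdd m
  push_cast
  exact this

lemma exists_lt {ε : ℝ} (hε : 0 < ε) :
    ∃ m : ℕ, 2 ≤ m ∧ ((L m : ℝ) + m) / (m * Real.logb 2 m) < cStar + ε := by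
  obtain ⟨m, hm⟩ := exists_lt_of_ciInf_lt (lt_add_of_pos_right cStar hε)
  refine ⟨m + 2, by omega, ?_⟩
  push_cast
  exact hm

lemma tendsto_log : Tendsto (fun n : ℕ => Real.logb 2 (n : ℝ)) atTop atTop :=
  (Real.tendsto_logb_atTop (by norm_num)).comp tendsto_natCast_atTop_atTop

/-- lower estimate -/
theorem lower {ε : ℝ} (hε : 0 < ε) :
    ∀ᶠ n : ℕ in atTop, (cStar - ε) * (n * Real.logb 2 n) ≤ (L n : ℝ) := by
  filter_upwards [tendsto_log.eventually_ge_atTop (1 / ε), eventually_ge_atTop 2] with n hn hn2
  have h1 := cStar_le hn2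
  have h2 := two_le_log hn2
  have hn0 : (0 : ℝ) < n := by exact_mod_cast (by omega : 0 < n)
  rw [le_div_iff₀ (by positivity)] at h1
  have h3 : (n : ℝ) ≤ ε * (n * Real.logb 2 n) := by
    rw [div_le_iff₀ hε] at hn
    nlinarith only [hn]
  nlinarith only [h1, h3]

/-- upper estimate with tame circuits -/
theorem upper {ε : ℝ} (hε : 0 < ε) :
    ∃ K : ℝ, ∀ᶠ n : ℕ in atTop, ∃ P : List Gate, Tame K n P ∧ ComputesDFT n P ∧
      (P.length : ℝ) ≤ (4 * cStar + ε) * (n * Real.logb 2 n) := by
  obtain ⟨m, hm, hlt⟩ := exists_lt (ε := ε / 8) (by positivity)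
  obtain ⟨P₀, hP₀, hc⟩ := L_spec (n := m) (by omega)
  obtain ⟨K, hK⟩ := amplification hm hc (ε := ε / 2) (by positivity)
  refine ⟨K, ?_⟩
  filter_upwards [hK, eventually_ge_atTop 2] with n hn hn2
  obtain ⟨P, h1, h2, h3⟩ := hn
  refine ⟨P, h1, h2, h3.trans ?_⟩
  rw [hP₀]
  apply mul_le_mul_of_nonneg_right _ (by have := two_le_log hn2; (clear * - hn2 this; positivity))
  linarith only [hlt]

theorem upper' {ε : ℝ} (hε : 0 < ε) :
    ∀ᶠ n : ℕ in atTop, (L n : ℝ) ≤ (4 * cStar + ε) * (n * Real.logb 2 n) := by
  obtain ⟨K, hK⟩ := upper hε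
  filter_upwards [hK] with n hn
  obtain ⟨P, _, h2, h3⟩ := hn
  have : (L n : ℝ) ≤ P.length := by exact_mod_cast L_le h2
  linarith only [h3, this]

/-- powers of a fixed length -/
theorem pow_upper {m : ℕ} (hm : 2 ≤ m) (k : ℕ) : ((L (m ^ k) : ℕ) : ℝ) ≤
    ((L m : ℝ) + m) / (m * Real.logb 2 m) * ((m ^ k : ℕ) * Real.logb 2 ((m ^ k : ℕ) : ℝ)) := by
  obtain ⟨P₀, hP₀, hc⟩ := L_spec (n := m) (by omega)
  obtain ⟨K₀, hK₀, D, hD⟩ := dcost_of_circuit hc
  obtain ⟨P, h1, h2, _⟩ := circuit_of_dcost (DCost.pow hK₀ (by omega) hD k)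
  have h3 := (L_le h2).trans h1
  rw [hP₀] at h3
  have h4 : ((L (m ^ k) : ℕ) : ℝ) ≤ ((k * (m ^ (k - 1) * (L m + m)) : ℕ) : ℝ) := by
    exact_mod_cast h3
  refine h4.trans (le_of_eq ?_)
  have hlm := two_le_log hm
  have hm0 : (0 : ℝ) < m := by exact_mod_cast (by omega : 0 < m)
  push_cast
  rw [Real.logb_pow]
  rcases Nat.eq_zero_or_pos k with h0 | h0
  · subst h0; simp only [CharP.cast_eq_zero, zero_tsub, pow_zero, one_mul, zero_mul, mul_zero]
  · have : (m : ℝ) ^ k = (m : ℝ) ^ (k - 1) * m := by
      rw [← pow_succ]; congr 1; omega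
    rw [this]
    (clear * - hm hlm h0; field_simp)

theorem frequently_upper {ε : ℝ} (hε : 0 < ε) :
    ∃ᶠ n : ℕ in atTop, (L n : ℝ) ≤ (cStar + ε) * (n * Real.logb 2 n) := by
  obtain ⟨m, hm, hlt⟩ := exists_lt hε
  rw [frequently_atTop]
  intro N
  refine ⟨m ^ N, (Nat.lt_pow_self (by omega)).le, ?_⟩
  refine (pow_upper hm N).trans ?_
  apply mul_le_mul_of_nonneg_right hlt.le
  have h1 : (1 : ℝ) ≤ ((m ^ N : ℕ) : ℝ) := by exact_mod_cast Nat.one_le_pow _ _ (by omega)
  have : 0 ≤ Real.logb 2 ((m ^ N : ℕ) : ℝ) := Real.logb_nonneg (by norm_num) h1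
  positivity

theorem question_iff : Question ↔ 0 < cStar := by
  constructor
  · rintro ⟨c, hc, h⟩
    have h1 : ∀ ε : ℝ, 0 < ε → c ≤ cStar + ε := by
      intro ε hε
      obtain ⟨n, hn, hn1, hn2⟩ := ((frequently_upper hε).and_eventually
        (h.and (eventually_ge_atTop 2))).exists
      have h2 := two_le_log hn2
      have hn0 : (0 : ℝ) < n := by exact_mod_cast (by omega : 0 < n)
      have h3 : (0 : ℝ) < n * Real.logb 2 n := by (clear * - hn2 h2; positivity)
      exact le_of_mul_le_mul_right (hn1.trans hn) h3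
    have := h1 (c / 2) (by positivity)
    linarith only [hc, this]
  · intro h
    refine ⟨cStar / 2, by positivity, ?_⟩
    filter_upwards [lower (ε := cStar / 2) (by positivity)] with n hn
    have : cStar - cStar / 2 = cStar / 2 := by ring
    rwa [this] at hn

theorem question_iff_tame : Question ↔ ∃ c : ℝ, 0 < c ∧ ∀ K : ℝ, ∃ᶠ n : ℕ in atTop,
    ∀ P : List Gate, Tame K n P → ComputesDFT n P → c * (n * Real.logb 2 n) ≤ P.length := by
  constructor
  · rintro ⟨c, hc, h⟩
    refine ⟨c, hc, fun K => Eventually.frequently ?_⟩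
    filter_upwards [h] with n hn P _ hP
    have : (L n : ℝ) ≤ P.length := by exact_mod_cast L_le hP
    linarith only [hn, this]
  · rintro ⟨c, hc, h⟩
    rw [question_iff]
    by_contra hcon
    have h0 : cStar = 0 := le_antisymm (not_lt.mp hcon) cStar_nonneg
    obtain ⟨K, hK⟩ := upper (ε := c / 2) (by positivity)
    obtain ⟨n, hn, hn1, hn2⟩ := ((h K).and_eventually (hK.and (eventually_ge_atTop 2))).exists
    obtain ⟨P, h1, h2, h3⟩ := hn1
    have h4 := hn P h1 h2
    have h5 := two_le_log hn2
    have hn0 : (0 : ℝ) < n := by exact_mod_cast (by omega : 0 < n)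
    have h6 : (0 : ℝ) < n * Real.logb 2 n := by positivity
    rw [h0] at h3
    nlinarith only [h3, h4, hc, h6]

theorem littleO (h : ¬ Question) : (fun n : ℕ => (L n : ℝ)) =o[atTop]
    fun n : ℕ => (n : ℝ) * Real.logb 2 n := by
  have h0 : cStar = 0 := le_antisymm (not_lt.mp (fun h1 => h (question_iff.mpr h1))) cStar_nonneg
  rw [Asymptotics.isLittleO_iff]
  intro c hc
  filter_upwards [upper' hc, eventually_ge_atTop 2] with n hn hn2
  have h5 := two_le_log hn2
  rw [h0] at hn
  rw [Real.norm_of_nonneg (by (clear * -; positivity)), Real.norm_of_nonneg (by positivity)]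
  linarith only [hn]

end Vale.Agent.P344.Amp
end

section

namespace Vale.Agent.P344.HB

open Finset NumberField

variable {K : Type*} [Field K] [NumberField K] {n : ℕ}

end Vale.Agent.P344.HB
end
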