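import Mathlib.Analysis.Complex.ExponentialBounds
import Vale.Agent.P344.Bdl.B4

section

namespace Vale.Agent.P344.Stable

open Finset

variable {n : ℕ} {M : Type*} [AddCommGroup M] [Module ℂ M]

lemma Gate.apply_zero (g : Gate) : g.apply (fun _ => (0 : M)) = 0 := by
  cases g <;> simp [Gate.apply]

lemma Gate.apply_add (g : Gate) (m m' : ℕ → M) :
    g.apply (fun i => m i + m' i) = g.apply m + g.apply m' := by
  cases g <;> simp only [Gate.apply]
  · abel
  · abel
  · exact smul_add _ _ _

lemma Gate.apply_smul (g : Gate) (m : ℕ → ℂ) (v : M) :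
    g.apply (fun i => m i • v) = g.apply m • v := by
  cases g <;> simp only [Gate.apply]
  · rw [add_smul]
  · rw [sub_smul]
  · rw [smul_eq_mul, mul_smul]

lemma Gate.apply_sum {ι : Type*} (g : Gate) (s : Finset ι) (m : ι → ℕ → M) :
    g.apply (fun i => ∑ k ∈ s, m k i) = ∑ k ∈ s, g.apply (m k) := by
  classical
  induction s using Finset.induction_on with
  | empty => simp [Gate.apply_zero]
  | insert a s ha ih =>
    simp only [Finset.sum_insert ha]
    rw [Gate.apply_add, ih]

/-- An error at gate `g` has no effect before gate `g` is executed. -/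
lemma Circuit.mem_single_early (c : Circuit n) (g : ℕ) (a : M) (t : ℕ) (ht : t ≤ g) :
    c.mem 0 (Pi.single g a) t = fun _ => (0 : M) := by
  induction t with
  | zero => funext i; simp [Circuit.mem_zero_apply]
  | succ t ih =>
    funext i
    have h1 := ih (by omega)
    rw [Circuit.mem_succ, h1, Gate.apply_zero]
    have : (Pi.single g a : ℕ → M) t = 0 := by
      rw [Pi.single_apply, if_neg (by omega)]
    rw [this]
    simp

/-- Superposition: the memory is linear in inputs and errors. -/
lemma Circuit.mem_eq_sum (c : Circuit n) (x : Fin n → M) (e : ℕ → M) (t i : ℕ) :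
    c.mem x e t i = ∑ j, c.mem (M := ℂ) (Pi.single j 1) 0 t i • x j +
      ∑ g ∈ range t, c.mem (M := ℂ) 0 (Pi.single g 1) t i • e g := by
  induction t generalizing i with
  | zero =>
    simp only [Circuit.mem_zero_apply, range_zero, sum_empty, add_zero]
    by_cases h : i < n
    · simp only [h, dif_pos]
      rw [Finset.sum_eq_single ⟨i, h⟩]
      · simp
      · intro b _ hb
        rw [Pi.single_apply, if_neg (Ne.symm hb), zero_smul]
      · simp
    · simp [h]
  | succ t ih =>
    have ih' : c.mem x e t = fun i => ∑ j, c.mem (M := ℂ) (Pi.single j 1) 0 t i • x j +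
      ∑ g ∈ range t, c.mem (M := ℂ) 0 (Pi.single g 1) t i • e g := funext ih
    rw [Circuit.mem_succ]
    by_cases hi : i = n + t
    · rw [if_pos hi, sum_range_succ]
      have e1 : ∀ j : Fin n, c.mem (M := ℂ) (Pi.single j 1) 0 (t + 1) i =
          (c.gate t).apply (c.mem (M := ℂ) (Pi.single j 1) 0 t) := by
        intro j
        rw [Circuit.mem_succ, if_pos hi]
        simp
      have e2 : ∀ g ∈ range t, c.mem (M := ℂ) 0 (Pi.single g 1) (t + 1) i • e g =
          (c.gate t).apply (c.mem (M := ℂ) 0 (Pi.single g 1) t) • e g := by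
        intro g hg
        rw [Circuit.mem_succ, if_pos hi, Pi.single_apply, if_neg (by
          have := mem_range.mp hg
          omega)]
        simp
      have e3 : c.mem (M := ℂ) 0 (Pi.single t 1) (t + 1) i = 1 := by
        rw [Circuit.mem_succ, if_pos hi, Circuit.mem_single_early c t 1 t le_rfl,
          Gate.apply_zero]
        simp
      rw [sum_congr rfl e2, e3, one_smul, ← add_assoc]
      congr 1
      rw [sum_congr rfl (fun j _ => by rw [e1 j]), ih', Gate.apply_add, Gate.apply_sum,
        Gate.apply_sum]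
      simp only [Gate.apply_smul]
    · rw [if_neg hi, sum_range_succ]
      have e1 : ∀ j : Fin n, c.mem (M := ℂ) (Pi.single j 1) 0 (t + 1) i =
          c.mem (M := ℂ) (Pi.single j 1) 0 t i := by
        intro j
        rw [Circuit.mem_succ, if_neg hi]
      have e2 : ∀ g, c.mem (M := ℂ) 0 (Pi.single g 1) (t + 1) i =
          c.mem (M := ℂ) 0 (Pi.single g 1) t i := by
        intro g
        rw [Circuit.mem_succ, if_neg hi]
      simp only [e1, e2]
      rw [Circuit.mem_single_early c t 1 t le_rfl]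
      simp only [zero_smul, add_zero]
      exact ih i

/-- Running the circuit on the values of a nonlinear map `Ω`, with errors equal to the failure of
`Ω` to commute with the gates, reproduces the values of `Ω` along the exact run. -/
lemma Circuit.mem_map {M' : Type*} [AddCommGroup M'] [Module ℂ M'] (c : Circuit n)
    (Ω : M → M') (h0 : Ω 0 = 0) (x : Fin n → M) (t i : ℕ) :
    c.mem (fun j => Ω (x j))
      (fun g => Ω ((c.gate g).apply (c.mem x 0 g)) -
        (c.gate g).apply (fun i => Ω (c.mem x 0 g i))) t i = Ω (c.mem x 0 t i) := by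
  induction t generalizing i with
  | zero =>
    rw [Circuit.mem_zero_apply, Circuit.mem_zero_apply]
    split_ifs
    · rfl
    · exact h0.symm
  | succ t ih =>
    rw [Circuit.mem_succ, Circuit.mem_succ]
    split_ifs
    · have : c.mem (fun j => Ω (x j))
        (fun g => Ω ((c.gate g).apply (c.mem x 0 g)) -
          (c.gate g).apply (fun i => Ω (c.mem x 0 g i))) t = fun i => Ω (c.mem x 0 t i) :=
        funext ih
      rw [this]
      simp
    · exact ih i

end Vale.Agent.P344.Stable

end

section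

namespace Vale.Agent.P344.Stable

variable {n : ℕ}

/-- The exact outputs of the circuit are `lam` times the unnormalized discrete Fourier transform. -/
def Circuit.ComputesDFT (c : Circuit n) (lam : ℂ) : Prop :=
  ∀ (x : Fin n → ℂ) (k : Fin n), c.mem x 0 c.size (c.out k) =
    lam * ∑ j : Fin n, Complex.exp (2 * Real.pi * Complex.I * (j : ℂ) * (k : ℂ) / n) * x j

/-- Coefficient vector of the linear form held at address `i` after the first `t` gates. -/
noncomputable def Circuit.form (c : Circuit n) (t i : ℕ) : EuclideanSpace ℂ (Fin n) :=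
  WithLp.toLp 2 (fun j => c.mem (Pi.single j (1 : ℂ)) 0 t i)

/-- Sensitivity of the outputs to gate `g`: the change of the output vector when the value of
gate `g` is increased by `1`. -/
noncomputable def Circuit.sens (c : Circuit n) (g : ℕ) : EuclideanSpace ℂ (Fin n) :=
  WithLp.toLp 2 (fun k => c.mem 0 (Pi.single g (1 : ℂ)) c.size (c.out k))

/-- Amplification of gate `g`: a relative error made in gate `g` is amplified by this factor in
the outputs of a circuit for `lam` times the DFT (whose operator norm is `‖lam‖ * √n`). -/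
noncomputable def Circuit.amp (c : Circuit n) (lam : ℂ) (g : ℕ) : ℝ :=
  ‖c.form (g + 1) (n + g)‖ * ‖c.sens g‖ / (‖lam‖ * Real.sqrt n)

/-- Cancellation at an addition or subtraction gate: sum of the norms of the two linear forms it
reads, divided by the norm of the linear form it computes. -/
noncomputable def Circuit.canc (c : Circuit n) (g : ℕ) : ℝ :=
  match c.gate g with
  | .add i j => (‖c.form g i‖ + ‖c.form g j‖) / ‖c.form (g + 1) (n + g)‖
  | .sub i j => (‖c.form g i‖ + ‖c.form g j‖) / ‖c.form (g + 1) (n + g)‖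
  | .smul _ _ => 0

/-- The addition and subtraction gates. -/
noncomputable def Circuit.additions (c : Circuit n) : Finset ℕ := by
  classical
  exact (Finset.range c.size).filter (fun g => ∀ a i, c.gate g ≠ Gate.smul a i)

end Vale.Agent.P344.Stable

end

section

namespace Vale.Agent.P344.Stable

open Finset

/-- `t |log t| ≤ 1/e` on `[0,1]`, scaled. -/
lemma abs_mul_log_div_le {t m : ℝ} (ht : 0 ≤ t) (htm : t ≤ m) :
    |t * (Real.log t - Real.log m)| ≤ m / Real.exp 1 := by
  rcases ht.eq_or_lt with rfl | ht0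
  · simp only [zero_mul, abs_zero]
    exact div_nonneg htm (Real.exp_pos _).le
  have hm : 0 < m := lt_of_lt_of_le ht0 htm
  have h1 : Real.log t - Real.log m ≤ 0 := by
    have := Real.log_le_log ht0 htm
    linarith
  rw [abs_mul, abs_of_pos ht0, abs_of_nonpos h1]
  have h2 : Real.log (m / (t * Real.exp 1)) ≤ m / (t * Real.exp 1) - 1 :=
    Real.log_le_sub_one_of_pos (div_pos hm (mul_pos ht0 (Real.exp_pos _)))
  rw [Real.log_div hm.ne' (mul_pos ht0 (Real.exp_pos _)).ne',
    Real.log_mul ht0.ne' (Real.exp_pos _).ne', Real.log_exp] at h2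
  have h3 : -(Real.log t - Real.log m) ≤ m / (t * Real.exp 1) := by linarith
  calc t * -(Real.log t - Real.log m) ≤ t * (m / (t * Real.exp 1)) :=
        mul_le_mul_of_nonneg_left h3 ht0.le
    _ = m / Real.exp 1 := by
        field_simp

variable {n : ℕ}

/-- The Kalton-Peck map. -/
noncomputable def kp (w : EuclideanSpace ℂ (Fin n)) : EuclideanSpace ℂ (Fin n) :=
  WithLp.toLp 2 (fun j => ((Real.log ‖w j‖ - Real.log ‖w‖ : ℝ) : ℂ) * w j)

@[simp] lemma kp_apply (w : EuclideanSpace ℂ (Fin n)) (j : Fin n) :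
    kp w j = ((Real.log ‖w j‖ - Real.log ‖w‖ : ℝ) : ℂ) * w j := rfl

@[simp] lemma kp_zero : kp (0 : EuclideanSpace ℂ (Fin n)) = 0 := by
  ext j; simp

lemma kp_smul (a : ℂ) (w : EuclideanSpace ℂ (Fin n)) : kp (a • w) = a • kp w := by
  ext j
  simp only [kp_apply, PiLp.smul_apply, smul_eq_mul, norm_mul, norm_smul]
  by_cases ha : a = 0
  · simp [ha]
  by_cases hw : w j = 0
  · simp [hw]
  have hw' : w ≠ 0 := by
    rintro rfl
    simp at hw
  rw [Real.log_mul (norm_ne_zero_iff.mpr ha) (norm_ne_zero_iff.mpr hw),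
    Real.log_mul (norm_ne_zero_iff.mpr ha) (norm_ne_zero_iff.mpr hw')]
  push_cast
  ring

lemma kp_neg (w : EuclideanSpace ℂ (Fin n)) : kp (-w) = -kp w := by
  have := kp_smul (-1) w
  simpa using this

lemma norm_apply_le_norm (w : EuclideanSpace ℂ (Fin n)) (j : Fin n) : ‖w j‖ ≤ ‖w‖ := 
  PiLp.norm_apply_le w j

lemma norm_toLp_abs_le (a b : EuclideanSpace ℂ (Fin n)) :
    ‖(WithLp.toLp 2 (fun j => ‖a j‖ + ‖b j‖) : EuclideanSpace ℝ (Fin n))‖ ≤ ‖a‖ + ‖b‖ := by
  have h : (WithLp.toLp 2 (fun j => ‖a j‖ + ‖b j‖) : EuclideanSpace ℝ (Fin n)) =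
      WithLp.toLp 2 (fun j => ‖a j‖) + WithLp.toLp 2 (fun j => ‖b j‖) := by
    ext j; simp
  rw [h]
  refine (norm_add_le _ _).trans ?_
  apply le_of_eq
  congr 1
  · simp [EuclideanSpace.norm_eq]
  · simp [EuclideanSpace.norm_eq]

/-- Quasi-linearity of the Kalton-Peck map. -/
lemma norm_kp_add_sub_le (a b : EuclideanSpace ℂ (Fin n)) :
    ‖kp (a + b) - kp a - kp b‖ ≤ 6 / Real.exp 1 * (‖a‖ + ‖b‖) := by
  set M := ‖a‖ + ‖b‖ with hM
  have hE : 0 < Real.exp 1 := Real.exp_pos _
  -- pointwise part
  set P : EuclideanSpace ℂ (Fin n) := WithLp.toLp 2 (fun j =>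
    ((Real.log ‖(a + b) j‖ - Real.log (‖a j‖ + ‖b j‖) : ℝ) : ℂ) * (a + b) j
      - ((Real.log ‖a j‖ - Real.log (‖a j‖ + ‖b j‖) : ℝ) : ℂ) * a j
      - ((Real.log ‖b j‖ - Real.log (‖a j‖ + ‖b j‖) : ℝ) : ℂ) * b j) with hP
  set Q : EuclideanSpace ℂ (Fin n) :=
    ((Real.log ‖a + b‖ - Real.log M : ℝ) : ℂ) • (a + b)
      - ((Real.log ‖a‖ - Real.log M : ℝ) : ℂ) • a
      - ((Real.log ‖b‖ - Real.log M : ℝ) : ℂ) • b with hQ
  have hPQ : kp (a + b) - kp a - kp b = P - Q := by
    ext j
    simp only [hP, hQ, PiLp.sub_apply, kp_apply, PiLp.add_apply, PiLp.smul_apply, smul_eq_mul]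
    push_cast
    ring
  have key : ∀ (z : ℂ) (m : ℝ), ‖z‖ ≤ m →
      ‖((Real.log ‖z‖ - Real.log m : ℝ) : ℂ) * z‖ ≤ m / Real.exp 1 := by
    intro z m hz
    rw [norm_mul, Complex.norm_real, Real.norm_eq_abs, mul_comm]
    have := abs_mul_log_div_le (norm_nonneg z) hz
    rwa [abs_mul, abs_of_nonneg (norm_nonneg z)] at this
  have hPle : ‖P‖ ≤ 3 / Real.exp 1 * M := by
    have h1 : ∀ j, ‖P j‖ ≤ 3 / Real.exp 1 * (‖a j‖ + ‖b j‖) := by
      intro j
      have ha := key (a j) (‖a j‖ + ‖b j‖) (by linarith [norm_nonneg (b j)])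
      have hb := key (b j) (‖a j‖ + ‖b j‖) (by linarith [norm_nonneg (a j)])
      have hab := key ((a + b) j) (‖a j‖ + ‖b j‖) (by
        simpa using norm_add_le (a j) (b j))
      simp only [hP]
      refine (norm_sub_le _ _).trans ?_
      refine (add_le_add (norm_sub_le _ _) le_rfl).trans ?_
      have : 3 / Real.exp 1 * (‖a j‖ + ‖b j‖) = (‖a j‖ + ‖b j‖) / Real.exp 1 +
        (‖a j‖ + ‖b j‖) / Real.exp 1 + (‖a j‖ + ‖b j‖) / Real.exp 1 := by ring
      rw [this]
      exact add_le_add (add_le_add hab ha) hb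
    have h2 : ‖P‖ ≤ ‖(WithLp.toLp 2 (fun j => 3 / Real.exp 1 * (‖a j‖ + ‖b j‖)) :
        EuclideanSpace ℝ (Fin n))‖ := by
      rw [EuclideanSpace.norm_eq, EuclideanSpace.norm_eq]
      apply Real.sqrt_le_sqrt
      apply Finset.sum_le_sum
      intro j _
      apply pow_le_pow_left₀ (norm_nonneg _)
      refine (h1 j).trans ?_
      simp only [Real.norm_eq_abs]
      exact le_abs_self _
    refine h2.trans ?_
    have h3 : (WithLp.toLp 2 (fun j => 3 / Real.exp 1 * (‖a j‖ + ‖b j‖)) :
        EuclideanSpace ℝ (Fin n)) = (3 / Real.exp 1) •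
        WithLp.toLp 2 (fun j => ‖a j‖ + ‖b j‖) := by
      ext j; simp
    rw [h3, norm_smul, Real.norm_eq_abs, abs_of_nonneg (by positivity)]
    exact mul_le_mul_of_nonneg_left (norm_toLp_abs_le a b) (by positivity)
  have key2 : ∀ (z : EuclideanSpace ℂ (Fin n)) (m : ℝ), ‖z‖ ≤ m →
      ‖((Real.log ‖z‖ - Real.log m : ℝ) : ℂ) • z‖ ≤ m / Real.exp 1 := by
    intro z m hz
    rw [norm_smul, Complex.norm_real, Real.norm_eq_abs, mul_comm]
    have := abs_mul_log_div_le (norm_nonneg z) hz
    rwa [abs_mul, abs_of_nonneg (norm_nonneg z)] at this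
  have hQle : ‖Q‖ ≤ 3 / Real.exp 1 * M := by
    have ha := key2 a M (by simp only [hM]; linarith [norm_nonneg b])
    have hb := key2 b M (by simp only [hM]; linarith [norm_nonneg a])
    have hab := key2 (a + b) M (by simp only [hM]; exact norm_add_le a b)
    simp only [hQ]
    refine (norm_sub_le _ _).trans ?_
    refine (add_le_add (norm_sub_le _ _) le_rfl).trans ?_
    have : 3 / Real.exp 1 * M = M / Real.exp 1 + M / Real.exp 1 + M / Real.exp 1 := by ring
    rw [this]
    exact add_le_add (add_le_add hab ha) hb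
  rw [hPQ]
  refine (norm_sub_le _ _).trans ?_
  have : 6 / Real.exp 1 * M = 3 / Real.exp 1 * M + 3 / Real.exp 1 * M := by ring
  rw [this]
  exact add_le_add hPle hQle

end Vale.Agent.P344.Stable

end

section

namespace Vale.Agent.P344.Stable

open Finset

/-- The two-term bound behind quasi-linearity, in a normed space, with logarithmic dependence on
the cancellation: `A, B, C` are the logs of the sizes. -/
lemma log_defect_aux {E : Type*} [NormedAddCommGroup E] [NormedSpace ℂ E] (a b : E)
    (hc : a + b ≠ 0) :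
    ‖((Real.log ‖a + b‖ : ℝ) : ℂ) • (a + b) - ((Real.log ‖a‖ : ℝ) : ℂ) • a
      - ((Real.log ‖b‖ : ℝ) : ℂ) • b‖ ≤
      ‖a + b‖ * (1 + Real.log 2 + (Real.log (‖a‖ + ‖b‖) - Real.log ‖a + b‖)) := by
  wlog hab : ‖b‖ ≤ ‖a‖ generalizing a b with H
  · have := H b a (by rwa [add_comm]) (le_of_lt (not_le.mp hab))
    rw [add_comm b a, add_comm ‖b‖ ‖a‖] at this
    rw [sub_right_comm]
    exact this
  have hcpos : 0 < ‖a + b‖ := norm_pos_iff.mpr hc
  have hm : ‖a + b‖ ≤ ‖a‖ + ‖b‖ := norm_add_le a b
  have ha : 0 < ‖a‖ := by linarith [norm_nonneg b]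
  have hmpos : 0 < ‖a‖ + ‖b‖ := by linarith [norm_nonneg b]
  have hid : ((Real.log ‖a + b‖ : ℝ) : ℂ) • (a + b) - ((Real.log ‖a‖ : ℝ) : ℂ) • a
      - ((Real.log ‖b‖ : ℝ) : ℂ) • b =
      ((Real.log ‖a + b‖ - Real.log ‖a‖ : ℝ) : ℂ) • (a + b) +
      ((Real.log ‖a‖ - Real.log ‖b‖ : ℝ) : ℂ) • b := by
    push_cast
    module
  rw [hid]
  refine (norm_add_le _ _).trans ?_
  rw [norm_smul, norm_smul, Complex.norm_real, Complex.norm_real, Real.norm_eq_abs,
    Real.norm_eq_abs]
  have h1 : |Real.log ‖a + b‖ - Real.log ‖a‖| ≤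
      Real.log 2 + (Real.log (‖a‖ + ‖b‖) - Real.log ‖a + b‖) := by
    have hla : Real.log ‖a‖ ≤ Real.log (‖a‖ + ‖b‖) :=
      Real.log_le_log ha (by linarith [norm_nonneg b])
    have hlc : Real.log ‖a + b‖ ≤ Real.log (‖a‖ + ‖b‖) := Real.log_le_log hcpos hm
    have hl2 : Real.log (‖a‖ + ‖b‖) ≤ Real.log 2 + Real.log ‖a‖ := by
      rw [← Real.log_mul (by norm_num) ha.ne']
      exact Real.log_le_log hmpos (by linarith)
    have hl2' : 0 < Real.log 2 := Real.log_pos (by norm_num)
    rw [abs_le]
    constructor <;> linarith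
  have h2 : |Real.log ‖a‖ - Real.log ‖b‖| * ‖b‖ ≤ ‖a + b‖ := by
    rcases (norm_nonneg b).eq_or_lt with hb | hb
    · rw [← hb, mul_zero]; exact hcpos.le
    have hle : Real.log ‖b‖ ≤ Real.log ‖a‖ := Real.log_le_log hb hab
    rw [abs_of_nonneg (by linarith), ← Real.log_div ha.ne' hb.ne']
    have h3 : Real.log (‖a‖ / ‖b‖) ≤ ‖a‖ / ‖b‖ - 1 :=
      Real.log_le_sub_one_of_pos (div_pos ha hb)
    have h4 : ‖a‖ - ‖b‖ ≤ ‖a + b‖ := by
      have := norm_sub_norm_le a (-b)
      rw [norm_neg, sub_neg_eq_add] at this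
      exact this
    calc Real.log (‖a‖ / ‖b‖) * ‖b‖ ≤ (‖a‖ / ‖b‖ - 1) * ‖b‖ :=
          mul_le_mul_of_nonneg_right h3 hb.le
      _ = ‖a‖ - ‖b‖ := by field_simp
      _ ≤ _ := h4
  calc |Real.log ‖a + b‖ - Real.log ‖a‖| * ‖a + b‖ + |Real.log ‖a‖ - Real.log ‖b‖| * ‖b‖
      ≤ (Real.log 2 + (Real.log (‖a‖ + ‖b‖) - Real.log ‖a + b‖)) * ‖a + b‖ + ‖a + b‖ :=
        add_le_add (mul_le_mul_of_nonneg_right h1 hcpos.le) h2
    _ = _ := by ring

variable {n : ℕ}

lemma log_le_div_exp_one {x : ℝ} (hx : 0 < x) : Real.log x ≤ x / Real.exp 1 := by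
  have h := Real.log_le_sub_one_of_pos (div_pos hx (Real.exp_pos 1))
  rw [Real.log_div hx.ne' (Real.exp_pos 1).ne', Real.log_exp] at h
  linarith

/-- Quasi-linearity with logarithmic dependence on the cancellation. -/
lemma norm_kp_add_sub_le_log (a b : EuclideanSpace ℂ (Fin n)) (hc : a + b ≠ 0) :
    ‖kp (a + b) - kp a - kp b‖ ≤
      ‖a + b‖ * (2 * (1 + Real.log 2) + 1 / Real.exp 1 +
        2 * (Real.log (‖a‖ + ‖b‖) - Real.log ‖a + b‖)) := by
  have hE : 0 < Real.exp 1 := Real.exp_pos _
  have hcpos : 0 < ‖a + b‖ := norm_pos_iff.mpr hc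
  set M := ‖a‖ + ‖b‖ with hM
  have hMc : ‖a + b‖ ≤ M := norm_add_le a b
  have hMpos : 0 < M := lt_of_lt_of_le hcpos hMc
  set P : EuclideanSpace ℂ (Fin n) := WithLp.toLp 2 (fun j =>
    ((Real.log ‖(a + b) j‖ : ℝ) : ℂ) * (a + b) j
      - ((Real.log ‖a j‖ : ℝ) : ℂ) * a j
      - ((Real.log ‖b j‖ : ℝ) : ℂ) * b j) with hP
  set Q : EuclideanSpace ℂ (Fin n) :=
    ((Real.log ‖a + b‖ : ℝ) : ℂ) • (a + b)
      - ((Real.log ‖a‖ : ℝ) : ℂ) • a
      - ((Real.log ‖b‖ : ℝ) : ℂ) • b with hQ
  have hPQ : kp (a + b) - kp a - kp b = P - Q := by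
    ext j
    simp only [hP, hQ, PiLp.sub_apply, kp_apply, PiLp.add_apply, PiLp.smul_apply, smul_eq_mul]
    push_cast
    ring
  have hQle : ‖Q‖ ≤ ‖a + b‖ * (1 + Real.log 2 + (Real.log M - Real.log ‖a + b‖)) :=
    log_defect_aux a b hc
  set lam : ℝ := M / ‖a + b‖ with hlam
  have hlampos : 0 < lam := div_pos hMpos hcpos
  have hlam1 : 1 ≤ lam := (one_le_div hcpos).mpr hMc
  have hloglam : Real.log lam = Real.log M - Real.log ‖a + b‖ :=
    Real.log_div hMpos.ne' hcpos.ne'
  have hPj : ∀ j, ‖P j‖ ≤ ‖(a + b) j‖ * (1 + Real.log 2 + Real.log lam) +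
      (1 / (Real.exp 1 * lam)) * (‖a j‖ + ‖b j‖) := by
    intro j
    have hl2 : 0 < Real.log 2 := Real.log_pos (by norm_num)
    have hnn : 0 ≤ (1 / (Real.exp 1 * lam)) * (‖a j‖ + ‖b j‖) := by positivity
    by_cases hcj : (a + b) j = 0
    · have hb : b j = -a j := by
        have : a j + b j = 0 := by simpa using hcj
        linear_combination this
      have hPz : P j = 0 := by
        simp only [hP, hcj, hb]
        simp
      rw [hPz, norm_zero]
      have : 0 ≤ Real.log lam := Real.log_nonneg hlam1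
      positivity
    · have hcj' : a j + b j ≠ 0 := by simpa using hcj
      have h1 := log_defect_aux (a j) (b j) hcj'
      have h1' : ‖P j‖ ≤ ‖a j + b j‖ * (1 + Real.log 2 +
          (Real.log (‖a j‖ + ‖b j‖) - Real.log ‖a j + b j‖)) := by
        simpa [hP, smul_eq_mul] using h1
      refine h1'.trans ?_
      have hcjpos : 0 < ‖a j + b j‖ := norm_pos_iff.mpr hcj'
      have hmj : ‖a j + b j‖ ≤ ‖a j‖ + ‖b j‖ := norm_add_le _ _
      have hmjpos : 0 < ‖a j‖ + ‖b j‖ := lt_of_lt_of_le hcjpos hmj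
      have h2 : Real.log (‖a j‖ + ‖b j‖) - Real.log ‖a j + b j‖ ≤
          Real.log lam + (‖a j‖ + ‖b j‖) / ‖a j + b j‖ / lam / Real.exp 1 := by
        have h3 := log_le_div_exp_one
          (div_pos (div_pos hmjpos hcjpos) hlampos)
        rw [Real.log_div (div_pos hmjpos hcjpos).ne' hlampos.ne',
          Real.log_div hmjpos.ne' hcjpos.ne'] at h3
        linarith
      have hco : (a + b) j = a j + b j := rfl
      rw [hco]
      calc ‖a j + b j‖ * (1 + Real.log 2 +
          (Real.log (‖a j‖ + ‖b j‖) - Real.log ‖a j + b j‖))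
          ≤ ‖a j + b j‖ * (1 + Real.log 2 +
            (Real.log lam + (‖a j‖ + ‖b j‖) / ‖a j + b j‖ / lam / Real.exp 1)) := by
            apply mul_le_mul_of_nonneg_left _ hcjpos.le
            linarith
        _ = _ := by
            field_simp
            ring
  have hPle : ‖P‖ ≤ ‖a + b‖ * (1 + Real.log 2 + Real.log lam) +
      (1 / (Real.exp 1 * lam)) * M := by
    have hloglam0 : 0 ≤ Real.log lam := Real.log_nonneg hlam1
    have hl2 : 0 < Real.log 2 := Real.log_pos (by norm_num)
    set v1 : EuclideanSpace ℝ (Fin n) := WithLp.toLp 2 (fun j => ‖(a + b) j‖) with hv1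
    set v2 : EuclideanSpace ℝ (Fin n) := WithLp.toLp 2 (fun j => ‖a j‖ + ‖b j‖) with hv2
    have h2 : ‖P‖ ≤ ‖(1 + Real.log 2 + Real.log lam) • v1 +
        (1 / (Real.exp 1 * lam)) • v2‖ := by
      rw [EuclideanSpace.norm_eq, EuclideanSpace.norm_eq]
      apply Real.sqrt_le_sqrt
      apply Finset.sum_le_sum
      intro j _
      apply pow_le_pow_left₀ (norm_nonneg _)
      refine (hPj j).trans ?_
      simp only [hv1, hv2, PiLp.add_apply, PiLp.smul_apply, smul_eq_mul, Real.norm_eq_abs]
      refine le_trans (le_of_eq ?_) (le_abs_self _)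
      ring
    refine h2.trans ((norm_add_le _ _).trans ?_)
    rw [norm_smul, norm_smul, Real.norm_eq_abs, Real.norm_eq_abs,
      abs_of_nonneg (by positivity), abs_of_nonneg (by positivity)]
    have hv1n : ‖v1‖ = ‖a + b‖ := by
      simp [hv1, EuclideanSpace.norm_eq]
    rw [hv1n, mul_comm]
    apply add_le_add le_rfl
    exact mul_le_mul_of_nonneg_left (norm_toLp_abs_le a b) (by positivity)
  have hlast : (1 / (Real.exp 1 * lam)) * M = ‖a + b‖ * (1 / Real.exp 1) := by
    rw [hlam]
    field_simp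
  rw [hPQ]
  refine (norm_sub_le _ _).trans ((add_le_add hPle hQle).trans (le_of_eq ?_))
  rw [hlast, hloglam]
  ring

end Vale.Agent.P344.Stable

end

section

namespace Vale.Agent.P344.Stable

open Finset

variable {n : ℕ}

lemma norm_row (k : Fin n) : ‖row n k‖ = Real.sqrt n := by
  rw [EuclideanSpace.norm_eq]
  simp [norm_row_apply]

/-- Running the circuit on the unit vectors gives the forms. -/
lemma mem_single_eq_form (c : Circuit n) (t i : ℕ) :
    c.mem (fun j => EuclideanSpace.single j (1 : ℂ)) 0 t i = c.form t i := by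
  rw [Circuit.mem_eq_sum]
  ext j
  simp only [Circuit.form, Pi.zero_apply, smul_zero, sum_const_zero, add_zero, WithLp.ofLp_sum,
    WithLp.ofLp_smul, Finset.sum_apply, Pi.smul_apply, smul_eq_mul]
  rw [sum_eq_single j]
  · simp
  · intro b _ hb
    simp [Ne.symm hb]
  · simp

/-- failure of the Kalton-Peck map to commute with gate `g` -/
noncomputable def defect (c : Circuit n) (g : ℕ) : EuclideanSpace ℂ (Fin n) :=
  kp ((c.gate g).apply (c.form g)) - (c.gate g).apply (fun i => kp (c.form g i))

lemma apply_form (c : Circuit n) (g : ℕ) :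
    (c.gate g).apply (c.form g) = c.form (g + 1) (n + g) := by
  have h : c.form (g + 1) (n + g) =
      c.mem (fun j => EuclideanSpace.single j (1 : ℂ)) 0 (g + 1) (n + g) :=
    (mem_single_eq_form c (g + 1) (n + g)).symm
  rw [h, Circuit.mem_succ, if_pos rfl]
  have e1 : c.mem (fun j => EuclideanSpace.single j (1 : ℂ)) 0 g = c.form g :=
    funext (fun i => mem_single_eq_form c g i)
  rw [e1]
  simp

lemma defect_smul (c : Circuit n) (g : ℕ) (a : ℂ) (i : ℕ) (hg : c.gate g = Gate.smul a i) :
    defect c g = 0 := by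
  simp [defect, hg, Gate.apply, kp_smul]

lemma norm_defect_le (c : Circuit n) (g : ℕ) (hg : ∀ a i, c.gate g ≠ Gate.smul a i) :
    ‖defect c g‖ ≤ ‖c.form (g + 1) (n + g)‖ * (2 * (1 + Real.log 2) + 1 / Real.exp 1 +
        2 * Real.log (c.canc g)) := by
  have key : ∀ a b : EuclideanSpace ℂ (Fin n), ‖kp (a + b) - kp a - kp b‖ ≤
      ‖a + b‖ * (2 * (1 + Real.log 2) + 1 / Real.exp 1 +
        2 * Real.log ((‖a‖ + ‖b‖) / ‖a + b‖)) := by
    intro a b
    by_cases hab : a + b = 0
    · have hb : b = -a := by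
        rw [eq_neg_iff_add_eq_zero, add_comm]; exact hab
      rw [hab, norm_zero, zero_mul, hb, kp_neg]
      simp
    · have h := norm_kp_add_sub_le_log a b hab
      have h1 : 0 < ‖a + b‖ := norm_pos_iff.mpr hab
      have h2 : 0 < ‖a‖ + ‖b‖ := lt_of_lt_of_le h1 (norm_add_le a b)
      rwa [Real.log_div h2.ne' h1.ne']
  have hform := apply_form c g
  unfold defect Circuit.canc
  rw [← hform]
  cases hcg : c.gate g with
  | add i j =>
    simp only [Gate.apply]
    have := key (c.form g i) (c.form g j)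
    rwa [sub_sub] at this
  | sub i j =>
    simp only [Gate.apply]
    have := key (c.form g i) (-c.form g j)
    rw [kp_neg, sub_neg_eq_add, norm_neg, ← sub_eq_add_neg] at this
    rw [show kp (c.form g i - c.form g j) - (kp (c.form g i) - kp (c.form g j)) =
      kp (c.form g i - c.form g j) - kp (c.form g i) + kp (c.form g j) by abel]
    exact this
  | smul a i => exact absurd hcg (hg a i)

lemma kp_single (j : Fin n) : kp (EuclideanSpace.single j (1 : ℂ)) = 0 := by
  ext i
  simp only [kp_apply, PiLp.single_apply, PiLp.norm_single, norm_one,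
    Real.log_one, PiLp.zero_apply]
  split_ifs <;> simp

lemma kp_form_eq (c : Circuit n) (i : ℕ) :
    kp (c.form c.size i) =
      ∑ g ∈ range c.size, c.mem (M := ℂ) 0 (Pi.single g 1) c.size i • defect c g := by
  have h := c.mem_map kp kp_zero (fun j => EuclideanSpace.single j (1 : ℂ)) c.size i
  rw [mem_single_eq_form, Circuit.mem_eq_sum] at h
  simp only [kp_single, smul_zero, sum_const_zero, zero_add] at h
  rw [← h]
  apply sum_congr rfl
  intro g _
  rw [defect]
  have e1 : c.mem (fun j => EuclideanSpace.single j (1 : ℂ)) 0 g = c.form g :=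
    funext (fun i => mem_single_eq_form c g i)
  rw [e1]

lemma form_out_eq {c : Circuit n} {lam : ℂ} (hc : c.ComputesDFT lam) (k : Fin n) :
    c.form c.size (c.out k) = lam • row n k := by
  ext j
  have := hc (Pi.single j 1) k
  simp only [Circuit.form, PiLp.smul_apply, smul_eq_mul, row_apply]
  rw [this]
  congr 1
  rw [sum_eq_single j]
  · simp
  · intro b _ hb
    rw [Pi.single_apply, if_neg hb, mul_zero]
  · simp

lemma kp_row (k : Fin n) :
    kp (row n k) = ((-(Real.log n / 2) : ℝ) : ℂ) • row n k := by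
  ext j
  rw [kp_apply, norm_row_apply, norm_row, Real.log_one, PiLp.smul_apply, smul_eq_mul,
    Real.log_sqrt (Nat.cast_nonneg n), zero_sub]

/-- the key matrix identity -/
lemma key_identity {c : Circuit n} {lam : ℂ} (hc : c.ComputesDFT lam) (k : Fin n) :
    (lam * ((-(Real.log n / 2) : ℝ) : ℂ)) • row n k =
      ∑ g ∈ range c.size, c.sens g k • defect c g := by
  have h := kp_form_eq c (c.out k)
  rw [form_out_eq hc, kp_smul, kp_row, smul_smul] at h
  rw [h]
  rfl

end Vale.Agent.P344.Stable

end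

section

namespace Vale.Agent.P344.Stable

open Finset

variable {n : ℕ}

/-- Bessel's inequality for the transformed orthonormal family. -/
lemma bessel_tr (hn : n ≠ 0) {ι : Type*} [Fintype ι] {u : ι → EuclideanSpace ℂ (Fin n)}
    (hu : Orthonormal ℂ u) (z : EuclideanSpace ℂ (Fin n)) :
    ∑ i, ‖inner ℂ (tr (u i)) z‖ ^ 2 ≤ n * ‖z‖ ^ 2 := by
  classical
  have hn0 : (0 : ℝ) < n := by exact_mod_cast Nat.pos_of_ne_zero hn
  have hs : (Real.sqrt n) ≠ 0 := (Real.sqrt_pos.mpr hn0).ne'
  have hsC : ((Real.sqrt n : ℝ) : ℂ) ≠ 0 := by exact_mod_cast hs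
  have hss : ((Real.sqrt n : ℝ) : ℂ) * ((Real.sqrt n : ℝ) : ℂ) = (n : ℂ) := by
    rw [← Complex.ofReal_mul, Real.mul_self_sqrt hn0.le]
    simp
  have hv : Orthonormal ℂ (fun i => (((Real.sqrt n : ℝ) : ℂ)⁻¹) • tr (u i)) := by
    rw [orthonormal_iff_ite]
    intro i j
    rw [inner_smul_left, inner_smul_right, inner_tr_tr hn, map_inv₀, Complex.conj_ofReal,
      ← hss, orthonormal_iff_ite.mp hu j i]
    by_cases hij : i = j
    · subst hij
      simp only [if_true, mul_one]
      field_simp
    · rw [if_neg hij, if_neg (Ne.symm hij)]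
      simp
  have hb := hv.sum_inner_products_le z (s := Finset.univ)
  have : ∀ i, ‖inner ℂ ((((Real.sqrt n : ℝ) : ℂ)⁻¹) • tr (u i)) z‖ ^ 2 =
      (n : ℝ)⁻¹ * ‖inner ℂ (tr (u i)) z‖ ^ 2 := by
    intro i
    rw [inner_smul_left, norm_mul, mul_pow, map_inv₀, Complex.conj_ofReal, norm_inv,
      Complex.norm_real, Real.norm_eq_abs, inv_pow, sq_abs, Real.sq_sqrt hn0.le]
  rw [sum_congr rfl (fun i _ => this i), ← mul_sum, inv_mul_le_iff₀ hn0] at hb
  exact hb

/-- The main inequality before inserting the bound for the defects. -/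
lemma main_defect (hn : n ≠ 0) {c : Circuit n} {lam : ℂ} (hc : c.ComputesDFT lam)
    (W : Finset ℕ) :
    ‖lam‖ * Real.sqrt n * ((n : ℝ) - W.card) * (Real.log n / 2) ≤
      ∑ g ∈ range c.size \ W, ‖defect c g‖ * ‖c.sens g‖ := by
  classical
  have hn0 : (0 : ℝ) < n := by exact_mod_cast Nat.pos_of_ne_zero hn
  have hsq : 0 < Real.sqrt n := Real.sqrt_pos.mpr hn0
  have hlog : 0 ≤ Real.log n := Real.log_natCast_nonneg n
  set S : Submodule ℂ (EuclideanSpace ℂ (Fin n)) :=
    Submodule.span ℂ ((W.image (defect c) : Finset _) : Set (EuclideanSpace ℂ (Fin n))) with hS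
  have hSdim : Module.finrank ℂ S ≤ W.card :=
    (finrank_span_finset_le_card _).trans card_image_le
  set d := Module.finrank ℂ Sᗮ with hd
  have hdim : (n : ℝ) - W.card ≤ d := by
    have h1 := Submodule.finrank_add_finrank_orthogonal S
    rw [finrank_euclideanSpace_fin] at h1
    have h2 : (n : ℝ) = Module.finrank ℂ S + d := by exact_mod_cast h1.symm
    have h3 : (Module.finrank ℂ S : ℝ) ≤ W.card := by exact_mod_cast hSdim
    linarith
  set b := stdOrthonormalBasis ℂ Sᗮ with hb
  set u : Fin d → EuclideanSpace ℂ (Fin n) := fun i => (b i : EuclideanSpace ℂ (Fin n)) with hu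
  have huo : Orthonormal ℂ u := by
    have := b.orthonormal.comp_linearIsometry (Sᗮ).subtypeₗᵢ
    exact this
  have huW : ∀ i, ∀ g ∈ W, inner ℂ (u i) (defect c g) = 0 := by
    intro i g hg
    have h1 : (u i) ∈ Sᗮ := (b i).2
    have h2 : defect c g ∈ S := Submodule.subset_span (by
      rw [coe_image]
      exact ⟨g, hg, rfl⟩)
    exact Submodule.inner_left_of_mem_orthogonal h2 h1
  -- each basis vector
  have hi : ∀ i, ‖lam‖ * (Real.log n / 2) * n ≤
      ∑ g ∈ range c.size \ W, ‖inner ℂ (u i) (defect c g)‖ * ‖inner ℂ (tr (u i)) (c.sens g)‖ := by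
    intro i
    have h1 : (lam * ((-(Real.log n / 2) : ℝ) : ℂ)) • tr (u i) =
        ∑ g ∈ range c.size, (inner ℂ (u i) (defect c g)) • c.sens g := by
      ext k
      simp only [PiLp.smul_apply, smul_eq_mul, tr_apply, WithLp.ofLp_sum, WithLp.ofLp_smul,
        Finset.sum_apply, Pi.smul_apply]
      have := key_identity hc k
      rw [← inner_smul_right, this, inner_sum]
      apply sum_congr rfl
      intro g _
      rw [inner_smul_right, mul_comm]
    have h2 : (lam * ((-(Real.log n / 2) : ℝ) : ℂ)) * n =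
        ∑ g ∈ range c.size, inner ℂ (u i) (defect c g) * inner ℂ (tr (u i)) (c.sens g) := by
      have h3 := congrArg (fun v => inner ℂ (tr (u i)) v) h1
      simp only [inner_smul_right, inner_sum] at h3
      rw [← h3, inner_tr_tr hn, orthonormal_iff_ite.mp huo i i, if_pos rfl, mul_one]
    have h4 : ‖(lam * ((-(Real.log n / 2) : ℝ) : ℂ)) * n‖ = ‖lam‖ * (Real.log n / 2) * n := by
      rw [norm_mul, norm_mul, Complex.norm_real, Real.norm_eq_abs, abs_neg,
        abs_of_nonneg (by linarith), Complex.norm_natCast]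
    rw [← h4, h2]
    have h5 : ∑ g ∈ range c.size, inner ℂ (u i) (defect c g) * inner ℂ (tr (u i)) (c.sens g) =
        ∑ g ∈ range c.size \ W,
          inner ℂ (u i) (defect c g) * inner ℂ (tr (u i)) (c.sens g) := by
      symm
      apply sum_subset sdiff_subset
      intro g hg hg'
      have : g ∈ W := by
        by_contra h
        exact hg' (mem_sdiff.mpr ⟨hg, h⟩)
      rw [huW i g this, zero_mul]
    rw [h5]
    refine (norm_sum_le _ _).trans (le_of_eq ?_)
    apply sum_congr rfl
    intro g _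
    rw [norm_mul]
  have hsum : (d : ℝ) * (‖lam‖ * (Real.log n / 2) * n) ≤
      Real.sqrt n * ∑ g ∈ range c.size \ W, ‖defect c g‖ * ‖c.sens g‖ := by
    have h1 := Finset.sum_le_sum (s := (Finset.univ : Finset (Fin d))) (fun i _ => hi i)
    rw [sum_const, card_univ, Fintype.card_fin, nsmul_eq_mul, sum_comm] at h1
    refine h1.trans ?_
    rw [mul_sum]
    apply sum_le_sum
    intro g _
    refine (Real.sum_mul_le_sqrt_mul_sqrt _ _ _).trans ?_
    have hA : Real.sqrt (∑ i, ‖inner ℂ (u i) (defect c g)‖ ^ 2) ≤ ‖defect c g‖ := by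
      rw [Real.sqrt_le_left (norm_nonneg _)]
      exact huo.sum_inner_products_le _
    have hB : Real.sqrt (∑ i, ‖inner ℂ (tr (u i)) (c.sens g)‖ ^ 2) ≤
        Real.sqrt n * ‖c.sens g‖ := by
      rw [Real.sqrt_le_left (by positivity), mul_pow, Real.sq_sqrt hn0.le]
      exact bessel_tr hn huo _
    calc _ ≤ ‖defect c g‖ * (Real.sqrt n * ‖c.sens g‖) :=
          mul_le_mul hA hB (Real.sqrt_nonneg _) (norm_nonneg _)
      _ = _ := by ring
  have hfin : Real.sqrt n * (‖lam‖ * Real.sqrt n * d * (Real.log n / 2)) ≤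
      Real.sqrt n * ∑ g ∈ range c.size \ W, ‖defect c g‖ * ‖c.sens g‖ := by
    refine le_trans (le_of_eq ?_) hsum
    have : Real.sqrt n * Real.sqrt n = n := Real.mul_self_sqrt hn0.le
    calc _ = (Real.sqrt n * Real.sqrt n) * (‖lam‖ * d * (Real.log n / 2)) := by ring
      _ = _ := by rw [this]; ring
  have hfin' := le_of_mul_le_mul_left hfin hsq
  refine le_trans ?_ hfin'
  apply mul_le_mul_of_nonneg_right _ (by linarith)
  exact mul_le_mul_of_nonneg_left hdim (by positivity)

lemma mem_additions {c : Circuit n} {g : ℕ} :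
    g ∈ c.additions ↔ g < c.size ∧ ∀ a i, c.gate g ≠ Gate.smul a i := by
  classical
  simp [Circuit.additions]

/-- weighted form, for an arbitrary exceptional set -/
theorem stable_weighted (hn : n ≠ 0) {c : Circuit n} {lam : ℂ} (hlam : lam ≠ 0)
    (hc : c.ComputesDFT lam) (W : Finset ℕ) :
    ((n : ℝ) - W.card) * Real.logb 2 n ≤
      ∑ g ∈ c.additions \ W, c.amp lam g * (11 + 4 * Real.logb 2 (c.canc g)) := by
  classical
  have h1 := main_defect hn hc W
  have hn0 : (0 : ℝ) < n := by exact_mod_cast Nat.pos_of_ne_zero hn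
  have hP : 0 < ‖lam‖ * Real.sqrt n := mul_pos (norm_pos_iff.mpr hlam) (Real.sqrt_pos.mpr hn0)
  have h2 : ∑ g ∈ range c.size \ W, ‖defect c g‖ * ‖c.sens g‖ =
      ∑ g ∈ c.additions \ W, ‖defect c g‖ * ‖c.sens g‖ := by
    symm
    apply sum_subset
    · intro g hg
      rw [mem_sdiff, mem_additions] at hg
      rw [mem_sdiff, mem_range]
      exact ⟨hg.1.1, hg.2⟩
    · intro g hg hg'
      rw [mem_sdiff, mem_range] at hg
      have : ∃ a i, c.gate g = Gate.smul a i := by
        by_contra hcon
        push Not at hcon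
        exact hg' (mem_sdiff.mpr ⟨mem_additions.mpr ⟨hg.1, hcon⟩, hg.2⟩)
      obtain ⟨a, i, hai⟩ := this
      rw [defect_smul c g a i hai, norm_zero, zero_mul]
  have hl2 : 0 < Real.log 2 := Real.log_pos (by norm_num)
  have h3 : ∑ g ∈ c.additions \ W, ‖defect c g‖ * ‖c.sens g‖ ≤
      ∑ g ∈ c.additions \ W, (‖lam‖ * Real.sqrt n) * (Real.log 2 / 2) *
        (c.amp lam g * (11 + 4 * Real.logb 2 (c.canc g))) := by
    apply sum_le_sum
    intro g hg
    have hg' := (mem_additions.mp (mem_sdiff.mp hg).1).2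
    have h4 := norm_defect_le c g hg'
    have hconst : 2 * (1 + Real.log 2) + 1 / Real.exp 1 ≤ Real.log 2 / 2 * 11 := by
      have he := Real.exp_one_gt_d9
      have hl := Real.log_two_gt_d9
      have hE : 1 / Real.exp 1 ≤ 1 / 2.7182818283 :=
        one_div_le_one_div_of_le (by norm_num) he.le
      norm_num at hE
      rw [one_div]
      linarith
    have h5 : ‖defect c g‖ ≤ ‖c.form (g + 1) (n + g)‖ *
        (Real.log 2 / 2 * (11 + 4 * Real.logb 2 (c.canc g))) := by
      refine h4.trans (mul_le_mul_of_nonneg_left ?_ (norm_nonneg _))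
      have h6 : Real.log 2 / 2 * (11 + 4 * Real.logb 2 (c.canc g)) =
          Real.log 2 / 2 * 11 + 2 * Real.log (c.canc g) := by
        rw [Real.logb]
        field_simp
        ring
      rw [h6]
      linarith
    calc ‖defect c g‖ * ‖c.sens g‖ ≤ ‖c.form (g + 1) (n + g)‖ *
        (Real.log 2 / 2 * (11 + 4 * Real.logb 2 (c.canc g))) * ‖c.sens g‖ :=
          mul_le_mul_of_nonneg_right h5 (norm_nonneg _)
      _ = _ := by
        unfold Circuit.amp
        field_simp
  rw [h2] at h1
  have h7 := h1.trans h3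
  rw [← mul_sum] at h7
  have h8 : (‖lam‖ * Real.sqrt n) * (Real.log 2 / 2) * (((n : ℝ) - W.card) * Real.logb 2 n) ≤
      (‖lam‖ * Real.sqrt n) * (Real.log 2 / 2) *
      ∑ g ∈ c.additions \ W, c.amp lam g * (11 + 4 * Real.logb 2 (c.canc g)) := by
    refine le_trans (le_of_eq ?_) h7
    rw [Real.logb]
    field_simp
  exact le_of_mul_le_mul_left h8 (by positivity)

/-- the `min` form -/
theorem stable_min (hn : n ≠ 0) {c : Circuit n} {lam : ℂ} (hlam : lam ≠ 0)
    (hc : c.ComputesDFT lam) :
    n * Real.logb 2 n ≤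
      ∑ g ∈ c.additions, min (Real.logb 2 n)
        (c.amp lam g * (11 + 4 * Real.logb 2 (c.canc g))) := by
  classical
  set work : ℕ → ℝ := fun g => c.amp lam g * (11 + 4 * Real.logb 2 (c.canc g)) with hwork
  set W := c.additions.filter (fun g => Real.logb 2 n < work g) with hW
  have h := stable_weighted hn hlam hc W
  have hsplit : ∑ g ∈ c.additions, min (Real.logb 2 n) (work g) =
      ∑ g ∈ c.additions \ W, work g + W.card * Real.logb 2 n := by
    have hsub : W ⊆ c.additions := filter_subset _ _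
    rw [← sum_sdiff hsub]
    congr 1
    · apply sum_congr rfl
      intro g hg
      rw [mem_sdiff] at hg
      apply min_eq_right
      by_contra hcon
      push Not at hcon
      exact hg.2 (mem_filter.mpr ⟨hg.1, hcon⟩)
    · rw [← nsmul_eq_mul, ← sum_const]
      apply sum_congr rfl
      intro g hg
      exact min_eq_left (mem_filter.mp hg).2.le
  rw [hsplit]
  have : (n : ℝ) * Real.logb 2 n = ((n : ℝ) - W.card) * Real.logb 2 n +
    W.card * Real.logb 2 n := by ring
  rw [this]
  linarith

lemma amp_nonneg (c : Circuit n) (lam : ℂ) (g : ℕ) : 0 ≤ c.amp lam g := by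
  unfold Circuit.amp
  positivity

/-- An addition with nonzero result has cancellation at least one. -/
lemma one_le_canc {c : Circuit n} {g : ℕ} (hg : ∀ a i, c.gate g ≠ Gate.smul a i)
    (h0 : c.form (g + 1) (n + g) ≠ 0) : 1 ≤ c.canc g := by
  have hform := apply_form c g
  have hpos : 0 < ‖c.form (g + 1) (n + g)‖ := norm_pos_iff.mpr h0
  unfold Circuit.canc
  cases hcg : c.gate g with
  | add i j =>
    simp only
    rw [one_le_div hpos, ← hform, hcg]
    exact norm_add_le _ _
  | sub i j =>
    simp only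
    rw [one_le_div hpos, ← hform, hcg]
    exact norm_sub_le _ _
  | smul a i => exact absurd hcg (hg a i)

theorem stable_RK (hn : n ≠ 0) {c : Circuit n} {lam : ℂ} (hlam : lam ≠ 0)
    (hc : c.ComputesDFT lam) (W : Finset ℕ) (R K : ℝ) (hR : 0 ≤ R) (hK : 1 ≤ K)
    (h : ∀ g ∈ c.additions, g ∉ W → c.amp lam g ≤ R ∧ c.canc g ≤ K) :
    ((n : ℝ) - W.card) * Real.logb 2 n ≤ R * (11 + 4 * Real.logb 2 K) * c.additions.card := by
  classical
  refine (stable_weighted hn hlam hc W).trans ?_
  have hKlog : 0 ≤ Real.logb 2 K := Real.logb_nonneg (by norm_num) hK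
  have h1 : ∀ g ∈ c.additions \ W, c.amp lam g * (11 + 4 * Real.logb 2 (c.canc g)) ≤
      R * (11 + 4 * Real.logb 2 K) := by
    intro g hg
    have hg1 := (mem_sdiff.mp hg).1
    have hg2 := h g hg1 (mem_sdiff.mp hg).2
    by_cases h0 : c.form (g + 1) (n + g) = 0
    · have : c.amp lam g = 0 := by
        unfold Circuit.amp
        rw [h0]
        simp
      rw [this, zero_mul]
      positivity
    · have hc1 := one_le_canc (mem_additions.mp hg1).2 h0
      have h2 : Real.logb 2 (c.canc g) ≤ Real.logb 2 K :=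
        Real.logb_le_logb_of_le (by norm_num) (by linarith) hg2.2
      have h3 : 0 ≤ Real.logb 2 (c.canc g) := Real.logb_nonneg (by norm_num) hc1
      apply mul_le_mul hg2.1 (by linarith) (by linarith) hR
  refine (sum_le_sum h1).trans ?_
  rw [sum_const, nsmul_eq_mul, mul_comm]
  apply mul_le_mul_of_nonneg_left _ (by positivity)
  have h4 : (c.additions \ W).card ≤ c.additions.card := card_le_card sdiff_subset
  exact_mod_cast h4

end Vale.Agent.P344.Stable

end

section

namespace Vale.Agent.P344.Comb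

open Vale.Agent.P344 Finset

variable {n : ℕ}

/-- run with an error at gate `t` -/
lemma mem_err_eq (P : List Gate) (out : Fin n → ℕ) (t : ℕ) (ht : t < P.length) (s : ℕ)
    (hs : t + 1 + s ≤ P.length) (i : ℕ) :
    (trC n P out).mem (M := ℂ) 0 (Pi.single t 1) (t + 1 + s) i =
      (run ((P.drop (t + 1)).take s) (List.replicate (n + t) 0 ++ [1])).getD i 0 := by
  induction s generalizing i with
  | zero =>
    rw [Nat.add_zero, Stable.Circuit.mem_succ, Stable.Circuit.mem_single_early _ _ _ _ le_rfl,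
      Stable.Gate.apply_zero, List.take_zero]
    show _ = (List.replicate (n + t) (0 : ℂ) ++ [1]).getD i 0
    split_ifs with h
    · rw [h, List.getD_append_right _ _ _ _ (by simp)]
      simp
    · rcases lt_or_ge i (n + t) with h5 | h5
      · rw [List.getD_append _ _ _ _ (by simpa using h5), List.getD_eq_getElem _ _ (by simpa using h5)]
        simp
      · rw [List.getD_eq_default _ _ (by simp; omega)]
  | succ s ih =>
    have hs' : t + 1 + s < P.length := hs
    have ih' := fun i => ih hs'.le i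
    rw [← Nat.add_assoc, Stable.Circuit.mem_succ]
    have h1 : (P.drop (t + 1)).take (s + 1) =
        (P.drop (t + 1)).take s ++ [P.getD (t + 1 + s) (Gate.smul 0 0)] := by
      rw [List.take_add_one, List.getElem?_drop, List.getElem?_eq_getElem hs',
        List.getD_eq_getElem _ _ hs']
      rfl
    rw [h1, run_append]
    have h2 : (run ((P.drop (t + 1)).take s) (List.replicate (n + t) 0 ++ [1])).length =
        n + (t + 1 + s) := by
      rw [run_length, List.length_append, List.length_replicate, List.length_singleton,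
        List.length_take, List.length_drop, min_eq_left (by omega)]
      omega
    have h3 : (trC n P out).gate (t + 1 + s) = tr (P.getD (t + 1 + s) (Gate.smul 0 0)) := rfl
    have ih'' : (trC n P out).mem (M := ℂ) 0 (Pi.single t 1) (t + 1 + s) = fun i =>
        (run ((P.drop (t + 1)).take s) (List.replicate (n + t) 0 ++ [1])).getD i 0 := funext ih'
    rw [h3, ih'']
    generalize P.getD (t + 1 + s) (Gate.smul 0 0) = g
    generalize run ((P.drop (t + 1)).take s) (List.replicate (n + t) 0 ++ [1]) = v at h2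
    have h4 : run [g] v = v ++ [g.val v] := rfl
    rw [h4]
    split_ifs with h
    · rw [h, List.getD_append_right _ _ _ _ (by omega), h2]
      have h6 : ([g.val v] : List ℂ).getD (n + (t + 1 + s) - (n + (t + 1 + s))) 0 = g.val v := by
        rw [Nat.sub_self]; rfl
      have h7 : (Pi.single t (1 : ℂ) : ℕ → ℂ) (t + 1 + s) = 0 := by
        rw [Pi.single_apply, if_neg (by omega)]
      rw [h6, h7, add_zero]
      cases g <;> rfl
    · show v.getD i 0 = (v ++ [g.val v]).getD i 0
      rcases lt_or_ge i (n + (t + 1 + s)) with h5 | h5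
      · rw [List.getD_append _ _ _ _ (by omega)]
      · have h6 : (v ++ [g.val v]).length ≤ i := by
          rw [List.length_append, List.length_singleton]; omega
        rw [List.getD_eq_default v _ (by omega), List.getD_eq_default _ _ h6]

lemma nrm_eq (v : Fin n → ℂ) : nrm v = ‖(WithLp.toLp 2 v : EuclideanSpace ℂ (Fin n))‖ := by
  rw [EuclideanSpace.norm_eq]
  rfl

lemma form_eq (P : List Gate) (out : Fin n → ℕ) (t : ℕ) (ht : t ≤ P.length) (i : ℕ) :
    (trC n P out).form t i = WithLp.toLp 2 (form n (P.take t) i) := by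
  ext k
  exact mem_eq P out _ t ht i

lemma amp_eq (P : List Gate) (out : Fin n → ℕ) (t : ℕ) (ht : t < P.length) :
    (trC n P out).amp 1 t = amp n P out t := by
  unfold Stable.Circuit.amp amp
  rw [form_eq P out (t + 1) ht, nrm_eq, nrm_eq, norm_one, one_mul]
  congr 3
  unfold Stable.Circuit.sens
  congr 1
  funext k
  have h := mem_err_eq P out t ht (P.length - (t + 1)) (by omega) (out k)
  rw [show t + 1 + (P.length - (t + 1)) = P.length by omega] at h
  rw [List.take_of_length_le (by simp)] at h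
  exact h

lemma canc_eq (P : List Gate) (out : Fin n → ℕ) (t : ℕ) (ht : t < P.length) :
    (trC n P out).canc t = cancellation (n := n) nrm P t := by
  have h3 : (trC n P out).gate t = tr P[t] := by
    show tr (P.getD t (Gate.smul 0 0)) = _
    rw [List.getD_eq_getElem _ _ ht]
  unfold Stable.Circuit.canc cancellation
  rw [h3, List.getElem?_eq_getElem ht]
  cases hg : P[t] with
  | add i j => simp only [tr, form_eq P out t ht.le, form_eq P out (t + 1) ht, nrm_eq]
  | sub i j => simp only [tr, form_eq P out t ht.le, form_eq P out (t + 1) ht, nrm_eq]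
  | smul a i => simp only [tr]

/-- the amplification bound for lists of gates -/
theorem stable_bound {n : ℕ} (hn : n ≠ 0) {P : List Gate} {out : Fin n → ℕ}
    (h : ∀ k j : Fin n, form n P (out k) j =
      Complex.exp (2 * Real.pi * Complex.I * (k : ℕ) * (j : ℕ) / n)) :
    n * Real.logb 2 n ≤ ∑ t ∈ additions P, min (Real.logb 2 n)
      (amp n P out t * (11 + 4 * Real.logb 2 (cancellation (n := n) nrm P t))) := by
  have hc : (trC n P out).ComputesDFT 1 := by
    intro x k
    have h1 : (trC n P out).size = P.length := rfl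
    have h2 : (trC n P out).out k = out k := rfl
    rw [h1, h2, Stable.Circuit.mem_eq_sum]
    have h0 : ∑ g ∈ range P.length, (trC n P out).mem (M := ℂ) 0 (Pi.single g 1) P.length
        (out k) • (0 : ℕ → ℂ) g = 0 := Finset.sum_eq_zero fun g _ => by
      rw [Pi.zero_apply, smul_zero]
    rw [h0, add_zero, one_mul]
    refine Finset.sum_congr rfl (fun j _ => ?_)
    rw [smul_eq_mul]
    rw [mem_eq P out _ P.length le_rfl, List.take_length]
    have := h k j
    unfold form at this
    rw [this]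
    congr 2
    ring
  have h1 := Stable.stable_min hn one_ne_zero hc
  have h2 : (trC n P out).additions = additions P := additions_eq P out
  rw [h2] at h1
  refine h1.trans (le_of_eq (Finset.sum_congr rfl fun t ht => ?_))
  have h3 : t < P.length := by
    rw [← additions_eq P out] at ht
    exact (Cancel.mem_additions.mp ht).1
  rw [amp_eq P out t h3, canc_eq P out t h3]

end Vale.Agent.P344.Comb
end
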